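import Vale.Agent.P167W.ZStm
import Vale.Agent.P167.ZLrm

namespace Vale.Agent.P167.Q

open Vale.Agent.P167.Pc Finset

namespace ZAnn2

/-- everything outside is open -/
noncomputable def ft (r : ℝ) (S : Finset (ℤ × ℤ)) (F : Bond → ℝ) : ℝ := fx r S (fun _ => true) F

theorem dom (hd : T_dom) {r : ℝ} (hr : 1 ≤ r) {A S : Finset (ℤ × ℤ)} (hA : A ⊆ S) (ξ : Bond)
    {F H : Bond → ℝ} (hF : Monotone F) (hF' : Dep (A : Set (ℤ × ℤ)) F) (hH : ∀ ω, 0 ≤ H ω)
    (hH' : Dep (A : Set (ℤ × ℤ))ᶜ H) :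
    fx r S ξ (fun ω => F ω * H ω) ≤ ft r A F * fx r S ξ H :=
  (hd _ _ _ _ r ea eb nil S ξ ea eb nil A (fun _ => true) id F H hr (Set.injOn_id _)
    (fun _ he => hA he) hF hF' hH (by rwa [Set.image_id])).1 fun ω ω' _ _ h1 h2 e _ hc =>
      by
        refine Relation.EqvGen.mono (fun u w h => ?_) _ _ hc
        obtain ⟨v, k1, k2⟩ | h := h
        · refine Or.inl ⟨v, ?_, k2⟩
          by_cases hv : v ∈ A
          · have := h2 v hv
            rw [show ω (id v) = true from k1] at this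
            exact top_le_iff.1 this
          · exact h1 v hv
        · exact Or.inr h

theorem c1 {p : Prop} (h : p) : chi p = 1 := by simp [chi, h]

theorem c0 {p : Prop} (h : ¬p) : chi p = 0 := by simp [chi, h]

theorem cnn (p : Prop) : 0 ≤ chi p := by
  by_cases h : p
  · rw [c1 h]; norm_num
  · rw [c0 h]

theorem cle (p : Prop) : chi p ≤ 1 := by
  by_cases h : p
  · rw [c1 h]
  · rw [c0 h]; norm_num

theorem dep_mono {Y Y' : Set (ℤ × ℤ)} {F : Bond → ℝ} (h : Dep Y F) (hY : Y ⊆ Y') : Dep Y' F :=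
  fun ω ω' hω => h ω ω' fun v hv => hω v (hY hv)

theorem prod_low (hl : T_lin) (hf : T_fkg) (r : ℝ) (hr : 1 ≤ r) (A : Finset (ℤ × ℤ))
    (D : ℤ × ℤ → Bond → ℝ) (J : Finset (ℤ × ℤ)) (h0 : ∀ p ω, 0 ≤ D p ω)
    (ha : ∀ p, Antitone (D p)) (hh : ∀ p ∈ J, 1 / 2 ≤ ft r A (D p)) :
    (1 / 2 : ℝ) ^ J.card ≤ ft r A fun ω => ∏ p ∈ J, D p ω := by
  obtain ⟨l1, -, l3, -, -, -⟩ := hl _ _ r ea eb nil A (fun _ => true) (by linarith)
  induction J using Finset.induction_on with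
  | empty =>
    simp only [card_empty, pow_zero, prod_empty]
    exact (l1 1).ge
  | insert p J hp ih =>
    have ih' := ih fun q hq => hh q (mem_insert_of_mem hq)
    have h1 := hh p (mem_insert_self _ _)
    have hm : Antitone fun ω => ∏ q ∈ J, D q ω := fun ω ω' h =>
      prod_le_prod (fun q _ => h0 q _) fun q _ => ha q h
    have h2 := hf _ _ r ea eb nil A (fun _ => true) (fun ω => -1 * D p ω)
      (fun ω => -1 * ∏ q ∈ J, D q ω) hr
      (fun ω ω' h => by have := ha p h; simp only; linarith)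
      (fun ω ω' h => by have := hm h; simp only at this ⊢; linarith)
    rw [l3, l3] at h2
    have e : (fun ω => -1 * D p ω * (-1 * ∏ q ∈ J, D q ω)) =
        fun ω => ∏ q ∈ insert p J, D q ω := by
      funext ω
      rw [prod_insert hp]
      ring
    rw [e] at h2
    rw [card_insert_of_notMem hp, pow_succ]
    unfold ft fx at ih' h1 ⊢
    have h3 : (0 : ℝ) ≤ (1 / 2) ^ J.card := by positivity
    have h4 := mul_le_mul ih' h1 (by norm_num) (h3.trans ih')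
    linarith

theorem geo (g a : ℕ) (ha : 1 ≤ a) (i j : ℤ) (hi : |i| ≤ g + 2) (hj : |j| ≤ g + 2)
    (hij : |i| = g + 2 ∨ |j| = g + 2) :
    zb (((2 * a : ℕ) : ℤ) * i, ((2 * a : ℕ) : ℤ) * j) (g * (2 * a) + 1) ⊆
      zb 0 ((4 * g + 8) * a) \ zb 0 a := by
  intro x hx
  rw [mem_sdiff, mem_zb, mem_zb]
  rw [mem_zb] at hx
  simp only [Prod.fst_zero, Prod.snd_zero] at hx ⊢
  push_cast at hx ⊢
  have ha' : (1 : ℤ) ≤ a := by exact_mod_cast ha
  have hg : (0 : ℤ) ≤ g := Int.natCast_nonneg g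
  obtain ⟨hi1, hi2⟩ := abs_le.1 hi
  obtain ⟨hj1, hj2⟩ := abs_le.1 hj
  obtain ⟨x1, x2, x3, x4⟩ := hx
  have b1 := mul_le_mul_of_nonneg_left hi1 (by linarith : (0 : ℤ) ≤ a)
  have b2 := mul_le_mul_of_nonneg_left hi2 (by linarith : (0 : ℤ) ≤ a)
  have b3 := mul_le_mul_of_nonneg_left hj1 (by linarith : (0 : ℤ) ≤ a)
  have b4 := mul_le_mul_of_nonneg_left hj2 (by linarith : (0 : ℤ) ≤ a)
  refine ⟨⟨by linarith, by linarith, by linarith, by linarith⟩, ?_⟩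
  rintro ⟨y1, y2, y3, y4⟩
  rcases hij with h | h
  · rcases (abs_eq (by linarith)).1 h with h | h <;> subst h <;> linarith
  · rcases (abs_eq (by linarith)).1 h with h | h <;> subst h <;> linarith

end ZAnn2

open ZAnn2 in
theorem z_ann2 (hl : T_lin) (hd : T_dom) (hf : T_fkg) (hz : Z_dep) {r : ℝ} (hr : 1 ≤ r)
    (hW : P167Q.W.WB r) : ∃ (K a₀ : ℕ) (c : ℝ), 2 ≤ K ∧ 1 ≤ a₀ ∧ 0 < c ∧ Ann r K a₀ c := by
  obtain ⟨g, u₀, hg, hW⟩ := hW
  obtain ⟨z1, z2, z3⟩ := hz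
  set I : Finset (ℤ × ℤ) := (Icc (-((g : ℤ) + 2)) (g + 2) ×ˢ Icc (-((g : ℤ) + 2)) (g + 2)).filter
    fun p => |p.1| = g + 2 ∨ |p.2| = g + 2 with hI
  have mI : ∀ p : ℤ × ℤ, p ∈ I ↔
      (|p.1| ≤ g + 2 ∧ |p.2| ≤ g + 2) ∧ (|p.1| = g + 2 ∨ |p.2| = g + 2) := fun p => by
    simp only [hI, mem_filter, mem_product, mem_Icc, abs_le]
  refine ⟨4 * g + 8, u₀ + 1, (1 / 2) ^ I.card, by omega, by omega, by positivity, ?_⟩
  intro a ha S hS H hH hHd
  have ha1 : 1 ≤ a := by omega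
  set A : Finset (ℤ × ℤ) := zb 0 ((4 * g + 8) * a) \ zb 0 a with hA
  set z : ℤ × ℤ → ℤ × ℤ := fun p => (((2 * a : ℕ) : ℤ) * p.1, ((2 * a : ℕ) : ℤ) * p.2) with hzd
  set D : ℤ × ℤ → Bond → ℝ := fun p ω => 1 + -1 * chi (Ar (z p) (2 * a) (g * (2 * a)) ω) with hD
  have hsub : ∀ p ∈ I, zb (z p) (g * (2 * a) + 1) ⊆ A := fun p hp' =>
    geo g a ha1 p.1 p.2 ((mI p).1 hp').1.1 ((mI p).1 hp').1.2 ((mI p).1 hp').2
  have hu : 2 * a ≤ g * (2 * a) := Nat.le_mul_of_pos_left _ (by omega)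
  have h0 : ∀ p ω, 0 ≤ D p ω := fun p ω => by
    have := cle (Ar (z p) (2 * a) (g * (2 * a)) ω)
    simp only [hD]
    linarith
  have h1 : ∀ p ω, D p ω ≤ 1 := fun p ω => by
    have := cnn (Ar (z p) (2 * a) (g * (2 * a)) ω)
    simp only [hD]
    linarith
  have hant : ∀ p, Antitone (D p) := fun p ω ω' h => by
    have := z1 (z p) (2 * a) (g * (2 * a)) h
    simp only [hD] at this ⊢
    linarith
  have hhalf : ∀ p ∈ I, 1 / 2 ≤ ft r A (D p) := fun p hp' => by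
    obtain ⟨l1, l2, l3, -, -, -⟩ := hl _ _ r ea eb nil A (fun _ => true) (by linarith)
    have e1 := dom hd hr (hsub p hp') (fun _ => true) (H := fun _ => 1)
      (z1 (z p) (2 * a) (g * (2 * a))) (z2 (z p) _ _ hu) (fun _ => zero_le_one) fun _ _ _ => rfl
    have e4 : fx r A (fun _ => true) (fun _ => 1) = 1 := l1 1
    simp only [mul_one, e4] at e1
    have e2 := hW (2 * a) (by omega) (z p)
    have e3 : ft r A (D p) = 1 + -1 * ft r A fun ω => chi (Ar (z p) (2 * a) (g * (2 * a)) ω) := by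
      unfold ft fx
      exact (l2 (fun _ => 1) fun ω => -1 * chi (Ar (z p) (2 * a) (g * (2 * a)) ω)).trans
        (by rw [l1, l3])
    unfold ft at e1 e3 ⊢
    linarith
  have hlow := prod_low hl hf r hr A D I h0 hant hhalf
  have hm : Monotone fun ω => -1 * ∏ q ∈ I, D q ω := fun ω ω' h => by
    have : ∏ q ∈ I, D q ω' ≤ ∏ q ∈ I, D q ω :=
      prod_le_prod (fun q _ => h0 q _) fun q _ => hant q h
    simp only
    linarith
  have hdep : Dep (A : Set (ℤ × ℤ)) fun ω => -1 * ∏ q ∈ I, D q ω := fun ω ω' h => by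
    have : ∏ q ∈ I, D q ω = ∏ q ∈ I, D q ω' := prod_congr rfl fun q hq => by
      have := dep_mono (z2 (z q) _ _ hu) (coe_subset.2 (hsub q hq)) ω ω' h
      simp only [hD] at this ⊢
      rw [this]
    simp only
    rw [this]
  have key := dom hd hr (sdiff_subset.trans hS) (fun _ => false) hm hdep hH hHd
  obtain ⟨-, -, l3, -, -, -⟩ := hl _ _ r ea eb nil A (fun _ => true) (by linarith)
  obtain ⟨k1, -, k3, k4, -, -⟩ := hl _ _ r ea eb nil S (fun _ => false) (by linarith)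
  have hpt : ∀ ω, -1 * (H ω * chi (¬ Ar 0 (a + 1) ((4 * g + 8) * a - 1) ω)) ≤
      -1 * (∏ q ∈ I, D q ω) * H ω := fun ω => by
    have : ∏ q ∈ I, D q ω ≤ chi (¬ Ar 0 (a + 1) ((4 * g + 8) * a - 1) ω) := by
      by_cases h : Ar 0 (a + 1) ((4 * g + 8) * a - 1) ω
      · obtain ⟨i, j, hi, hj, hij, har⟩ := z3 g (2 * a) _ _ ω (by omega) (by omega)
          (Nat.le_sub_one_of_lt (by nlinarith)) h
        rw [c0 (not_not.2 h)]
        refine le_of_eq (prod_eq_zero ((mI (i, j)).2 ⟨⟨hi, hj⟩, hij⟩) ?_)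
        simp only [hD, hzd]
        rw [c1 har]
        norm_num
      · rw [c1 h]
        exact prod_le_one (fun q _ => h0 q _) fun q _ => h1 q _
    have := mul_le_mul_of_nonneg_left this (hH ω)
    linarith
  have k5 := k4 _ _ hpt
  rw [k3] at k5
  have k6 := k4 (fun _ => 0) H hH
  rw [k1] at k6
  unfold ft fx at key hlow
  rw [l3] at key
  unfold f0 fx at *
  have k7 := mul_le_mul_of_nonneg_right hlow k6
  linarith

open Filter Topology MeasureTheory in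
theorem z_lrm2 (hl : T_lin) (hi : Z_in) (hx : Z_exp) {r : ℝ} {φ : Measure Bond} (hr : 1 ≤ r)
    (h : FKm r φ) (ha : ∃ (K a₀ : ℕ) (c : ℝ), 2 ≤ K ∧ 1 ≤ a₀ ∧ 0 < c ∧ Ann r K a₀ c) : Lrm φ := by
  obtain ⟨K, a₀, c, hK, ha₀, hc, hA⟩ := ha
  refine ⟨K * K, a₀, c * c, mul_pos hc hc, fun a haa F G F0 G0 dF lG dG => ?_⟩
  obtain ⟨b, hb⟩ : ∃ b, b = K * a := ⟨_, rfl⟩
  have hab : a ≤ b := by rw [hb]; exact Nat.le_mul_of_pos_left a (by omega)
  have hbb : b ≤ K * b := Nat.le_mul_of_pos_left b (by omega)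
  have hk : K * b ≤ 2 ^ (K * K) * a := by
    rw [hb, ← mul_assoc]
    exact Nat.mul_le_mul_right a Nat.lt_two_pow_self.le
  have dG' : Dep (zb 0 (K * b) : Set (ℤ × ℤ))ᶜ G :=
    ZLrm.dep_mono dG (Set.compl_subset_compl.2 (Finset.coe_subset.2 (ZLrm.zb_mono hk)))
  have lF : Pc.Loc F := ⟨zb 0 a, fun ω ω' k => dF ω ω' fun v hv => k v hv⟩
  have l : Pc.Loc fun ω => F ω * G ω := by
    obtain ⟨S, hS⟩ := lF
    obtain ⟨S', hS'⟩ := lG
    exact ⟨S ∪ S', fun ω ω' k => by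
      dsimp only
      rw [hS ω ω' fun v hv => k v (Finset.mem_union_left _ hv),
        hS' ω ω' fun v hv => k v (Finset.mem_union_right _ hv)]⟩
  refine le_of_tendsto_of_tendsto (((ZLrm.lim h lF).mul (ZLrm.lim h lG)).const_mul _)
    (ZLrm.lim h l) ?_
  filter_upwards [eventually_ge_atTop (zb 0 (K * b))] with S hS
  have hS' : zb 0 (K * b) ⊆ S := hS
  have mono : ∀ A B : Bond → ℝ, (∀ ω, A ω ≤ B ω) → f0 r S A ≤ f0 r S B :=
    (hl _ _ r ea eb nil S (fun _ => false) (by linarith)).2.2.2.1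
  have hF0 : 0 ≤ f0 r S F := by
    have e : f0 r S (fun _ => 0) = 0 := (hl _ _ r ea eb nil S (fun _ => false) (by linarith)).1 0
    rw [← e]
    exact mono _ _ F0
  have h1 := hx r S (zb 0 b) (zb 0 (K * b - 1) : Set (ℤ × ℤ))ᶜ F G (c * f0 r S F) hr
    ((ZLrm.zb_mono hbb).trans hS')
    (ZLrm.dep_mono dF (Finset.coe_subset.2 (ZLrm.zb_mono hab))) G0
    (ZLrm.dep_mono dG' fun v hv => Or.inl ((ZLrm.ea_out hv).resolve_right (by omega)))
    (fun S₁ k1 k2 => hi r K a₀ c hr hK ha₀ hc hA a haa S₁ S (hb ▸ k1) k2 F F0 dF)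
  have h2 := hA b (by omega) S hS' G G0 (ZLrm.dep_mono dG'
    (Set.compl_subset_compl.2 (Finset.coe_subset.2 Finset.sdiff_subset)))
  have h3 : f0 r S (fun ω => G ω * chi (¬ Ar 0 (b + 1) (K * b - 1) ω)) ≤
      f0 r S fun ω => G ω * chi (Nt (zb 0 (K * b - 1) : Set (ℤ × ℤ))ᶜ (zb 0 b) ω) := by
    refine mono _ _ fun ω => mul_le_mul_of_nonneg_left (ZLrm.chi_mono fun hn => ?_) (G0 ω)
    intro v hv x hx'
    exact ⟨fun k => hn ⟨_, (ZLrm.ends_in hv).1, x, hx', Relation.EqvGen.symm _ _ k⟩,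
      fun k => hn ⟨_, (ZLrm.ends_in hv).2, x, hx', Relation.EqvGen.symm _ _ k⟩⟩
  have h4 : f0 r S (fun ω => F ω * (G ω * chi (Nt (zb 0 (K * b - 1) : Set (ℤ × ℤ))ᶜ (zb 0 b) ω))) ≤
      f0 r S fun ω => F ω * G ω :=
    mono _ _ fun ω => mul_le_mul_of_nonneg_left
      (mul_le_of_le_one_right (G0 ω) (ZLrm.chi_le _)) (F0 ω)
  have h5 := mul_le_mul_of_nonneg_left (h2.trans h3) (mul_nonneg hc.le hF0)
  calc c * c * (f0 r S F * f0 r S G) = c * f0 r S F * (c * f0 r S G) := by ring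
    _ ≤ _ := h5.trans (h1.trans h4)

end Vale.Agent.P167.Q
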