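import Vale.Agent.P167W.UStm

open Finset Relation Filter Topology MeasureTheory
open scoped Classical BigOperators

namespace Vale.Agent.P167Q.W.U

namespace WElox

theorem pc_nn {μ : Measure Cf} (c : Bool) (a b : ℕ) : 0 ≤ pcm μ c a b := measureReal_nonneg

theorem al_pos {a : ℝ} (ha : Ang a) : 0 < al a := by
  obtain ⟨h0, h1⟩ := ha
  have hp := Real.pi_pos
  unfold al
  refine div_pos ?_ (mul_pos (by positivity) (by linarith))
  nlinarith

theorem big (C K e : ℝ) (hK : 0 < K) (he : 0 < e) (m₀ : ℕ) :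
    ∃ m : ℕ, m₀ ≤ m ∧ 4 ≤ m ∧ C * m ≤ K * Real.exp (e * m) := by
  obtain ⟨m, hm⟩ : ∃ m : ℕ, m = max (max m₀ 4) ⌈2 * C / (K * e ^ 2)⌉₊ := ⟨_, rfl⟩
  refine ⟨m, by omega, by omega, ?_⟩
  have h1 : 2 * C / (K * e ^ 2) ≤ m := (Nat.le_ceil _).trans (by
    have : ⌈2 * C / (K * e ^ 2)⌉₊ ≤ m := by omega
    exact_mod_cast this)
  rw [div_le_iff₀ (by positivity)] at h1
  have hm0 : (0 : ℝ) ≤ m := Nat.cast_nonneg m
  have h2 := Real.quadratic_le_exp_of_nonneg (x := e * m) (by positivity)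
  have h3 : (e * m) ^ 2 / 2 ≤ Real.exp (e * m) := by
    have : 0 ≤ e * m := by positivity
    linarith
  have h4 := mul_le_mul_of_nonneg_left h3 hK.le
  have h5 := mul_le_mul_of_nonneg_right h1 hm0
  nlinarith

theorem step {μ : Measure Cf} (hs : Q_subq μ) (c c' : ℝ) (hc : 0 < c)
    (hr : ∀ a u d : ℕ, 72 ≤ u → a < u → 6 * u ≤ d →
      c * (pcm μ true a (6 * u) * pcm μ true (u - 1) d) ≤ pcm μ true a d)
    (hi : ∀ a ≥ 144, ∀ a' ≤ 24 * a, ∀ d, c' * pcm μ true a' d ≤ pcm μ true a d)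
    (s d : ℕ) (h1 : 1024 ≤ s) (h2 : s - 1 ≤ d) (q : ℝ)
    (hq : q ≤ c * c' * pcm μ true (3 * s) d) : pcm μ true 0 (s - 1) * q ≤ pcm μ true 0 d := by
  have h3 := hr 0 ((s - 1) / 6) d (by omega) (by omega) (by omega)
  have h4 := hs.mc true 0 0 (s - 1) (6 * ((s - 1) / 6)) le_rfl (by omega)
  have h5 := hi ((s - 1) / 6 - 1) (by omega) (3 * s) (by omega) d
  have h6 := pc_nn (μ := μ) true 0 (s - 1)
  calc pcm μ true 0 (s - 1) * q ≤ pcm μ true 0 (s - 1) * (c * c' * pcm μ true (3 * s) d) :=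
        mul_le_mul_of_nonneg_left hq h6
    _ = c * (pcm μ true 0 (s - 1) * (c' * pcm μ true (3 * s) d)) := by ring
    _ ≤ c * (pcm μ true 0 (s - 1) * pcm μ true ((s - 1) / 6 - 1) d) :=
        mul_le_mul_of_nonneg_left (mul_le_mul_of_nonneg_left h5 h6) hc.le
    _ ≤ c * (pcm μ true 0 (6 * ((s - 1) / 6)) * pcm μ true ((s - 1) / 6 - 1) d) :=
        mul_le_mul_of_nonneg_left (mul_le_mul_of_nonneg_right h4 (pc_nn _ _ _)) hc.le
    _ ≤ _ := h3

end WElox

open WElox in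
theorem e_lo {μ : Measure Cf} {a : ℝ} (ha : Ang a) (hm : Mod μ) (hs : Q_subq μ) (hr : Q_ringq μ)
    (hw : Q_rswq μ) (hi : Q_inq μ) (hq : Q_midq μ) (h : R_1q μ a) : E_loq μ a := by
  intro ε hε
  have hal := al_pos ha
  have hl2 : 0 < Real.log 2 := Real.log_pos (by norm_num)
  obtain ⟨c, hc, hr⟩ := hr
  obtain ⟨c', hc', hi⟩ := hi 24
  obtain ⟨C, hm⟩ := hq
  have he : 0 < ε / 4 * Real.log 2 := by positivity
  obtain ⟨m₀, h0⟩ := h.2 _ he
  obtain ⟨m, hm0, hm4, hmC⟩ := big C (c * c') _ (mul_pos hc hc') he m₀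
  obtain ⟨J₁, hJ₁⟩ := eventually_atTop.1 (h0 m hm0)
  obtain ⟨J₀, hJ₀, hJ10⟩ : ∃ J₀ : ℕ, J₁ ≤ J₀ ∧ 10 ≤ J₀ := ⟨max J₁ 10, by omega, by omega⟩
  obtain ⟨κ, hκ⟩ : ∃ κ : ℝ, κ = al a + ε / 2 := ⟨_, rfl⟩
  have hκ0 : 0 < κ := by rw [hκ]; positivity
  have hst : ∀ J ≥ J₀, pcm μ true 0 (2 ^ J - 1) * Real.exp (-(κ * Real.log 2 * m)) ≤
      pcm μ true 0 (2 ^ (J + m) - 1) := by
    intro J hJ
    have h1 : 2 ^ 10 ≤ 2 ^ J := Nat.pow_le_pow_right (by norm_num) (by omega)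
    have h2 : 2 ^ J ≤ 2 ^ (J + m) := Nat.pow_le_pow_right (by norm_num) (by omega)
    refine step hs c c' hc hr hi (2 ^ J) _ (by omega) (by omega) _ ?_
    have h3 := (hJ₁ J (by omega)).trans (hm J (by omega) m hm4)
    have h4 := h3.trans (mul_le_mul_of_nonneg_right hmC (pc_nn _ _ _))
    have h5 : Real.exp (-((al a * Real.log 2 + ε / 4 * Real.log 2) * m)) =
        Real.exp (-(κ * Real.log 2 * m)) * Real.exp (ε / 4 * Real.log 2 * m) := by
      rw [← Real.exp_add, hκ]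
      congr 1
      ring
    rw [h5] at h4
    refine le_of_mul_le_mul_right ?_ (Real.exp_pos (ε / 4 * Real.log 2 * m))
    linarith
  have hit : ∀ t : ℕ, pcm μ true 0 (2 ^ J₀ - 1) * Real.exp (-(κ * Real.log 2 * m * t)) ≤
      pcm μ true 0 (2 ^ (J₀ + t * m) - 1) := by
    intro t
    induction t with
    | zero => simp
    | succ t ih =>
      have h1 := hst (J₀ + t * m) (by omega)
      have h2 := mul_le_mul_of_nonneg_right ih (Real.exp_pos (-(κ * Real.log 2 * m))).le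
      have e1 : J₀ + (t + 1) * m = J₀ + t * m + m := by ring
      have e2 : Real.exp (-(κ * Real.log 2 * m * ((t + 1 : ℕ) : ℝ))) =
          Real.exp (-(κ * Real.log 2 * m * t)) * Real.exp (-(κ * Real.log 2 * m)) := by
        rw [← Real.exp_add]
        congr 1
        push_cast
        ring
      rw [e1, e2, ← mul_assoc]
      exact h2.trans h1
  have hp0 := hw.2 (2 ^ J₀ - 1)
  have hlog : Tendsto (fun n : ℕ => Real.log n) atTop atTop :=
    Real.tendsto_log_atTop.comp tendsto_natCast_atTop_atTop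
  filter_upwards [hlog.eventually_ge_atTop ((κ * Real.log 2 * m -
    Real.log (pcm μ true 0 (2 ^ J₀ - 1))) / (ε / 2)), eventually_ge_atTop 1] with n hn hn1
  rw [div_le_iff₀ (by positivity)] at hn
  obtain ⟨t, ht⟩ : ∃ t : ℕ, t = Nat.log 2 n / m + 1 := ⟨_, rfl⟩
  have hm0' : 0 < m := by omega
  have ht1 : Nat.log 2 n < t * m := by
    rw [ht, mul_comm]
    exact Nat.lt_mul_div_succ _ hm0'
  have ht2 : t * m ≤ Nat.log 2 n + m := by
    rw [ht, add_mul, one_mul]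
    exact Nat.add_le_add_right (Nat.div_mul_le_self _ _) _
  have h1 : n < 2 ^ (J₀ + t * m) :=
    (Nat.lt_pow_succ_log_self (by norm_num) n).trans_le
      (Nat.pow_le_pow_right (by norm_num) (by omega))
  have h2 := hs.mc true 0 0 (2 ^ (J₀ + t * m) - 1) n le_rfl (by omega)
  refine le_trans ?_ ((hit t).trans h2)
  have h3 : (Nat.log 2 n : ℝ) * Real.log 2 ≤ Real.log n := by
    have h4 : ((2 ^ Nat.log 2 n : ℕ) : ℝ) ≤ n := by
      exact_mod_cast Nat.pow_log_le_self 2 (by omega : n ≠ 0)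
    have h5 := Real.log_le_log (by positivity) h4
    push_cast at h5
    rwa [Real.log_pow] at h5
  have h4 : (t : ℝ) * m ≤ Nat.log 2 n + m := by exact_mod_cast ht2
  have h5 : κ * Real.log 2 * m * t ≤ κ * Real.log n + κ * Real.log 2 * m := by
    have h6 := mul_le_mul_of_nonneg_left h4 (mul_pos hκ0 hl2).le
    have h7 := mul_le_mul_of_nonneg_left h3 hκ0.le
    nlinarith
  rw [← Real.exp_log hp0, ← Real.exp_add]
  refine Real.exp_le_exp.2 ?_
  have h6 : (al a + ε) * Real.log n = κ * Real.log n + Real.log n * (ε / 2) := by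
    rw [hκ]; ring
  linarith

end Vale.Agent.P167Q.W.U
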