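import Vale.Agent.P167W.UGff
import Vale.Agent.P167Q.XGood

/-! P167W: the good events and the field estimate for three charges. -/

open Finset Relation Filter Topology MeasureTheory
open scoped Classical BigOperators

namespace Vale.Agent.P167Q.W.U

theorem d_good {a : ℝ} (ha : Ang a) (hs : D_sum) : D_goodq a := by
  intro A θ T hT ω _ C _
  obtain ⟨-, -, a0, a1, -⟩ := hT
  have j0 : T.J ≤ T.J₂ := by
    unfold Tri.J₂
    omega
  have j1 : T.J₁ ≤ T.J₂ := Nat.le_add_right _ _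
  have m0 := (hs A T _ _ a0 j0 ω).1
  have m1 := (hs A T _ _ a1 j1 ω).1
  have e : |T.xx θ 0 ω C| ≤ |θ| := by
    rw [XGoodx.xx_eq, add_zero, zero_mul, sub_zero, ← mul_sub, abs_mul]
    exact mul_le_of_le_one_right (abs_nonneg _) (abs_le.2
      ⟨by linarith [(m0 C).1, (m1 C).2], by linarith [(m0 C).2, (m1 C).1]⟩)
  obtain ⟨e1, e2⟩ := abs_le.1 e
  constructor <;> linarith [ha.1]

theorem d_good3 {a : ℝ} (ha : Ang a) (hs : D_sum) (hd : D_good) : D_good3 a := by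
  intro A θ T hT ω h1 h2 hn C hC
  have k := ((hd A θ T hT ω).2 (by linarith [ha.2]) h2 hn C hC).2
  obtain ⟨-, -, a0, a1, a2⟩ := hT
  have j0 : T.J ≤ T.J₂ := by
    unfold Tri.J₂
    omega
  have j1 : T.J₁ ≤ T.J₂ := Nat.le_add_right _ _
  have m0 := (hs A T _ _ a0 j0 ω).1
  have m1 := (hs A T _ _ a1 j1 ω).1
  have m2 := (hs A T _ _ a2 le_rfl ω).1
  have pi0 := Real.pi_pos
  refine ⟨?_, by linarith [ha.2]⟩
  rw [XGoodx.xx_eq]
  have c2 := mul_nonneg (neg_pos.2 h2).le (sub_nonneg.2 (m0 C).2)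
  have c3 := mul_nonneg (neg_pos.2 h2).le (m1 C).1
  have c4 := mul_nonneg (neg_pos.2 h2).le (m2 C).1
  linarith [ha.2]

theorem scale3 {a g C X : ℝ} (ha : Ang a) (h : |3 / (2 * Real.pi) * g - aa * X| ≤ C) :
    |1 / (Real.pi - a) * g - aq a * X| ≤ 2 * Real.pi / (3 * (Real.pi - a)) * C := by
  have hπ := Real.pi_pos
  have h1 : 0 < Real.pi - a := by linarith [ha.2]
  have hk : 0 < 2 * Real.pi / (3 * (Real.pi - a)) := by positivity
  have e : 1 / (Real.pi - a) * g - aq a * X = 2 * Real.pi / (3 * (Real.pi - a)) *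
      (3 / (2 * Real.pi) * g - aa * X) := by
    unfold aq aa
    field_simp
    ring
  rw [e, abs_mul, abs_of_pos hk]
  exact mul_le_mul_of_nonneg_left h hk.le

open XGffx in
theorem g_gff3 {μ : Measure Cf} {a : ℝ} (hb : Base) (ha : Ang a) (hG : Goalq μ a) (hp : L_fp)
    (ht : G_tf) (hc : G_cel) : G_gff3 μ a := by
  obtain ⟨⟨A, ρ, hρ⟩, ht⟩ := ht
  refine ⟨A, fun θ₁ θ₂ => ?_⟩
  obtain ⟨C, hC⟩ := ht A ρ hρ θ₁ θ₂
  refine ⟨2 * Real.pi / (3 * (Real.pi - a)) * C + 1, fun m₁ m₂ h1 h2 => ?_⟩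
  obtain ⟨hf, hv⟩ := hC m₁ m₂ h1 h2
  have t := (hG _ hf).comp lim
  have hw := abs_le.1 (scale3 ha hv)
  filter_upwards [t.eventually (gt_mem_nhds (a :=
      Real.exp (-(aq a * ((θ₁ + θ₂) ^ 2 * m₁ + θ₂ ^ 2 * m₂)) +
        (2 * Real.pi / (3 * (Real.pi - a)) * C + 1)))
      (Real.exp_lt_exp.2 (by linarith [hw.1])))] with J a2
  simp only [Function.comp_apply, WGffx.nest_eq hb ha hp hc hρ] at a2
  refine ⟨cel J (bmp ρ 0), cel J (bmp ρ m₁), cel J (bmp ρ (m₁ + m₂)),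
    ⟨h1, h2, (hc A ρ hρ J 0).1, (hc A ρ hρ J m₁).1, ?_⟩, a2.le⟩
  show Ad A (J + m₁ + m₂) _
  rw [add_assoc]
  exact (hc A ρ hρ J (m₁ + m₂)).1

theorem r_two {μ : Measure Cf} {a : ℝ} (ha : Ang a) (h0 : R_0q μ a) (h1 : R_1q μ a)
    (hu : I_u1q μ a) (hl : Z_l2 μ a) (hk : K_midq μ) (hd : Q_decq μ) : R_2q μ a := by
  have pi0 := Real.pi_pos
  rcases ha.1.eq_or_lt with h | h
  · intro ε hε
    refine ⟨0, fun m _ => Eventually.of_forall fun J => le_trans ?_ (h0.be J m)⟩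
    rw [← h]
    have := mul_nonneg hε.le (Nat.cast_nonneg (α := ℝ) m)
    linarith
  have hc : Real.cos (Real.pi / 3) ≤ Real.cos a :=
    Real.cos_le_cos_of_nonneg_of_le_pi ha.1 (by linarith) ha.2
  rw [Real.cos_pi_div_three] at hc
  have c0 : 0 < Real.cos a := by linarith
  refine P167.ZR2.r2 h ?_ (fun x y h1 h2 h3 => ?_) ?_ (fun x => ?_) h0.mono h0.one
    (fun J m => (h0.arm 1 J m zero_le_one).1) (fun J m s => ?_) h1.1 hu hl hk hd
  · have := Real.log_pos (show (1 : ℝ) < 2 by norm_num)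
    exact div_pos this (mul_pos (by positivity) (by linarith [ha.2]))
  · exact div_lt_div_of_pos_right (Real.cos_lt_cos_of_nonneg_of_le_pi (by linarith)
      (by linarith [ha.2]) (by linarith)) c0
  · rw [wq, add_zero, div_self c0.ne']
  · rw [wq, div_le_iff₀ c0]
    linarith [Real.cos_le_one (a + x)]
  · unfold bem
    rw [add_assoc]
    ring

end Vale.Agent.P167Q.W.U
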