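import Vale.Agent.P167W.UStm

/-! P167W: the integrated inequalities for one charge. -/

open Finset Relation Filter Topology MeasureTheory
open scoped Classical BigOperators

namespace Vale.Agent.P167Q.W.U

namespace WI1x

theorem cpos {a : ℝ} (ha : Ang a) : 0 < Real.cos a := by
  have := Real.pi_pos
  exact Real.cos_pos_of_mem_Ioo ⟨by linarith [ha.1], by linarith [ha.2]⟩

theorem wq0 {a : ℝ} (ha : Ang a) : wq a 0 = 1 := by
  rw [wq, add_zero, div_self (cpos ha).ne']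

theorem wq_pos {a θ : ℝ} (ha : Ang a) (h : |θ| < Real.pi / 2 - a) : 0 < wq a θ := by
  obtain ⟨h1, h2⟩ := abs_lt.1 h
  exact div_pos (Real.cos_pos_of_mem_Ioo ⟨by linarith [ha.1], by linarith⟩) (cpos ha)

theorem exZ (μ : Measure Cf) (T : Tri) (s : ℝ) :
    (exm μ fun ω => T.Z s 1 ω * (Set.univ : Set Cf).indicator 1 ω) = FFm μ s T.J T.m₁ := by
  simp only [Tri.Z, FFm, one_pow, mul_one, Set.indicator_univ, Pi.one_apply]

theorem b0 (μ : Measure Cf) (a : ℝ) (T : Tri) (θ : ℝ) : bq μ a T θ 0 = θ * bem μ a T.J T.m₁ := by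
  simp only [bq, add_zero, zero_mul]

end WI1x

open WI1x in
theorem i_one {μ : Measure Cf} {a : ℝ} (ha : Ang a) (_hm : Mod μ) (hx : W_bd μ a)
    (hg : G_gffq μ a) (hu : I_upq μ a) (hl : I_loq μ a) (hd : D_goodq a) :
    I_u1q μ a ∧ I_l1q μ a := by
  obtain ⟨A, T, hT, hA⟩ := hg
  refine ⟨fun θ p hp => ?_, fun θ p hθ hp => ?_⟩
  · obtain ⟨C₁, h1⟩ := hA θ
    obtain ⟨C₂, h2⟩ := hu A θ 0 p hp
    refine ⟨C₁ + C₂, fun m hm => ?_⟩
    filter_upwards [h1 m hm] with J ⟨k1, _⟩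
    obtain ⟨ok, eJ, em⟩ := hT J m hm
    have k2 := h2 _ ok Set.univ MeasurableSet.univ
    rw [wq0 ha, abs_one, Real.one_rpow, exZ, b0, add_zero, eJ, em] at k2
    have i1 : Integrable (nnq a (T J m) θ 0) μ := hx.int _ (hx.nb _ _)
    have k3 : exm μ (nnq a (T J m) θ 0) ≤
        exm μ fun ω => |nnq a (T J m) θ 0 ω| * (Set.univ : Set Cf).indicator 1 ω := by
      simp only [Set.indicator_univ, Pi.one_apply, mul_one]
      exact integral_mono i1 i1.abs fun ω => le_abs_self _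
    have k4 := k1.trans (k3.trans k2)
    refine le_of_mul_le_mul_left ?_ (Real.exp_pos (C₂ + θ * bem μ a J m))
    refine le_trans (le_of_eq ?_) k4
    rw [← Real.exp_add]
    congr 1
    ring
  · obtain ⟨C₁, h1⟩ := hA θ
    obtain ⟨C₂, h2⟩ := hl A θ 0 (Real.pi / 2 - a - |θ|) p (by linarith) hp
      (by rw [add_zero]; exact wq_pos ha hθ) (by rw [wq0 ha]; exact one_pos)
    refine ⟨C₁ + C₂, fun m hm => ?_⟩
    filter_upwards [h1 m hm] with J ⟨_, k1⟩
    obtain ⟨ok, eJ, em⟩ := hT J m hm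
    have k2 := h2 _ ok Set.univ MeasurableSet.univ fun ω _ => hd A θ _ ok ω hθ
    rw [wq0 ha, Real.one_rpow, exZ, b0, add_zero, eJ, em] at k2
    simp only [Set.indicator_univ, Pi.one_apply, mul_one] at k2
    refine k2.trans ((mul_le_mul_of_nonneg_left k1 (Real.exp_pos _).le).trans (le_of_eq ?_))
    rw [← Real.exp_add]
    congr 1
    ring

end Vale.Agent.P167Q.W.U
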