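import Vale.Agent.P167W.UStm

/-! P167W: elementary bounds for the loop weight. -/

open Finset Relation Filter Topology MeasureTheory
open scoped Classical BigOperators

namespace Vale.Agent.P167Q.W.U

namespace WInx

theorem cpos {a : ℝ} (ha : Ang a) : 0 < Real.cos a :=
  Real.cos_pos_of_mem_Ioo ⟨by linarith [ha.1, Real.pi_pos], by linarith [ha.2, Real.pi_pos]⟩

theorem wq_eq {a : ℝ} (ha : Ang a) (x : ℝ) : wq a x = Real.cos x - Real.tan a * Real.sin x := by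
  have := cpos ha
  unfold wq
  rw [Real.cos_add, Real.tan_eq_sin_div_cos]
  field_simp

theorem tb {a : ℝ} (ha : Ang a) : 0 ≤ Real.tan a ∧ Real.tan a ≤ 2 := by
  have hπ := Real.pi_pos
  refine ⟨Real.tan_nonneg_of_nonneg_of_le_pi_div_two ha.1 (by linarith [ha.2]), ?_⟩
  have hc : Real.cos (Real.pi / 3) ≤ Real.cos a :=
    Real.cos_le_cos_of_nonneg_of_le_pi ha.1 (by linarith) ha.2
  rw [Real.cos_pi_div_three] at hc
  rw [Real.tan_eq_sin_div_cos, div_le_iff₀ (cpos ha)]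
  linarith [Real.sin_le_one a]

theorem sin_pos' {x : ℝ} (h0 : 0 ≤ x) (h1 : x ≤ 1) : |Real.sin x - x| ≤ x ^ 2 / 4 := by
  rcases h0.eq_or_lt with rfl | h0
  · simp
  · have h2 := Real.sin_gt_sub_cube h0
    have h3 := Real.sin_le h0.le
    rw [abs_le]
    constructor <;> nlinarith [sq_nonneg x, mul_nonneg (sq_nonneg x) (sub_nonneg.2 h1)]

theorem sin_b {x : ℝ} (h : |x| ≤ 1) : |Real.sin x - x| ≤ x ^ 2 / 4 := by
  obtain ⟨h1, h2⟩ := abs_le.1 h
  rcases le_total 0 x with h0 | h0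
  · exact sin_pos' h0 h2
  · have := sin_pos' (x := -x) (by linarith) (by linarith)
    rwa [Real.sin_neg, neg_sq, neg_sub_neg, abs_sub_comm] at this

theorem ww_b {a : ℝ} (ha : Ang a) {x : ℝ} (h : |x| ≤ 1) : 1 - Real.tan a * x - x ^ 2 ≤ wq a x ∧
    wq a x ≤ 1 - Real.tan a * x + x ^ 2 := by
  obtain ⟨h1, h2⟩ := abs_le.1 (sin_b h)
  obtain ⟨a0, b⟩ := tb ha
  have c1 := Real.cos_le_one x
  have c2 := Real.one_sub_sq_div_two_le_cos (x := x)
  rw [wq_eq ha]
  constructor <;> nlinarith [sq_nonneg x, mul_nonneg a0 (sub_nonneg.2 h1),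
    mul_nonneg a0 (sub_nonneg.2 h2), mul_nonneg (sub_nonneg.2 b) (sq_nonneg x)]

theorem mul_b {a : ℝ} (ha : Ang a) (x : ℝ) : |Real.tan a * x| ≤ 2 * |x| := by
  rw [abs_mul, abs_of_nonneg (tb ha).1]
  exact mul_le_mul_of_nonneg_right (tb ha).2 (abs_nonneg x)

theorem upper {a : ℝ} (ha : Ang a) (x : ℝ) :
    |wq a x| ≤ Real.exp (-(Real.tan a * x) + 8 * x ^ 2) := by
  refine le_trans ?_ (Real.add_one_le_exp _)
  obtain ⟨m1, m2⟩ := abs_le.1 (mul_b ha x)
  have e : x ^ 2 = |x| ^ 2 := (sq_abs x).symm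
  rcases le_total |x| (1 / 2) with h | h
  · obtain ⟨h1, h2⟩ := ww_b ha (x := x) (by linarith)
    rw [abs_le]
    constructor <;> nlinarith [sq_nonneg x]
  · have h1 : |wq a x| ≤ 2 := by
      have hc : Real.cos (Real.pi / 3) ≤ Real.cos a :=
        Real.cos_le_cos_of_nonneg_of_le_pi ha.1 (by linarith [Real.pi_pos]) ha.2
      rw [Real.cos_pi_div_three] at hc
      rw [wq, abs_div, abs_of_pos (cpos ha), div_le_iff₀ (cpos ha)]
      linarith [Real.abs_cos_le_one (a + x)]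
    nlinarith

theorem exp_b {u : ℝ} (h : |u| ≤ 1 / 2) : Real.exp (u - 2 * u ^ 2) ≤ 1 + u := by
  obtain ⟨h1, h2⟩ := abs_le.1 h
  have h3 := Real.add_one_le_exp (-(u - 2 * u ^ 2))
  have h4 : Real.exp (u - 2 * u ^ 2) * Real.exp (-(u - 2 * u ^ 2)) = 1 := by
    rw [← Real.exp_add, add_neg_cancel, Real.exp_zero]
  have h5 := Real.exp_pos (u - 2 * u ^ 2)
  have h6 : 0 < -(u - 2 * u ^ 2) + 1 := by nlinarith [sq_nonneg u]
  have h7 : Real.exp (u - 2 * u ^ 2) * (-(u - 2 * u ^ 2) + 1) ≤ 1 :=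
    (mul_le_mul_of_nonneg_left h3 h5.le).trans h4.le
  refine le_of_mul_le_mul_right (h7.trans ?_) h6
  nlinarith [mul_nonneg (sq_nonneg u) (show 0 ≤ 1 + 2 * u by linarith)]

end WInx

open WInx in
theorem d_in {a : ℝ} (ha : Ang a) : D_inq a := by
  refine ⟨upper ha, fun η hη => ?_⟩
  have hπ := Real.pi_pos
  have a0 := ha.1
  obtain ⟨m, hm0, hm1, hm2⟩ : ∃ m : ℝ, 0 < m ∧ m ≤ η ∧ m ≤ Real.pi / 3 :=
    ⟨min η (Real.pi / 3), by positivity, min_le_left _ _, min_le_right _ _⟩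
  have hw : 0 < Real.cos (Real.pi / 2 - m) :=
    Real.cos_pos_of_mem_Ioo ⟨by linarith, by linarith⟩
  generalize hw0 : Real.cos (Real.pi / 2 - m) = w at hw
  have hl1 := neg_abs_le (Real.log w)
  have hl0 := abs_nonneg (Real.log w)
  refine ⟨36 * (4 + |Real.log w|), by positivity, fun x h1 h2 => ?_⟩
  have hlow : Real.exp (Real.log w) ≤ wq a x := by
    have h3 : w ≤ Real.cos (a + x) := by
      rw [← hw0, ← Real.cos_abs (a + x)]
      exact Real.cos_le_cos_of_nonneg_of_le_pi (abs_nonneg _) (by linarith)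
        (abs_le.2 ⟨by linarith, by linarith⟩)
    rw [Real.exp_log hw, wq, le_div_iff₀ (cpos ha)]
    exact (mul_le_of_le_one_right hw.le (Real.cos_le_one a)).trans h3
  refine ⟨le_trans (Real.exp_le_exp.2 (by linarith)) hlow, ?_⟩
  have e : x ^ 2 = |x| ^ 2 := (sq_abs x).symm
  have hx0 := abs_nonneg x
  obtain ⟨m1, m2⟩ := abs_le.1 (mul_b ha x)
  rcases le_total |x| (1 / 6) with h | h
  · obtain ⟨h3, h4⟩ := ww_b ha (x := x) (by linarith)
    have h5 : |wq a x - 1| ≤ 3 * |x| := abs_le.2 ⟨by nlinarith, by nlinarith⟩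
    have h6 : (wq a x - 1) ^ 2 ≤ (3 * |x|) ^ 2 := by
      rw [← sq_abs]
      exact pow_le_pow_left₀ (abs_nonneg _) h5 2
    have h7 := exp_b (u := wq a x - 1) (by linarith)
    rw [add_sub_cancel] at h7
    refine le_trans (Real.exp_le_exp.2 ?_) h7
    nlinarith [mul_nonneg hl0 (sq_nonneg x), sq_nonneg x]
  · refine le_trans (Real.exp_le_exp.2 ?_) hlow
    have h3 : |x| ≤ 2 := abs_le.2 ⟨by linarith [Real.pi_le_four], by linarith [Real.pi_le_four]⟩
    have h4 : 1 ≤ 36 * x ^ 2 := by nlinarith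
    nlinarith [mul_le_mul_of_nonneg_left h4 (show 0 ≤ 4 + |Real.log w| by positivity)]

end Vale.Agent.P167Q.W.U
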