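import Vale.Agent.P167W.UStm

/-! Elementary properties of the generating function of the number of loops. -/

open Finset Relation Filter Topology MeasureTheory
open scoped Classical BigOperators

namespace Vale.Agent.P167Q.W.U

namespace WR0x

theorem ex_ind {μ : Measure Cf} {B : Set Cf} (hB : MeasurableSet B) :
    exm μ (B.indicator 1) = μ.real B :=
  integral_indicator_one hB

end WR0x

theorem r_zero {μ : Measure Cf} {a : ℝ} (hb : Base) (hq : X_geo) (hd : X_dep) (ha : Ang a)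
    (hm : Mod μ) (hx : W_bd μ a) : R_0q μ a := by
  have := hm.prob
  have hi : ∀ (t : ℝ) (J m : ℕ), Integrable (fun ω => t ^ N1 J m ω) μ := fun t J m =>
    hx.int _ (hx.mid _ _ fun k => t ^ k)
  refine ⟨fun s t J m hs hst => ⟨?_, ?_⟩, fun J m => ?_, fun t J m ht => ⟨?_, ?_⟩,
    fun J m => ?_, fun J m => ?_⟩
  · exact integral_nonneg fun ω => pow_nonneg hs _
  · exact integral_mono (hi s J m) (hi t J m) fun ω => pow_le_pow_left₀ hs hst _
  · simp [FFm, exm]
  · exact measureReal_nonneg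
  · have hM : MeasurableSet {ω | ¬NoArm (3 * 2 ^ J) (2 ^ (J + m) - 1) ω} :=
      ((hb.loc _ _).2 _ (hd.arm0 _ _)).1
    rw [ppm, pam, ← WR0x.ex_ind hM]
    refine integral_mono (hx.int _ (hx.ind _ hM)) (hi t J m) fun ω => ?_
    by_cases h : ω ∈ {ω | ¬NoArm (3 * 2 ^ J) (2 ^ (J + m) - 1) ω}
    · rw [Set.indicator_of_mem h]
      show (1 : ℝ) ≤ t ^ N1 J m ω
      rw [N1, hq.zero _ _ ω h, pow_zero]
    · rw [Set.indicator_of_notMem h]
      exact pow_nonneg ht _
  · refine mul_nonneg (Real.tan_nonneg_of_nonneg_of_le_pi_div_two ha.1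
      (by linarith [ha.2, Real.pi_pos])) (sub_nonneg.2 ?_)
    refine integral_mono (hx.int _ (hx.ns _ _ fun k => (k : ℝ)))
      (hx.int _ (hx.ns _ _ fun k => (k : ℝ))) fun ω => ?_
    exact Nat.cast_le.2 (hq.nsm _ _ 0 ω (Nat.pow_le_pow_right (by norm_num) (Nat.le_add_right J m)))
  · have h1 : 1 ≤ 3 * 2 ^ J := Nat.succ_le_of_lt (by positivity)
    have hl : Le (box (2 ^ (J + m) - 1 + 1) \ box (3 * 2 ^ J - 1)) {ω : Cf | N1 J m ω = 0} := by
      intro ω ω' h
      show (N1 J m ω = 0) = (N1 J m ω' = 0)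
      rw [N1, N1, hd.mid _ _ h1 ω ω' h]
    have hM : MeasurableSet {ω : Cf | N1 J m ω = 0} := ((hb.loc _ _).2 _ hl).1
    rw [← WR0x.ex_ind hM, FFm]
    congr 1
    funext ω
    by_cases h : N1 J m ω = 0
    · rw [Set.indicator_of_mem (show ω ∈ {ω : Cf | N1 J m ω = 0} from h), h, pow_zero]
      rfl
    · rw [Set.indicator_of_notMem (show ω ∉ {ω : Cf | N1 J m ω = 0} from h), zero_pow h]

end Vale.Agent.P167Q.W.U
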