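import Vale.Agent.P167W.UStm
import Vale.Agent.P167Q.XR1

/-! P167W: upper bound on the drift and lower bound on the probability of no loop. -/

open Finset Relation Filter Topology MeasureTheory
open scoped Classical BigOperators

namespace Vale.Agent.P167Q.W.U

namespace WR1x

theorem part_a {μ : Measure Cf} {a : ℝ} (ha : Ang a) (h0 : R_0q μ a) (hu : I_u1q μ a) :
    ∃ C : ℝ, ∀ m : ℕ, 4 ≤ m → ∀ᶠ J in atTop, bem μ a J m ≤ 2 * a * aq a * m + C := by
  rcases ha.1.eq_or_lt with h | h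
  · refine ⟨0, fun m _ => Eventually.of_forall fun J => ?_⟩
    rw [← h]
    simp [bem]
  obtain ⟨C, hC⟩ := hu (-(2 * a)) 2 one_lt_two
  have hp := Real.pi_pos
  have hc : 0 < Real.cos a := Real.cos_pos_of_mem_Ioo ⟨by linarith, by linarith [ha.2]⟩
  have hw : wq a (-(2 * a)) = 1 := by
    unfold wq
    rw [show a + -(2 * a) = -a by ring, Real.cos_neg, div_self hc.ne']
  refine ⟨C / (2 * a), fun m hm => (hC m hm).mono fun J hJ => ?_⟩
  rw [hw, abs_one, Real.one_rpow, h0.one, Real.one_rpow, Real.exp_le_one_iff] at hJ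
  have ht : 0 < 2 * a := by positivity
  generalize 2 * a = t at hJ ht
  rw [← sub_le_iff_le_add', le_div_iff₀ ht]
  nlinarith

end WR1x

theorem r_one {μ : Measure Cf} {a : ℝ} (ha : Ang a) (h0 : R_0q μ a) (hu : I_u1q μ a) :
    R_1q μ a := by
  refine ⟨WR1x.part_a ha h0 hu, fun ε hε => ?_⟩
  obtain ⟨C1, hC1⟩ := WR1x.part_a ha h0 hu
  have hpi := Real.pi_pos
  have a0 := ha.1
  have a1 := ha.2
  have hl : 0 < Real.log 2 := Real.log_pos one_lt_two
  obtain ⟨θ, hθ⟩ : ∃ θ : ℝ, θ = Real.pi / 2 - a := ⟨_, rfl⟩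
  have θ0 : 0 < θ := by linarith
  have d0 : 0 < Real.pi - a := by linarith
  obtain ⟨k, hk⟩ : ∃ k : ℝ, k = al a * Real.log 2 := ⟨_, rfl⟩
  have hak : aq a * θ ^ 2 + θ * (2 * a * aq a) = k := by
    rw [hk, hθ]
    unfold aq al
    field_simp
    ring
  have hk0 : 0 < k := by
    have : 0 < aq a := by
      unfold aq
      positivity
    rw [← hak]
    positivity
  have hq : 0 < ε / (2 * k) := by positivity
  obtain ⟨p, hpd⟩ : ∃ p : ℝ, p = 1 + ε / (2 * k) := ⟨_, rfl⟩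
  have hp1 : 1 < p := by linarith
  have hp0 : 0 < p := by linarith
  have hpk : k * p = k + ε / 2 := by
    rw [hpd]
    field_simp
  obtain ⟨C, hC⟩ := hu θ p hp1
  have hw : wq a θ = 0 := by
    unfold wq
    rw [show a + θ = Real.pi / 2 by linarith, Real.cos_pi_div_two, zero_div]
  obtain ⟨m₁, hm₁⟩ := exists_nat_ge ((θ * C1 + C) * p / (ε / 2))
  refine ⟨max 4 m₁, fun m hm => ?_⟩
  have hm4 : 4 ≤ m := (le_max_left _ _).trans hm
  have hm2 : (m₁ : ℝ) ≤ m := by exact_mod_cast (le_max_right _ _).trans hm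
  filter_upwards [hC m hm4, hC1 m hm4] with J h1 h2
  rw [hw, abs_zero, Real.zero_rpow hp0.ne'] at h1
  rw [← hk]
  refine le_trans (Real.exp_le_exp.mpr ?_)
    (XR1x.pow_le (h0.mono 0 0 J m le_rfl le_rfl).1 hp0 h1)
  have h3 : (θ * C1 + C) * p ≤ m * (ε / 2) :=
    (div_le_iff₀ (by positivity)).mp (hm₁.trans hm2)
  have h4 : θ * bem μ a J m ≤ θ * (2 * a * aq a * m + C1) :=
    mul_le_mul_of_nonneg_left h2 θ0.le
  have h5 : -(k * m) - (θ * C1 + C) ≤ -(aq a * θ ^ 2 * m) - θ * bem μ a J m - C := by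
    rw [← hak]
    linarith
  have h6 := mul_le_mul_of_nonneg_right h5 hp0.le
  have h7 : (-(k * m) - (θ * C1 + C)) * p = -((k + ε / 2) * m) - (θ * C1 + C) * p := by
    rw [← hpk]
    ring
  linarith

end Vale.Agent.P167Q.W.U
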