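import Vale.Agent.P167W.UStm
import Vale.Agent.P167Q.XUp

/-! P167W: deterministic upper and lower bounds for the loop weight with angle `a`. -/

open Finset Relation Filter Topology MeasureTheory
open scoped Classical BigOperators

namespace Vale.Agent.P167Q.W.U

namespace WUpx

open XUpx (qq ind qq_nn ind_nn filt j0 j1 rad err xs_bd)

noncomputable def facq (a : ℝ) (T : Tri) (θ₁ θ₂ s t c₁ c₂ : ℝ) (ω : Cf) (C : Set Sq) : ℝ :=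
  (if T.M₁ ω C then s else 1) * (if T.M₂ ω C then t else 1) *
    Real.exp (-(Real.tan a * T.xs θ₁ θ₂ ω C) + (c₁ * qq T ω C + c₂ * ind T ω C))

theorem nn_eq (a : ℝ) (T : Tri) (θ₁ θ₂ : ℝ) {ω : Cf} (h : AllF ω) :
    nnq a T θ₁ θ₂ ω = ∏ C ∈ cls ω (box T.R), wq a (T.xx θ₁ θ₂ ω C) := by
  unfold nnq nq cls
  refine prod_congr rfl fun C hC => ?_
  obtain ⟨x, -, rfl⟩ := mem_image.1 hC
  rw [if_pos (h x)]
  rfl

theorem prodE (a : ℝ) (hb : Base) (hs : D_sum) {A : ℝ} {T : Tri} (hT : T.Ok A) (θ₁ θ₂ s t c₁ c₂ : ℝ)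
    (ω : Cf) : ∏ C ∈ cls ω (box T.R), facq a T θ₁ θ₂ s t c₁ c₂ ω C =
      T.Z s t ω * Real.exp (-(Real.tan a * T.Y θ₁ θ₂ ω) +
        (c₁ * ∑ C ∈ cls ω (box T.R), qq T ω C + c₂ * ∑ C ∈ cls ω (box T.R), ind T ω C)) := by
  have e0 := (hs A T _ _ hT.2.2.1 (j0 T) ω).2.2.1
  have e1 := (hs A T _ _ hT.2.2.2.1 (j1 T) ω).2.2.1
  have e2 := (hs A T _ _ hT.2.2.2.2 le_rfl ω).2.2.1
  have m1 : (cls ω (box T.R)).filter (T.M₁ ω) = _ := filt hb ω _ (rad T (j1 T))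
  have m2 : (cls ω (box T.R)).filter (T.M₂ ω) = _ := filt hb ω _ (rad T le_rfl)
  have eY : ∑ C ∈ cls ω (box T.R), T.xs θ₁ θ₂ ω C = T.Y θ₁ θ₂ ω := by
    simp only [Tri.xs, Tri.Y, sum_sub_distrib, ← mul_sum, e0, e1, e2]
  unfold facq
  rw [prod_mul_distrib, prod_mul_distrib, ← Real.exp_sum, ← prod_filter, ← prod_filter,
    prod_const, prod_const, m1, m2, sum_add_distrib, sum_add_distrib, sum_neg_distrib,
    ← mul_sum, ← mul_sum, ← mul_sum, eY]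
  rfl

theorem tan_bd {a : ℝ} (ha : Ang a) : 0 ≤ Real.tan a ∧ Real.tan a ≤ Real.sqrt 3 := by
  have hp := Real.pi_pos
  have h0 := ha.1
  have h1 := ha.2
  refine ⟨Real.tan_nonneg_of_nonneg_of_le_pi_div_two h0 (by linarith), ?_⟩
  rw [← Real.tan_pi_div_three]
  rcases h1.eq_or_lt with h | h
  · rw [h]
  · exact (Real.tan_lt_tan_of_nonneg_of_lt_pi_div_two h0 (by linarith) h).le

theorem xs_bq {a : ℝ} (ha : Ang a) (hs : D_sum) {A : ℝ} {T : Tri} (hT : T.Ok A) (θ₁ θ₂ : ℝ)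
    (ω : Cf) (C : Set Sq) :
    |Real.tan a * T.xs θ₁ θ₂ ω C| ≤ 2 * (|θ₁ + θ₂| + |θ₁| + |θ₂|) ∧
      T.xs θ₁ θ₂ ω C ^ 2 ≤ ((θ₁ + θ₂) ^ 2 + θ₁ ^ 2 + θ₂ ^ 2) * qq T ω C := by
  obtain ⟨b1, b2⟩ := xs_bd hs hT θ₁ θ₂ ω C
  obtain ⟨t0, t1⟩ := tan_bd ha
  refine ⟨le_trans ?_ b1, b2⟩
  rw [abs_mul, abs_mul, abs_of_nonneg t0, abs_of_nonneg (Real.sqrt_nonneg 3)]
  exact mul_le_mul_of_nonneg_right t1 (abs_nonneg _)

theorem wq_two {a : ℝ} (ha : Ang a) (x : ℝ) : |wq a x| ≤ Real.exp 1 := by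
  have hp := Real.pi_pos
  have h0 := ha.1
  have h1 := ha.2
  have hc : Real.cos (Real.pi / 3) ≤ Real.cos a :=
    Real.cos_le_cos_of_nonneg_of_le_pi h0 (by linarith) (by linarith)
  rw [Real.cos_pi_div_three] at hc
  have hc0 : 0 < Real.cos a := by linarith
  unfold wq
  rw [abs_div, abs_of_pos hc0, div_le_iff₀ hc0]
  have h2 := Real.abs_cos_le_one (a + x)
  have h3 := Real.add_one_le_exp (1 : ℝ)
  have h4 : 2 * (1 / 2 : ℝ) ≤ Real.exp 1 * Real.cos a :=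
    mul_le_mul (by linarith) hc (by norm_num) (Real.exp_pos _).le
  linarith

theorem dup_pf {a : ℝ} (hb : Base) (ha : Ang a) (hi : D_inq a) (hc : D_cls) (hs : D_sum) :
    D_upq a := by
  intro A θ₁ θ₂
  obtain ⟨c₁, hc₁⟩ : ∃ c, c = 8 * ((θ₁ + θ₂) ^ 2 + θ₁ ^ 2 + θ₂ ^ 2) := ⟨_, rfl⟩
  obtain ⟨c₂, hc₂⟩ : ∃ c, c = 1 + 2 * (|θ₁ + θ₂| + |θ₁| + |θ₂|) := ⟨_, rfl⟩
  have h1 : 0 ≤ c₁ := by rw [hc₁]; positivity
  have h2 : 0 ≤ c₂ := by rw [hc₂]; positivity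
  refine ⟨c₁ * |A| + c₂, by positivity, fun T hT ω hω => ?_⟩
  have key : ∀ C ∈ cls ω (box T.R),
      |wq a (T.xx θ₁ θ₂ ω C)| ≤ facq a T θ₁ θ₂ |wq a (θ₁ + θ₂)| |wq a θ₂| c₁ c₂ ω C := by
    intro C hC
    obtain ⟨a1, a2, a3⟩ := hc A θ₁ θ₂ T hT ω C hC
    obtain ⟨b1, b2⟩ := xs_bq ha hs hT θ₁ θ₂ ω C
    have p1 := mul_nonneg h1 (qq_nn T ω C)
    have p2 := mul_nonneg h2 (ind_nn T ω C)
    unfold facq
    by_cases m1 : T.M₁ ω C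
    · obtain ⟨d1, d2, d3⟩ := a1 m1
      rw [if_pos m1, if_neg d1, d2, d3, mul_one]
      exact le_mul_of_one_le_right (abs_nonneg _) (Real.one_le_exp (by linarith))
    by_cases m2 : T.M₂ ω C
    · obtain ⟨d2, d3⟩ := a2 m2
      rw [if_neg m1, if_pos m2, d2, d3, one_mul]
      exact le_mul_of_one_le_right (abs_nonneg _) (Real.one_le_exp (by linarith))
    rw [if_neg m1, if_neg m2, one_mul, one_mul]
    rcases a3 m1 m2 with d | d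
    · refine (wq_two ha _).trans (Real.exp_le_exp.2 ?_)
      have e : ind T ω C = 1 := if_pos d
      rw [e]
      linarith [le_abs_self (Real.tan a * T.xs θ₁ θ₂ ω C)]
    · rw [d]
      refine (hi.1 _).trans (Real.exp_le_exp.2 ?_)
      rw [hc₁] at p1 ⊢
      linarith
  rw [nn_eq a T θ₁ θ₂ hω, Finset.abs_prod]
  refine (prod_le_prod (fun C _ => abs_nonneg _) key).trans ?_
  rw [prodE a hb hs hT]
  refine mul_le_mul_of_nonneg_left (Real.exp_le_exp.2 ?_) (by unfold Tri.Z; positivity)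
  linarith [err hs hT h1 h2 ω]

theorem dlo_pf {a : ℝ} (hb : Base) (ha : Ang a) (hi : D_inq a) (hc : D_cls) (hs : D_sum) :
    D_loq a := by
  intro A θ₁ θ₂ η hη
  obtain ⟨c, c0, hw⟩ := hi.2 η hη
  obtain ⟨c₁, hc₁⟩ : ∃ k, k = c * ((θ₁ + θ₂) ^ 2 + θ₁ ^ 2 + θ₂ ^ 2) := ⟨_, rfl⟩
  obtain ⟨c₂, hc₂⟩ : ∃ k, k = c + 2 * (|θ₁ + θ₂| + |θ₁| + |θ₂|) := ⟨_, rfl⟩
  have h1 : 0 ≤ c₁ := by rw [hc₁]; positivity
  have h2 : 0 ≤ c₂ := by rw [hc₂]; positivity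
  refine ⟨c₁ * |A| + c₂, by positivity, fun T hT ω hω hG => ?_⟩
  have key : ∀ C ∈ cls ω (box T.R),
      0 ≤ facq a T θ₁ θ₂ (wq a (θ₁ + θ₂)) (wq a θ₂) (-c₁) (-c₂) ω C ∧
      facq a T θ₁ θ₂ (wq a (θ₁ + θ₂)) (wq a θ₂) (-c₁) (-c₂) ω C ≤ wq a (T.xx θ₁ θ₂ ω C) := by
    intro C hC
    obtain ⟨a1, a2, a3⟩ := hc A θ₁ θ₂ T hT ω C hC
    obtain ⟨b1, b2⟩ := xs_bq ha hs hT θ₁ θ₂ ω C
    obtain ⟨w1, w2⟩ := hw _ (hG C hC).1 (hG C hC).2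
    have w0 : 0 ≤ wq a (T.xx θ₁ θ₂ ω C) := (Real.exp_pos _).le.trans w1
    have p1 := mul_nonneg h1 (qq_nn T ω C)
    have p2 := mul_nonneg h2 (ind_nn T ω C)
    unfold facq
    by_cases m1 : T.M₁ ω C
    · obtain ⟨d1, d2, d3⟩ := a1 m1
      rw [if_pos m1, if_neg d1, ← d2, d3, mul_one]
      exact ⟨mul_nonneg w0 (Real.exp_pos _).le,
        mul_le_of_le_one_right w0 (Real.exp_le_one_iff.2 (by linarith))⟩
    by_cases m2 : T.M₂ ω C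
    · obtain ⟨d2, d3⟩ := a2 m2
      rw [d2] at w0
      rw [if_neg m1, if_pos m2, d2, d3, one_mul]
      exact ⟨mul_nonneg w0 (Real.exp_pos _).le,
        mul_le_of_le_one_right w0 (Real.exp_le_one_iff.2 (by linarith))⟩
    rw [if_neg m1, if_neg m2, one_mul, one_mul]
    refine ⟨(Real.exp_pos _).le, ?_⟩
    rcases a3 m1 m2 with d | d
    · refine (Real.exp_le_exp.2 ?_).trans w1
      have e : ind T ω C = 1 := if_pos d
      rw [e]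
      linarith [neg_abs_le (Real.tan a * T.xs θ₁ θ₂ ω C)]
    · refine (Real.exp_le_exp.2 ?_).trans w2
      rw [d]
      have p3 := mul_le_mul_of_nonneg_left b2 c0
      rw [← mul_assoc, ← hc₁] at p3
      linarith
  have hP := prod_nonneg fun C hC => (key C hC).1
  have hL := prod_le_prod (fun C hC => (key C hC).1) fun C hC => (key C hC).2
  rw [prodE a hb hs hT] at hP hL
  rw [nn_eq a T θ₁ θ₂ hω]
  refine le_trans (mul_le_mul_of_nonneg_left (Real.exp_le_exp.2 ?_)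
    (nonneg_of_mul_nonneg_left hP (Real.exp_pos _))) hL
  linarith [err hs hT h1 h2 ω]

end WUpx

theorem d_up {a : ℝ} (hb : Base) (ha : Ang a) (hi : D_inq a) (hc : D_cls) (hs : D_sum) :
    D_upq a ∧ D_loq a :=
  ⟨WUpx.dup_pf hb ha hi hc hs, WUpx.dlo_pf hb ha hi hc hs⟩

end Vale.Agent.P167Q.W.U
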