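import Vale.Agent.P167W.UStm

open Finset Relation Filter Topology MeasureTheory
open scoped Classical BigOperators

namespace Vale.Agent.P167Q.W.U

namespace WZnumx

theorem lt {q : ℝ} (h1 : 1 ≤ q) : Real.arccos (√q / 2) ≤ Real.pi / 3 := by
  have a1 : 1 ≤ √q := Real.one_le_sqrt.2 h1
  have : Real.arccos (1 / 2) = Real.pi / 3 := by
    rw [← Real.cos_pi_div_three]
    exact Real.arccos_cos (by linarith [Real.pi_pos]) (by linarith [Real.pi_pos])
  rw [← this]
  exact Real.arccos_le_arccos (by linarith)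

end WZnumx

theorem z_num : Z_num := by
  intro q h2 _
  have h := WZnumx.lt h2
  have h0 := Real.arccos_nonneg (√q / 2)
  have hp := Real.pi_pos
  rw [neg_div, Real.arccos_neg]
  unfold Ang al
  obtain ⟨a, ha⟩ : ∃ a, a = Real.arccos (√q / 2) := ⟨_, rfl⟩
  rw [← ha] at h h0 ⊢
  have hb : Real.pi - a ≠ 0 := by
    have : 0 < Real.pi - a := by linarith
    exact this.ne'
  refine ⟨⟨h0, h⟩, ?_, ?_⟩
  · field_simp
  · field_simp
    ring

end Vale.Agent.P167Q.W.U
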