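import Vale.Agent.P167W.WStm
import Vale.Agent.P167Q.XSub

/-! P167W: arms across annuli of large ratio are rare. -/

open Finset Relation Filter Topology MeasureTheory
open scoped Classical BigOperators

namespace Vale.Agent.P167Q.W

namespace WArmx

theorem mono {μ : Measure Cf} (hb : Base) (hm : Mod μ) {a a' b b' : ℕ} (h1 : a ≤ a')
    (h2 : b' ≤ b) : pam μ a b ≤ pam μ a' b' := by
  have := hm.prob
  exact measureReal_mono fun ω h => XSubx.arm_mono hb h1 h2 h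

theorem scale (J₀ u : ℕ) (h : 3 * 2 ^ J₀ < u) : ∃ J, J₀ ≤ J ∧ u ≤ 3 * 2 ^ J ∧ 2 ^ J ≤ u := by
  have ex : ∃ J, u ≤ 3 * 2 ^ J := ⟨u, by have := @Nat.lt_two_pow_self u; omega⟩
  have k1 := Nat.find_spec ex
  have k2 : J₀ < Nat.find ex := by
    by_contra k
    have := Nat.pow_le_pow_right (show 0 < 2 by norm_num) (not_lt.1 k)
    omega
  obtain ⟨j, hj⟩ : ∃ j, Nat.find ex = j + 1 := ⟨Nat.find ex - 1, by omega⟩
  have k3 := Nat.find_min ex (show j < Nat.find ex by omega)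
  refine ⟨Nat.find ex, k2.le, k1, ?_⟩
  rw [hj, pow_succ]
  omega

end WArmx

theorem k_arm {μ : Measure Cf} (hb : Base) (hm : Mod μ) (hl : W_lim μ) (h : K_arm0 μ) :
    K_armq μ := by
  intro ε hε
  obtain ⟨m, hm1⟩ := h ε hε
  obtain ⟨J₀, hJ⟩ := eventually_atTop.1 hm1
  obtain ⟨K, hK⟩ := ((hl (3 * 2 ^ J₀)).eventually (eventually_le_nhds hε)).exists
  refine ⟨max (2 ^ m) K + 1, by omega, fun u hu => ?_⟩
  by_cases k : u ≤ 3 * 2 ^ J₀
  · refine (WArmx.mono hb hm k ?_).trans hK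
    exact ((le_max_right _ _).trans (Nat.le_succ _)).trans (Nat.le_mul_of_pos_right _ hu)
  · obtain ⟨J, k1, k2, k3⟩ := WArmx.scale J₀ u (not_le.1 k)
    refine (WArmx.mono hb hm k2 ?_).trans (hJ J k1)
    refine (Nat.sub_le _ _).trans ?_
    rw [pow_add, mul_comm]
    exact Nat.mul_le_mul ((le_max_left _ _).trans (Nat.le_succ _)) k3

end Vale.Agent.P167Q.W
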