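import Vale.Agent.P167W.WStm

/-! P167W: smallness of the arm probability from the field identity. -/

open Finset Relation Filter Topology MeasureTheory
open scoped Classical BigOperators

namespace Vale.Agent.P167Q.W

namespace WArm0x

theorem w0 {a : ℝ} (ha : Ang a) : wq a 0 = 1 := by
  have c : 0 < Real.cos a :=
    Real.cos_pos_of_mem_Ioo ⟨by linarith [ha.1, Real.pi_pos], by linarith [ha.2, Real.pi_pos]⟩
  rw [wq, add_zero, div_self c.ne']

theorem wp {a θ : ℝ} (ha : Ang a) (h : |θ| = Real.pi / 8) : 0 ≤ wq a (θ + 0) := by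
  have := abs_le.1 h.le
  exact div_nonneg (Real.cos_nonneg_of_mem_Icc ⟨by linarith [ha.1, Real.pi_pos],
    by linarith [ha.2, Real.pi_pos]⟩) (Real.cos_nonneg_of_mem_Icc
      ⟨by linarith [ha.1, Real.pi_pos], by linarith [ha.2, Real.pi_pos]⟩)

theorem one {a θ A : ℝ} (hg : X_geo) (ha : Ang a) (h1 : D_loq a) (h2 : D_goodq a)
    (h : |θ| = Real.pi / 8) : ∃ c : ℝ, 0 ≤ c ∧ ∀ T : Tri, T.Ok A → ∀ ω, AllF ω →
      0 ≤ nnq a T θ 0 ω ∧ (¬NoArm (3 * 2 ^ T.J) (2 ^ (T.J + T.m₁) - 1) ω →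
        Real.exp (-(Real.tan a * T.Y θ 0 ω) - c * T.V ω) ≤ nnq a T θ 0 ω) := by
  have l : |θ| < Real.pi / 2 - a := by linarith [ha.2, Real.pi_pos]
  obtain ⟨c, c0, hc⟩ := h1 A θ 0 _ (sub_pos.2 l)
  refine ⟨c, c0, fun T hT ω hω => ?_⟩
  have e := hc T hT ω hω (h2 A θ T hT ω l)
  rw [w0 ha, Tri.Z, one_pow, mul_one] at e
  refine ⟨le_trans (mul_nonneg (pow_nonneg (wp ha h) _) (Real.exp_pos _).le) e, fun n => ?_⟩
  rwa [N1, hg.zero _ _ _ n, pow_zero, one_mul] at e

theorem num {y c d V K p q : ℝ} (c0 : 0 ≤ c) (d0 : 0 ≤ d) (V0 : 0 ≤ V) (K0 : 0 < K)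
    (hp : Real.exp (-y - c * V) ≤ p) (hq : Real.exp (y - d * V) ≤ q) :
    1 ≤ V / K + Real.exp ((c + d) * K) * (p + q) := by
  have p0 := (Real.exp_pos _).le.trans hp
  have q0 := (Real.exp_pos _).le.trans hq
  have E := Real.exp_pos ((c + d) * K)
  rcases le_total K V with h | h
  · have := (one_le_div K0).2 h
    nlinarith [mul_nonneg E.le (add_nonneg p0 q0)]
  · have s : Real.exp (-((c + d) * K)) ≤ p + q := by
      have a1 := mul_le_mul_of_nonneg_left h c0
      have a2 := mul_le_mul_of_nonneg_left h d0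
      have a3 := mul_nonneg c0 K0.le
      have a4 := mul_nonneg d0 K0.le
      rcases le_total y 0 with g | g
      · have := (Real.exp_le_exp.2 (by linarith : -((c + d) * K) ≤ -y - c * V)).trans hp
        linarith
      · have := (Real.exp_le_exp.2 (by linarith : -((c + d) * K) ≤ y - d * V)).trans hq
        linarith
    have t := mul_le_mul_of_nonneg_left s E.le
    rw [← Real.exp_add, add_neg_cancel, Real.exp_zero] at t
    linarith [div_nonneg V0 K0.le]

end WArm0x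

open WArm0x

theorem k_arm0 {μ : Measure Cf} {a : ℝ} (hb : Base) (hg : X_geo) (hd : X_dep) (ha : Ang a)
    (hm : Mod μ) (hf : W_fin μ) (hx : W_bd μ a) (he : K_ev μ) (h1 : D_loq a) (h2 : D_goodq a)
    (h3 : G_gffq μ a) : K_arm0 μ := by
  intro ε hε
  have := hm.prob
  have π0 := Real.pi_pos
  obtain ⟨A, T, hT, hG⟩ := h3
  obtain ⟨CV, hV⟩ := he
  have t1 : |Real.pi / 8| = Real.pi / 8 := abs_of_pos (by positivity)
  have t2 : |-(Real.pi / 8)| = Real.pi / 8 := (abs_neg _).trans t1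
  obtain ⟨c, c0, hc⟩ := one (A := A) hg ha h1 h2 t1
  obtain ⟨d, d0, hd'⟩ := one (A := A) hg ha h1 h2 t2
  obtain ⟨C1, g1⟩ := hG (Real.pi / 8)
  obtain ⟨C2, g2⟩ := hG (-(Real.pi / 8))
  obtain ⟨K, K0, hK⟩ : ∃ K > 0, CV / K ≤ ε / 2 := ⟨(|CV| + 1) / (ε / 2), by positivity, by
    rw [div_div_eq_mul_div, div_le_iff₀ (by positivity)]
    nlinarith [le_abs_self CV]⟩
  have q0 : 0 < aq a * (Real.pi / 8) ^ 2 := mul_pos (div_pos (Real.log_pos (by norm_num))
    (mul_pos (by positivity) (by linarith [ha.2]))) (by positivity)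
  have lim : ∀ C : ℝ, Tendsto (fun m : ℕ => Real.exp (-(aq a * (Real.pi / 8) ^ 2 * m) + C)) atTop
      (𝓝 0) := fun C => Real.tendsto_exp_atBot.comp (tendsto_atBot_add_const_right _ _
    (tendsto_neg_atTop_atBot.comp (tendsto_natCast_atTop_atTop.const_mul_atTop q0)))
  have l2 := ((lim C1).add (lim C2)).const_mul (Real.exp ((c + d) * K))
  rw [add_zero, mul_zero] at l2
  obtain ⟨m, m4, hm'⟩ := ((eventually_ge_atTop 4).and
    (l2.eventually (eventually_le_nhds (half_pos hε)))).exists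
  refine ⟨m, ?_⟩
  filter_upwards [g1 m m4, g2 m m4] with J u1 u2
  obtain ⟨ok, eJ, em⟩ := hT J m m4
  obtain ⟨v1, v2, v3⟩ := hV A _ ok
  have ms := ((hb.loc _ _).2 _ (hd.arm0 (3 * 2 ^ J) (2 ^ (J + m) - 1))).1
  have i0 := hx.int _ v1
  have i1 : Integrable (nnq a (T J m) (Real.pi / 8) 0) μ := hx.int _ (hx.nb _ _)
  have i2 : Integrable (nnq a (T J m) (-(Real.pi / 8)) 0) μ := hx.int _ (hx.nb _ _)
  have key := integral_mono_ae (hx.int _ (hx.ind _ ms))
    ((i0.div_const K).add ((i1.add i2).const_mul (Real.exp ((c + d) * K)))) (by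
      filter_upwards [hf] with ω hω
      obtain ⟨a1, a2⟩ := hc _ ok ω hω
      obtain ⟨b1, b2⟩ := hd' _ ok ω hω
      rw [eJ, em] at a2 b2
      by_cases n : NoArm (3 * 2 ^ J) (2 ^ (J + m) - 1) ω
      · rw [Set.indicator_of_notMem (show ω ∉ {ω | ¬NoArm _ _ ω} from fun h => h n)]
        exact add_nonneg (div_nonneg (v2 ω) K0.le)
          (mul_nonneg (Real.exp_pos _).le (add_nonneg a1 b1))
      · rw [Set.indicator_of_mem (show ω ∈ {ω | ¬NoArm _ _ ω} from n)]
        refine num c0 d0 (v2 ω) K0 (a2 n) (le_trans (le_of_eq ?_) (b2 n))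
        congr 1
        simp only [Tri.Y]
        ring)
  rw [integral_indicator_one ms, integral_add' (i0.div_const K) ((i1.add i2).const_mul _),
    integral_div, integral_const_mul, integral_add' i1 i2] at key
  have w1 : (∫ ω, (T J m).V ω ∂μ) / K ≤ CV / K := div_le_div_of_nonneg_right v3 K0.le
  have w2 := mul_le_mul_of_nonneg_left (add_le_add u1.2 u2.2) (Real.exp_pos ((c + d) * K)).le
  rw [neg_sq] at w2
  simp only [exm] at w2
  show μ.real _ ≤ ε
  linarith

end Vale.Agent.P167Q.W
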