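import Vale.Agent.P167W.WStm

/-! P167W: basic properties of the arm events. -/

open Finset Relation Filter Topology MeasureTheory
open scoped Classical BigOperators

namespace Vale.Agent.P167Q.W

namespace WAzx

theorem ed_co (v : Sq) (b i : Bool) :
    v.1 - 1 ≤ (ed v b i).1 ∧ (ed v b i).1 ≤ v.1 ∧ v.2 - 1 ≤ (ed v b i).2 ∧
      (ed v b i).2 ≤ v.2 := by
  unfold ed
  split_ifs <;> simp

theorem ed_ev (v : Sq) (b i : Bool) : Even ((ed v b i).1 + (ed v b i).2) ↔ b = true := by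
  unfold ed
  by_cases h : Even (v.1 + v.2)
  · have h' := Int.even_iff.1 h
    rw [decide_eq_true h, Int.even_iff]
    cases b <;> cases i <;> simp <;> omega
  · have h' : ¬(v.1 + v.2) % 2 = 0 := fun e => h (Int.even_iff.2 e)
    rw [decide_eq_false h, Int.even_iff]
    cases b <;> cases i <;> simp <;> omega

theorem esc (B : Finset Sq) (ω ω' : Cf) (S : Sq → Prop)
    (h : ∀ v c i, ed v c i ∈ B → ¬S (ed v c (!i)) → ω v = ω' v) {u y : Sq}
    (hy : y ∉ B) (p : ReflTransGen (Op ω) u y) :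
    (∃ x, S x ∧ ¬clus ω' x ⊆ B) ∨ ¬clus ω' u ⊆ B := by
  induction p using ReflTransGen.head_induction_on with
  | refl => exact Or.inr fun hh => hy (Finset.mem_coe.1 (hh ReflTransGen.refl))
  | @head u u' h1 h2 ih =>
    rcases ih with ih | ih
    · exact Or.inl ih
    by_cases hu : u ∈ B
    · by_cases hs : S u'
      · exact Or.inl ⟨u', hs, ih⟩
      · obtain ⟨v, i, e1, e2⟩ := h1
        have e : ω v = ω' v := h v (ω v) i (by rw [← e1]; exact hu) (by rw [← e2]; exact hs)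
        refine Or.inr fun hh => ih fun z hz => hh ?_
        exact ReflTransGen.head ⟨v, i, by rw [← e]; exact e1, by rw [← e]; exact e2⟩ hz
    · exact Or.inr fun hh => hu (Finset.mem_coe.1 (hh ReflTransGen.refl))

theorem ed_out {z v : Sq} {N : ℕ} {c i : Bool} (h : ed v c i ∈ bz z N) : v ∈ bz z (N + 1) := by
  have h1 := mem_bz.1 h
  have h2 := ed_co v c i
  rw [mem_bz]
  push_cast
  omega

theorem ed_in {z v : Sq} {n : ℕ} (hn : 1 ≤ n) (c i : Bool) (h : v ∈ bz z (n - 1)) :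
    ed v c i ∈ bz z n := by
  have h1 := mem_bz.1 h
  have h2 := ed_co v c i
  rw [mem_bz]
  omega

theorem esc0 {z : Sq} {N : ℕ} {ω ω' : Cf} (h : ∀ i ∈ bz z (N + 1), ω i = ω' i) {x : Sq}
    (hx : ¬clus ω x ⊆ bz z N) : ¬clus ω' x ⊆ bz z N := by
  obtain ⟨y, hy, hy'⟩ := Set.not_subset.1 hx
  rcases esc (bz z N) ω ω' (fun _ => False) (fun v c i hv _ => h v (ed_out hv))
    (fun e => hy' (Finset.mem_coe.2 e)) hy with ⟨_, h1, _⟩ | h1
  · exact h1.elim
  · exact h1

theorem aa_imp {z : Sq} {n N : ℕ} (hn : 1 ≤ n) {ω ω' : Cf}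
    (h : ∀ i ∈ bz z (N + 1) \ bz z (n - 1), ω i = ω' i) (hω : ω ∈ AA z n N) : ω' ∈ AA z n N := by
  obtain ⟨x, hx, hc⟩ := hω
  obtain ⟨y, hy, hy'⟩ := Set.not_subset.1 hc
  rcases esc (bz z N) ω ω' (fun u => u ∈ bz z n) (fun v c i hv hs => h v
    (mem_sdiff.2 ⟨ed_out hv, fun hv' => hs (ed_in hn c (!i) hv')⟩))
    (fun e => hy' (Finset.mem_coe.2 e)) hy with h1 | h1
  · exact h1
  · exact ⟨x, hx, h1⟩

theorem col {ω : Cf} {x y : Sq} (p : ReflTransGen (Op ω) x y) :
    Even (y.1 + y.2) ↔ Even (x.1 + x.2) := by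
  induction p with
  | refl => exact Iff.rfl
  | tail _ h2 ih =>
    obtain ⟨v, i, e1, e2⟩ := h2
    rw [← ih, e1, e2, ed_ev, ed_ev]

theorem path {ω ω' : Cf} {x : Sq} (h : ∀ v i, ed v (ω v) i ∈ clus ω x → ω v = ω' v) :
    clus ω x ⊆ clus ω' x := by
  intro y p
  have p' : ReflTransGen (Op ω) x y := p
  induction p' with
  | refl => exact ReflTransGen.refl
  | tail h1 h2 ih =>
    obtain ⟨v, i, e1, e2⟩ := h2
    have e : ω v = ω' v := h v i (by rw [← e1]; exact h1)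
    exact ReflTransGen.tail (ih h1) ⟨v, i, by rw [← e]; exact e1, by rw [← e]; exact e2⟩

theorem bz_add (z x t : Sq) (s : ℕ) : x + t ∈ bz (z + t) s ↔ x ∈ bz z s := by
  simp only [mem_bz, Prod.fst_add, Prod.snd_add]
  omega

theorem par (x t : Sq) (c : Bool) : decide (Even (x.1 + x.2)) = c ↔
    decide (Even ((x + t).1 + (x + t).2)) = xor (decide (Odd (t.1 + t.2))) c := by
  have e : Even ((x + t).1 + (x + t).2) ↔ (Even (x.1 + x.2) ↔ ¬Odd (t.1 + t.2)) := by
    rw [Int.even_iff, Int.even_iff, Int.odd_iff, Prod.fst_add, Prod.snd_add]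
    omega
  by_cases h : Even (x.1 + x.2) <;> by_cases k : Odd (t.1 + t.2) <;> cases c <;>
    simp only [e, h, k] <;> simp

theorem shf (hs : X_sh) (c : Bool) (z : Sq) (n N : ℕ) (t : Sq) (ω : Cf) :
    sh t ω ∈ AZ c z n N ↔ ω ∈ AZ (xor (decide (Odd (t.1 + t.2))) c) (z + t) n N := by
  have k : ∀ x, clus (sh t ω) x ⊆ bz z N ↔ clus ω (x + t) ⊆ bz (z + t) N := fun x => by
    constructor
    · intro h v hv
      obtain ⟨y, rfl⟩ : ∃ y, v = y + t := ⟨v - t, (sub_add_cancel v t).symm⟩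
      exact (bz_add z y t N).2 (h ((hs.cl t ω x y).2 hv))
    · intro h y hy
      exact (bz_add z y t N).1 (h ((hs.cl t ω x y).1 hy))
  constructor
  · rintro ⟨x, h1, h2, h3⟩
    exact ⟨x + t, (bz_add z x t n).2 h1, (par x t c).1 h2, fun h => h3 ((k x).2 h)⟩
  · rintro ⟨v, h1, h2, h3⟩
    obtain ⟨x, rfl⟩ : ∃ x, v = x + t := ⟨v - t, (sub_add_cancel v t).symm⟩
    exact ⟨x, (bz_add z x t n).1 h1, (par x t c).2 h2, fun h => h3 ((k x).1 h)⟩

theorem bz_mono (z : Sq) {n n' : ℕ} (h : n ≤ n') : bz z n ⊆ bz z n' := fun x hx => by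
  have := mem_bz.1 hx
  rw [mem_bz]
  omega

end WAzx

open WAzx in
theorem w_az (hb : Base) (hs : X_sh) (hd : X_dep) : W_az where
  lc := fun c z n N ω ω' h => propext
    ⟨fun ⟨x, h1, h2, h3⟩ => ⟨x, h1, h2, esc0 h h3⟩,
      fun ⟨x, h1, h2, h3⟩ => ⟨x, h1, h2, esc0 (fun i hi => (h i hi).symm) h3⟩⟩
  lr := fun R z n N ω ω' h => propext
    ⟨fun ⟨x, h1, h2, h3, h4⟩ => ⟨x, h1, h2, h3, esc0 h h4⟩,
      fun ⟨x, h1, h2, h3, h4⟩ => ⟨x, h1, h2, h3, esc0 (fun i hi => (h i hi).symm) h4⟩⟩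
  la := fun z n N hn _ ω ω' h => propext ⟨aa_imp hn h, aa_imp hn fun i hi => (h i hi).symm⟩
  up := fun z n N => by
    constructor
    · rintro ω ω' hle ⟨x, h1, h2, h3⟩
      refine ⟨x, h1, h2, fun hh => h3 ((path fun v i hv => ?_).trans hh)⟩
      have e : ω v = true := (ed_ev v (ω v) i).1 ((col hv).2 (of_decide_eq_true h2))
      have k : ω v ≤ ω' v := hle v
      rw [e] at k ⊢
      exact (top_le_iff.1 k).symm
    · rintro ω ω' hle ⟨x, h1, h2, h3⟩
      refine ⟨x, h1, h2, fun hh => h3 ((path fun v i hv => ?_).trans hh)⟩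
      have e : ω v = false := Bool.eq_false_iff.2 fun e =>
        of_decide_eq_false h2 ((col hv).1 ((ed_ev v (ω v) i).2 e))
      have k : ω' v ≤ ω v := hle v
      rw [e] at k ⊢
      exact (le_bot_iff.1 k).symm
  shf := shf hs
  un := fun z n N => by
    ext ω
    constructor
    · rintro ⟨x, h1, h2⟩
      by_cases h : Even (x.1 + x.2)
      · exact Or.inl ⟨x, h1, decide_eq_true h, h2⟩
      · exact Or.inr ⟨x, h1, decide_eq_false h, h2⟩
    · rintro (⟨x, h1, -, h2⟩ | ⟨x, h1, -, h2⟩) <;> exact ⟨x, h1, h2⟩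
  mono := fun c z n n' N N' h1 h2 ω ⟨x, a1, a2, a3⟩ =>
    ⟨x, bz_mono z h1 a1, a2, fun hh => a3 (hh.trans (Finset.coe_subset.2 (bz_mono z h2)))⟩
  zero := fun c n N => by
    refine ⟨by simp only [AZ, BA, bz_zero], ?_⟩
    ext ω
    simp only [AA, NoArm, bz_zero, Set.mem_ofPred_eq, not_forall, exists_prop]
  cut := fun R z n N ω hR ⟨x, h1, h2, h3, h4⟩ => by
    refine ⟨x, h1, decide_eq_true h2, fun hh => h4 ((path fun v i hv => ?_).trans hh)⟩
    have e : ω v = true := (ed_ev v (ω v) i).1 ((col hv).2 h2)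
    unfold cutR
    rw [if_neg]
    intro ht
    obtain ⟨j, hj⟩ := (mem_filter.1 ht).2
    have m : ed v true j ∈ clus ω x := by
      by_cases hij : j = i
      · rw [hij, ← e]
        exact hv
      · have e2 : j = !i := by cases i <;> cases j <;> simp_all
        exact ReflTransGen.tail hv ⟨v, i, rfl, by rw [e, e2]⟩
    have s := hR _ hj ((ed_ev v true j).2 rfl)
    rw [hb.bas.cleq ω x _ m] at s
    exact h3 (s (hb.bas.self ω x))
  le := fun μ hm c z n N => by
    have := hm.prob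
    have sub : AZ c z n N ⊆ sh z ⁻¹' {ω | ¬NoArm n N ω} := by
      intro ω hω
      have k : sh z ω ∈ AZ (xor (decide (Odd (z.1 + z.2))) c) 0 n N := by
        rw [shf hs, zero_add, ← Bool.xor_assoc, Bool.xor_self, Bool.false_xor]
        exact hω
      obtain ⟨x, h1, -, h3⟩ := k
      rw [bz_zero] at h1 h3
      exact fun hn => h3 (hn x h1)
    refine (measureReal_mono sub).trans (le_of_eq ?_)
    rw [pam, Measure.real, Measure.real, (hm.inv z).measure_preimage
      ((hb.loc _ _).2 _ (hd.arm0 n N)).1.nullMeasurableSet]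
  off := fun W W' t G ⟨⟨V, h1, h2⟩, h3⟩ hW => by
    refine ⟨⟨V.image (· + t), fun ω ω' h => h1 _ _ fun i hi => ?_, ?_⟩, fun ω => h3 _⟩
    · unfold sh
      rw [h (i + t) (mem_image_of_mem _ hi)]
    · rw [Finset.disjoint_left]
      intro v hv hv'
      obtain ⟨u, hu, rfl⟩ := mem_image.1 hv
      have := hW _ hv'
      rw [add_sub_cancel_right] at this
      exact Finset.disjoint_left.1 h2 hu this

end Vale.Agent.P167Q.W
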