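import Vale.Agent.P167W.WStm

open Finset Relation Filter Topology MeasureTheory
open scoped Classical BigOperators

namespace Vale.Agent.P167Q.W

open Vale.Agent.P152 (IsTest gcov Vx Site v6)
open Vale.Agent.P167 (Q.ea Q.eb Q.fx Q.f0 Q.FKm Pc.chi Pc.Loc Pc.ins Pc.loop)
open Vale.Agent.P153.RSW (Ev)

namespace WBasex

theorem key {X E : Type} (a b : E → X) (S : Finset E) (ω ω₀ : E → Bool)
    (h1 : ∀ v ∈ S, ω v = ω₀ v)
    (h2 : ∀ v ∉ S, ω v = true → ∀ e ∈ S, a v ≠ a e ∧ a v ≠ b e ∧ b v ≠ a e ∧ b v ≠ b e)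
    {x y : X} (h : P167.Q.Cn a b P167.Q.nil ω x y) :
    ((∃ e ∈ S, x = a e ∨ x = b e) ↔ ∃ e ∈ S, y = a e ∨ y = b e) ∧
      ((∃ e ∈ S, x = a e ∨ x = b e) → P167.Q.Cn a b P167.Q.nil ω₀ x y) := by
  induction h with
  | rel u w h =>
    rcases h with ⟨v, hv, rfl, rfl⟩ | h
    · by_cases hS : v ∈ S
      · exact ⟨⟨fun _ => ⟨v, hS, Or.inr rfl⟩, fun _ => ⟨v, hS, Or.inl rfl⟩⟩,
          fun _ => EqvGen.rel _ _ (Or.inl ⟨v, (h1 v hS).symm.trans hv, rfl, rfl⟩)⟩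
      · have k1 : ¬∃ e ∈ S, a v = a e ∨ a v = b e := by
          rintro ⟨e, he, h | h⟩
          · exact (h2 v hS hv e he).1 h
          · exact (h2 v hS hv e he).2.1 h
        have k2 : ¬∃ e ∈ S, b v = a e ∨ b v = b e := by
          rintro ⟨e, he, h | h⟩
          · exact (h2 v hS hv e he).2.2.1 h
          · exact (h2 v hS hv e he).2.2.2 h
        exact ⟨⟨fun h => absurd h k1, fun h => absurd h k2⟩, fun h => absurd h k1⟩
    · exact h.elim
  | refl u => exact ⟨Iff.rfl, fun _ => EqvGen.refl _⟩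
  | symm u w _ ih => exact ⟨ih.1.symm, fun h => EqvGen.symm _ _ (ih.2 (ih.1.2 h))⟩
  | trans u w z _ _ ih1 ih2 =>
    exact ⟨ih1.1.trans ih2.1, fun h => EqvGen.trans _ _ _ (ih1.2 h) (ih2.2 (ih1.1.1 h))⟩

theorem wt_eq {X E : Type} [DecidableEq E] (r : ℝ) (a b : E → X) (S A : Finset E) (ξ : E → Bool)
    (h2 : ∀ v ∉ S, ξ v = true → ∀ e ∈ S, a v ≠ a e ∧ a v ≠ b e ∧ b v ≠ a e ∧ b v ≠ b e) :
    P167.Q.wt r a b P167.Q.nil S (P167.Q.cf S ξ A) =
      P167.Q.wt r a b P167.Q.nil S (P167.Q.cf S (fun _ => false) A) := by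
  have h1 : ∀ v ∈ S, P167.Q.cf S ξ A v = P167.Q.cf S (fun _ => false) A v := fun v hv => by
    simp only [P167.Q.cf, if_pos hv]
  have hc : P167.Q.cnt S (P167.Q.cf S ξ A) = P167.Q.cnt S (P167.Q.cf S (fun _ => false) A) := by
    unfold P167.Q.cnt
    rw [Finset.filter_congr fun v hv => by rw [h1 v hv]]
  have hk : P167.Q.kk a b P167.Q.nil S (P167.Q.cf S ξ A) =
      P167.Q.kk a b P167.Q.nil S (P167.Q.cf S (fun _ => false) A) := by
    unfold P167.Q.kk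
    refine congrArg Set.ncard (Set.image_congr fun x hx => ?_)
    have hP : ∃ e ∈ S, x = a e ∨ x = b e := by
      rcases hx with ⟨e, he, rfl⟩ | ⟨e, he, rfl⟩
      · exact ⟨e, he, Or.inl rfl⟩
      · exact ⟨e, he, Or.inr rfl⟩
    ext y
    constructor
    · intro h
      refine (key a b S _ _ h1 (fun v hv h3 => h2 v hv ?_) h).2 hP
      simpa only [P167.Q.cf, if_neg hv] using h3
    · intro h
      refine (key a b S _ _ (fun v hv => (h1 v hv).symm) (fun v hv h3 => ?_) h).2 hP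
      simp only [P167.Q.cf, if_neg hv] at h3
      exact absurd h3 (by decide)
  unfold P167.Q.wt
  rw [hc, hk]

end WBasex

theorem v_base : V_base := by
  intro r S ξ F hF h
  unfold P167.Q.f0 P167.Q.fx P167.Q.ex P167.Q.sm
  have h1 : ∀ A, F (P167.Q.cf S ξ A) = F (P167.Q.cf S (fun _ => false) A) := fun A =>
    hF _ _ fun v hv => by simp only [P167.Q.cf, if_pos hv]
  simp only [WBasex.wt_eq r Q.ea Q.eb S _ ξ h, h1]

end Vale.Agent.P167Q.W
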