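import Vale.Agent.P167W.WStm
import Vale.Agent.P167Q.XBd

/-! P167W: bounded measurable observables. -/

open Finset Relation Filter Topology MeasureTheory
open scoped Classical BigOperators

namespace Vale.Agent.P167Q.W

open XBdx (Stab agree)

namespace WBdx

variable {μ : Measure Cf}

theorem aem (hb : Base) (hf : W_fin μ) {G : Cf → ℝ} (h : Stab G) : AEMeasurable G μ := by
  refine aemeasurable_of_tendsto_metrizable_ae'
    (f := fun K ω => G fun v => if v ∈ box K then ω v else false) (fun K => ?_) ?_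
  · refine ((hb.loc _ (box K)).1 _ fun ω ω' hω => congrArg G (funext fun v => ?_)).1.aemeasurable
    by_cases hv : v ∈ box K
    · rw [if_pos hv, if_pos hv, hω v hv]
    · rw [if_neg hv, if_neg hv]
  · filter_upwards [hf] with ω hω
    obtain ⟨K, hK⟩ := h ω hω
    refine tendsto_const_nhds.congr' ?_
    filter_upwards [eventually_ge_atTop K] with L hL
    exact (hK _ fun v hv => by rw [if_pos (hb.bas.mono K L hL hv)]).symm

theorem cnt (hb : Base) (hf : W_fin μ) {n : Cf → ℕ} (N : ℕ) (hn : ∀ ω, n ω ≤ N) (hs : Stab n)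
    (F : ℕ → ℝ) : Bdm μ fun ω => F (n ω) := by
  refine ⟨aem hb hf fun ω hω => ?_, ∑ k ∈ range (N + 1), |F k|, fun ω => ?_⟩
  · obtain ⟨K, hK⟩ := hs ω hω
    exact ⟨K, fun ω' h => congrArg F (hK ω' h)⟩
  · exact single_le_sum (f := fun k => |F k|) (fun k _ => abs_nonneg _)
      (mem_range.2 (Nat.lt_succ_of_le (hn ω)))

theorem add {G H : Cf → ℝ} (hG : Bdm μ G) (hH : Bdm μ H) : Bdm μ fun ω => G ω + H ω := by
  obtain ⟨g, M, hM⟩ := hG
  obtain ⟨h, M', hM'⟩ := hH
  exact ⟨g.add h, M + M', fun ω => (abs_add_le _ _).trans (add_le_add (hM ω) (hM' ω))⟩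

theorem const (c : ℝ) : Bdm μ fun _ => c := ⟨aemeasurable_const, |c|, fun _ => le_rfl⟩

theorem wq_le {a : ℝ} (ha : Ang a) (θ : ℝ) : |wq a θ| ≤ 2 := by
  have hp := Real.pi_pos
  have h1 : Real.cos (Real.pi / 3) ≤ Real.cos a :=
    Real.cos_le_cos_of_nonneg_of_le_pi ha.1 (by linarith) (by linarith [ha.2])
  rw [Real.cos_pi_div_three] at h1
  have h2 : 0 < Real.cos a := by linarith
  rw [wq, abs_div, abs_of_pos h2, div_le_iff₀ h2]
  linarith [Real.abs_cos_le_one (a + θ)]

theorem nq_le {a : ℝ} (ha : Ang a) (φ : Sq → ℝ) (R : ℕ) (ω : Cf) :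
    |nq a φ R ω| ≤ 2 ^ (box R).card := by
  rw [nq, abs_prod]
  refine (prod_le_prod (g := fun _ => (2 : ℝ)) (fun _ _ => abs_nonneg _) fun C _ => ?_).trans ?_
  · split_ifs
    · exact wq_le ha _
    · norm_num
  · rw [prod_const]
    exact pow_le_pow_right₀ (by norm_num) card_image_le

end WBdx

open WBdx

theorem w_bd {μ : Measure Cf} {a : ℝ} (hb : Base) (hg : X_geo) (ha : Ang a) (hm : Mod μ)
    (hf : W_fin μ) : W_bd μ a where
  loc W G h := by
    refine ⟨((hb.loc _ W).1 G h).1.aemeasurable, ∑ η : W → Bool, |G (xt W η)|, fun ω => ?_⟩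
    have e : G ω = G (xt W fun i => ω i) := h _ _ fun i hi => by simp only [xt, dif_pos hi]
    rw [e]
    exact single_le_sum (f := fun η : W → Bool => |G (xt W η)|) (fun _ _ => abs_nonneg _)
      (mem_univ _)
  ns s x F := by
    refine cnt hb hf (n := ns s x) (bz x s).card
      (fun ω => (card_filter_le _ _).trans card_image_le) (fun ω hω => ?_) F
    obtain ⟨K, hK⟩ := agree hb hg hω (bz x s)
    refine ⟨K, fun ω' h => ?_⟩
    unfold P167Q.ns
    rw [(hK ω' h).1]
    exact congrArg card (filter_congr fun C hC => by rw [(hK ω' h).2 C hC])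
  kb s z F := by
    refine cnt hb hf (n := kb s z) (bz z (3 * s)).card
      (fun ω => (card_filter_le _ _).trans card_image_le) (fun ω hω => ?_) F
    obtain ⟨K, hK⟩ := agree hb hg hω (bz z (3 * s))
    refine ⟨K, fun ω' h => ?_⟩
    unfold P167Q.kb
    rw [(hK ω' h).1]
  kE s I R F := by
    refine cnt hb hf (n := kE s I R) (til I).card
      (fun ω => (card_filter_le _ _).trans card_image_le) (fun ω hω => ?_) F
    obtain ⟨K, hK⟩ := agree hb hg hω (til I)
    refine ⟨K, fun ω' h => ?_⟩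
    unfold W.kE
    rw [(hK ω' h).1]
  mid a b F := by
    refine cnt hb hf (n := mid a b) (box b).card
      (fun ω => (card_filter_le _ _).trans card_image_le) (fun ω hω => ?_) F
    obtain ⟨K, hK⟩ := agree hb hg hω (box b)
    refine ⟨K, fun ω' h => ?_⟩
    unfold P167Q.mid
    rw [(hK ω' h).1]
    exact congrArg card (filter_congr fun C hC => by rw [IsMid, IsMid, (hK ω' h).2 C hC])
  nb φ R := by
    refine ⟨aem hb hf fun ω hω => ?_, _, nq_le ha φ R⟩
    obtain ⟨K, hK⟩ := agree hb hg hω (box R)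
    refine ⟨K, fun ω' h => ?_⟩
    exact prod_congr (hK ω' h).1 fun C hC => by rw [(hK ω' h).2 C hC]
  const := const
  add G H := add
  sub G H hG hH := by
    obtain ⟨g, M, hM⟩ := hG
    obtain ⟨h, M', hM'⟩ := hH
    exact ⟨g.sub h, M + M', fun ω => (abs_sub _ _).trans (add_le_add (hM ω) (hM' ω))⟩
  mul G H hG hH := by
    obtain ⟨g, M, hM⟩ := hG
    obtain ⟨h, M', hM'⟩ := hH
    refine ⟨g.mul h, M * M', fun ω => ?_⟩
    rw [abs_mul]
    exact mul_le_mul (hM ω) (hM' ω) (abs_nonneg _) ((abs_nonneg _).trans (hM ω))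
  sum ι s G h := by
    induction s using Finset.induction_on with
    | empty => simpa only [sum_empty] using const 0
    | insert a s ha ih =>
      simp only [sum_insert ha]
      exact add (h a (mem_insert_self _ _)) (ih fun i hi => h i (mem_insert_of_mem hi))
  cont G F hG hF := by
    obtain ⟨g, M, hM⟩ := hG
    obtain ⟨C, hC⟩ := (isCompact_Icc (a := -M) (b := M)).exists_bound_of_continuousOn
      hF.continuousOn
    exact ⟨hF.measurable.comp_aemeasurable g, C, fun ω => hC _ (abs_le.1 (hM ω))⟩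
  ind B hB := by
    refine ⟨(measurable_one.indicator hB).aemeasurable, 1, fun ω => ?_⟩
    by_cases h : ω ∈ B
    · rw [Set.indicator_of_mem h, Pi.one_apply, abs_one]
    · rw [Set.indicator_of_notMem h, abs_zero]
      exact zero_le_one
  int G hG := by
    obtain ⟨g, M, hM⟩ := hG
    have := hm.prob
    exact Integrable.of_bound g.aestronglyMeasurable M (ae_of_all _ hM)

end Vale.Agent.P167Q.W
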