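import Vale.Agent.P167W.WStm

open Finset Relation Filter Topology MeasureTheory
open scoped Classical BigOperators

namespace Vale.Agent.P167Q.W

open Vale.Agent.P152 (IsTest gcov Vx Site v6)
open Vale.Agent.P167 (Q.ea Q.eb Q.fx Q.f0 Q.FKm Pc.chi Pc.Loc Pc.ins Pc.loop)
open Vale.Agent.P153.RSW (Ev)

namespace WBijx

theorem inj (hw : P167.Pc.S_w1) (ω : Cf) : Set.InjOn Pc.ins (P167.Pc.loops ω) := by
  rintro l ⟨hl, e, rfl⟩ l' ⟨hl', e', rfl⟩ h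
  ext ⟨⟨i, j⟩, b⟩
  have h1 := hw ω e hl i j
  have h2 := hw ω e' hl' i j
  rw [h] at h1
  cases b
  · exact not_iff_not.1 (h1.1.symm.trans h2.1)
  · exact not_iff_not.1 (h1.2.symm.trans h2.2)

theorem bij (hw : P167.Pc.S_w1) (h1 : L_a) (h2 : L_b) (h3 : L_c) : L_bij := by
  intro ω hA hf w
  obtain ⟨c1, c2⟩ := h3 ω hA hf
  have i2 : Set.InjOn (fill ω) (loops ω) := by
    rintro C ⟨-, x, rfl⟩ C' ⟨-, x', rfl⟩ h
    exact c2 x x' h
  have e : Pc.ins '' P167.Pc.loops ω = fill ω '' loops ω := by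
    ext S
    constructor
    · rintro ⟨l, ⟨hl, e, rfl⟩, rfl⟩
      obtain ⟨a1, a2, x, y, a3, a4, a5⟩ := h1 ω e hl
      exact ⟨clus ω x, ⟨hA x, x, rfl⟩, (h2 ω _ x y a1 a2 a3 a4 a5).symm⟩
    · rintro ⟨C, ⟨-, x, rfl⟩, rfl⟩
      obtain ⟨e, he⟩ := c1 x
      exact ⟨Pc.loop ω e, ⟨hf e, e, rfl⟩, he⟩
  rw [← finprod_mem_image (f := w) (inj hw ω), ← finprod_mem_image (f := w) i2, e]

end WBijx

theorem l_bij (_hb : Base) (hw : P167.Pc.S_w1) (h1 : L_a) (h2 : L_b) (h3 : L_c) :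
    L_bij ∧ Z_phq := by
  have h := WBijx.bij hw h1 h2 h3
  refine ⟨h, fun q δ f ω q1 q4 hA hf => ?_⟩
  have a1 : 1 ≤ √q := Real.one_le_sqrt.2 q1
  have a2 : √q ≤ 2 := Real.sqrt_le_iff.2 ⟨by norm_num, by linarith⟩
  have ac : Real.cos (Real.arccos (√q / 2)) = √q / 2 :=
    Real.cos_arccos (by linarith) (by linarith)
  have e : ∀ m : ℝ, 2 * Real.cos (Real.arccos (√q / 2) + m) / √q =
      wq (Real.arccos (√q / 2)) m := fun m => by
    rw [wq, ac, div_div_eq_mul_div, mul_comm]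
  unfold P167.Q.Phq nestq
  simp only [e]
  exact h ω hA hf fun S => wq (Real.arccos (√q / 2)) (∫ z in region δ S, f z)

end Vale.Agent.P167Q.W
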