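import Vale.Agent.P167W.WStm
import Vale.Agent.P167Q.HCir

/-! P167W: circuits and long crossings have positive probability. -/

open Finset Relation Filter Topology MeasureTheory
open scoped Classical BigOperators

namespace Vale.Agent.P167Q.W

open Vale.Agent.P152 (IsTest gcov Vx Site v6)
open Vale.Agent.P145 (eo eo_symm)
open Vale.Agent.P153.RSW (Ev)
open Vale.Agent.P145.Rs (Hyp Sm sq mem_sq rc_fin)
open HCirx

theorem w_cir {μ : Measure Cf} (hb : Base) (h1 : W_pu μ) (h2 : W_hs μ) (h3 : W_hc μ) :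
    W_cir μ := by
  obtain ⟨P, p0, p1, pa, pf, pl⟩ := h1
  have he := hb.ev
  have key : ∀ g : Site → Site, Function.Injective g →
      ((∃ t : Site, g = fun v => (v.1 + t.1, v.2 + t.2)) ∨ (g = fun v => (-v.1, v.2)) ∨
        g = fun v => (v.2, v.1)) → ∀ S A B : Set Site, S.Finite →
      P (Ev e2 (g ⁻¹' S) (g ⁻¹' A) (g ⁻¹' B)) = P (Ev e2 S A B) := by
    intro g hg h S A B hS
    rw [pl _ _ (le_ev he (hS.preimage hg.injOn) _ _), pl _ _ (le_ev he hS _ _)]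
    exact h2 g h S A B hS
  have h : Hyp e2 P (1 / 2) := by
    refine ⟨fun ω => eo_symm _, p0, p1, pa, fun A B hA hB => pf A B (he.2.1 A hA) (he.2.1 B hB),
      fun t => key _ (Sm.tr t).inj (Or.inl ⟨t, rfl⟩), key _ Sm.fl.inj (Or.inr (Or.inl rfl)),
      key _ Sm.sw.inj (Or.inr (Or.inr rfl)), fun n hn => ?_⟩
    obtain ⟨k, rfl⟩ := Int.eq_ofNat_of_zero_le hn
    exact (h3 k).trans (pl _ _ (le_ev he (rc_fin 0 k 0 k) _ _)).ge
  refine ⟨?_, fun K => ?_⟩
  · obtain ⟨c, hc0, hr⟩ := P145.Rs.rsw (1 / 2) 6 (by norm_num)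
    refine ⟨c ^ 4, by positivity, fun n hn => ?_⟩
    have h4 := h.cir hc0.le (L := ((6 : ℕ) : ℤ) * n) (H := n) (n := (n : ℤ) - 1)
      (N := ((3 * n : ℕ) : ℤ)) (by omega) (by push_cast; omega) (by push_cast; omega)
      (hr _ e2 P h n (by omega)) 0
    have hW : Le (bo ((3 * n : ℕ) : ℤ)) (Ci n (3 * n)) :=
      he.2.2 _ _ _ fun m h1 _ => mem_bo.2 h1
    exact h4.trans (pl _ _ hW).le
  · obtain ⟨c, hc0, hr⟩ := P145.Rs.rsw (1 / 2) K (by norm_num)
    refine ⟨c, hc0, fun N hN => ?_⟩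
    exact (hr _ e2 P h N (by omega)).trans
      (pl _ _ (le_ev he (rc_fin 0 ((K : ℤ) * N) 0 N) _ _)).le

end Vale.Agent.P167Q.W
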