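import Vale.Agent.P167W.WStm
import Vale.Agent.P167.QCmp

/-! P167W: the loop weight and the cluster weight on the torus are comparable. -/

open Finset Relation Filter Topology MeasureTheory
open scoped Classical BigOperators

namespace Vale.Agent.P167Q.W

namespace WCmpx

theorem num {r : ℝ} {k c n M : ℕ} (hr1 : 1 ≤ r) (hr2 : r ≤ 2) (hM : 1 ≤ M) (e1 : k ≤ c + n + 2)
    (e2 : c + n ≤ k) : (r ^ (n + 2))⁻¹ * r ^ k ≤ r ^ c ∧
      r ^ c ≤ Real.exp (3 * M) * (r ^ (n + 2))⁻¹ * r ^ k := by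
  have hr0 : 0 < r := by linarith
  have hp : 0 < r ^ (n + 2) := pow_pos hr0 _
  constructor
  · rw [inv_mul_le_iff₀ hp, ← pow_add]
    exact pow_le_pow_right₀ hr1 (by omega)
  · rw [mul_assoc, mul_comm _ (r ^ k), ← mul_assoc, le_mul_inv_iff₀ hp]
    have u2 : r ^ (c + n) ≤ r ^ k := pow_le_pow_right₀ hr1 e2
    have u3 : r ^ 2 ≤ Real.exp (3 * M) := by
      have h1 : (1 : ℝ) ≤ M := by exact_mod_cast hM
      nlinarith [Real.add_one_le_exp (3 * (M : ℝ))]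
    calc r ^ c * r ^ (n + 2) = r ^ 2 * r ^ (c + n) := by ring
      _ ≤ Real.exp (3 * M) * r ^ k := by gcongr

end WCmpx

theorem v_cmp (h1 : P167.Q.T_df1) (h2 : P167.Q.T_df2) (h3 : P167.Q.T_df3) : V_cmp := by
  intro r M L _ _ hr1 hr2 hM hL
  obtain ⟨n, hn⟩ := P167.Q.Cmp.euler h1 h2 h3 M L hM hL
  refine ⟨(r ^ (n + 2))⁻¹, inv_pos.2 (pow_pos (by linarith) _), fun ω => ?_⟩
  unfold P167.Q.wT P167.Q.wt
  rw [← pow_add]
  exact WCmpx.num hr1 hr2 (Nat.pos_of_ne_zero (NeZero.ne M)) (hn ω).1 (hn ω).2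

end Vale.Agent.P167Q.W
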