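import Vale.Agent.P167W.WStm

/-! Concentration for one tile. -/

open Finset Relation Filter Topology MeasureTheory
open scoped Classical BigOperators

namespace Vale.Agent.P167Q.W

namespace WCtilx

theorem off_mono {z : Sq} {s t : ℕ} {G : Cf → ℝ} (h : Off (bz z t) G) (hs : s ≤ t) :
    Off (bz z s) G := by
  obtain ⟨⟨V, h1, h2⟩, h3⟩ := h
  refine ⟨⟨V, h1, h2.mono_right fun x hx => ?_⟩, h3⟩
  rw [mem_bz] at hx ⊢
  omega

end WCtilx

open WCtilx in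
theorem c_til {μ : Measure Cf} {a : ℝ} (hm : Mod μ) (hx : W_bd μ a) (h1 : S_tv μ) (h2 : K_mc μ)
    (h3 : K_momq μ) (h4 : C_oneq μ) : C_til μ := by
  obtain ⟨g, hg, h1⟩ := h1
  refine ⟨g, hg, fun T hT => ?_⟩
  obtain ⟨B2, h2⟩ := h2 (T + 2)
  obtain ⟨B3, h3⟩ := h3 (T + 2)
  obtain ⟨C, hC, h4⟩ := h4 T (max B2 B3) hT
  refine ⟨C, hC, fun l u z W H ε hu h0 hε hW hb hH => ?_⟩
  have hp : 1 ≤ g ^ l := Nat.one_le_pow _ _ (by omega)
  have hH0 : 0 ≤ exm μ H := integral_nonneg hH.2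
  obtain ⟨V, hV, -⟩ := hH.1
  refine h4 W (fun ω => kb u z ω) H ε _ (hx.loc _ _ hW) (hx.kb u z fun k => k) (hx.loc _ _ hV)
    hH.2 h0 hε (by positivity) hb (fun ω => Nat.cast_nonneg _) ((h3 u z).trans (le_max_right _ _))
    ((h2 u z H (off_mono hH (by nlinarith))).trans
      (mul_le_mul_of_nonneg_right (le_max_left _ _) hH0)) fun φ _ hφ => ?_
  exact h1 l z (4 * u) (fun ω => φ (W ω)) H (fun ω => hφ _)
    (fun ω ω' h => congrArg φ (hW ω ω' h)) (off_mono hH (by nlinarith))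

end Vale.Agent.P167Q.W
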