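import Vale.Agent.P167W.WStm

open Finset Relation Filter Topology MeasureTheory
open scoped Classical BigOperators

namespace Vale.Agent.P167Q.W

open Vale.Agent.P152 (IsTest gcov Vx Site v6)
open Vale.Agent.P167 (Q.ea Q.eb Q.fx Q.f0 Q.FKm Pc.chi Pc.Loc Pc.ins Pc.loop)
open Vale.Agent.P153.RSW (Ev)

namespace WDetx

def RR (S : Finset Sq) (ω : Cf) (u w : Sq) : Prop :=
  ∃ v, ω v = true ∧ v ∈ S ∧ Q.ea v = u ∧ Q.eb v = w

theorem eqv_mono {r p : Sq → Sq → Prop} (h : ∀ u w, r u w → p u w) {x y : Sq}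
    (hxy : EqvGen r x y) : EqvGen p x y := by
  induction hxy with
  | rel u w h1 => exact EqvGen.rel _ _ (h u w h1)
  | refl u => exact EqvGen.refl _
  | symm u w _ ih => exact EqvGen.symm _ _ ih
  | trans u w t _ _ ih1 ih2 => exact EqvGen.trans _ _ _ ih1 ih2

theorem jn_iff (S₀ S : Finset Sq) (ω : Cf) (x : Sq) :
    Jn S₀ S ω x ↔ ∃ y, bdy S₀ y ∧ EqvGen (RR S ω) x y := by
  unfold Jn P167.Q.Cn
  refine exists_congr fun y => and_congr_right fun _ => ⟨fun h => ?_, fun h => ?_⟩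
  · refine eqv_mono ?_ h
    rintro u w (⟨v, hv, h1, h2⟩ | h0)
    · rw [Bool.and_eq_true, decide_eq_true_eq] at hv
      exact ⟨v, hv.1, hv.2, h1, h2⟩
    · exact h0.elim
  · refine eqv_mono ?_ h
    rintro u w ⟨v, hv, hS, h1, h2⟩
    refine Or.inl ⟨v, ?_, h1, h2⟩
    rw [Bool.and_eq_true, decide_eq_true_eq]
    exact ⟨hv, hS⟩

theorem jn_mono {S₀ S S' : Finset Sq} {ω ω' : Cf} {x : Sq}
    (h : ∀ v, ω v = true → v ∈ S → ω' v = true ∧ v ∈ S') (hx : Jn S₀ S ω x) : Jn S₀ S' ω' x := by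
  rw [jn_iff] at hx ⊢
  obtain ⟨y, hy, hxy⟩ := hx
  refine ⟨y, hy, eqv_mono ?_ hxy⟩
  rintro u w ⟨v, hv, hS, h1, h2⟩
  exact ⟨v, (h v hv hS).1, (h v hv hS).2, h1, h2⟩

theorem jn_bdy {S₀ S : Finset Sq} {ω : Cf} {y : Sq} (h : bdy S₀ y) : Jn S₀ S ω y :=
  (jn_iff _ _ _ _).2 ⟨y, h, EqvGen.refl y⟩

theorem jn_both {S₀ S : Finset Sq} {ω : Cf} {v : Sq} (hv : ω v = true) (hS : v ∈ S)
    (h : Jn S₀ S ω (Q.ea v) ∨ Jn S₀ S ω (Q.eb v)) :
    Jn S₀ S ω (Q.ea v) ∧ Jn S₀ S ω (Q.eb v) := by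
  have hr : EqvGen (RR S ω) (Q.ea v) (Q.eb v) := EqvGen.rel _ _ ⟨v, hv, hS, rfl, rfl⟩
  rcases h with h | h
  · refine ⟨h, ?_⟩
    obtain ⟨y, hy, hxy⟩ := (jn_iff _ _ _ _).1 h
    exact (jn_iff _ _ _ _).2 ⟨y, hy, EqvGen.trans _ _ _ (EqvGen.symm _ _ hr) hxy⟩
  · refine ⟨?_, h⟩
    obtain ⟨y, hy, hxy⟩ := (jn_iff _ _ _ _).1 h
    exact (jn_iff _ _ _ _).2 ⟨y, hy, EqvGen.trans _ _ _ hr hxy⟩

theorem op_symm {ω : Cf} {x y : Sq} (h : Op ω x y) : Op ω y x := by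
  obtain ⟨v, i, h1, h2⟩ := h
  exact ⟨v, !i, h2, by rw [Bool.not_not]; exact h1⟩

theorem rtg_symm {ω : Cf} {x y : Sq} (h : ReflTransGen (Op ω) x y) : ReflTransGen (Op ω) y x := by
  induction h with
  | refl => exact ReflTransGen.refl
  | tail _ h2 ih => exact ReflTransGen.head (op_symm h2) ih

theorem op_ends {ω : Cf} {v : Sq} (hv : ω v = true) : Op ω (Q.ea v) (Q.eb v) := by
  by_cases h : Even (v.1 + v.2)
  · refine ⟨v, true, ?_, ?_⟩
    · rw [hv]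
      simp [P167.Q.ea, ed, h]
    · rw [hv]
      apply Prod.ext <;> simp [P167.Q.eb, ed, h]
  · refine ⟨v, false, ?_, ?_⟩
    · rw [hv]
      apply Prod.ext <;> simp [P167.Q.ea, ed, h]
    · rw [hv]
      apply Prod.ext <;> simp [P167.Q.eb, ed, h]

theorem eqv_clus {S : Finset Sq} {ω : Cf} {x y : Sq} (h : EqvGen (RR S ω) x y) :
    ReflTransGen (Op ω) x y := by
  induction h with
  | rel u w h =>
    obtain ⟨v, hv, _, h1, h2⟩ := h
    rw [← h1, ← h2]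
    exact ReflTransGen.single (op_ends hv)
  | refl u => exact ReflTransGen.refl
  | symm u w _ ih => exact rtg_symm ih
  | trans u w t _ _ ih1 ih2 => exact ih1.trans ih2

theorem ends {v x : Sq} (h : x = Q.ea v ∨ x = Q.eb v) :
    Even (x.1 + x.2) ∧ v.1 - 1 ≤ x.1 ∧ x.1 ≤ v.1 ∧ v.2 - 1 ≤ x.2 ∧ x.2 ≤ v.2 := by
  by_cases hv : Even (v.1 + v.2)
  · have hv' := Int.even_iff.1 hv
    rcases h with h | h
    · rw [h, P167.Q.ea, if_pos hv]
      exact ⟨hv, by omega, le_rfl, by omega, le_rfl⟩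
    · rw [h, P167.Q.eb, if_pos hv, Int.even_iff]
      simp only [Prod.fst_sub, Prod.snd_sub]
      omega
  · have hv' := Int.not_even_iff.1 hv
    rcases h with h | h
    · rw [h, P167.Q.ea, if_neg hv, Int.even_iff]
      simp only [Prod.fst_sub, Prod.snd_sub]
      omega
    · rw [h, P167.Q.eb, if_neg hv, Int.even_iff]
      simp only [Prod.fst_sub, Prod.snd_sub]
      omega

theorem cut_imp {S₀ T : Finset Sq} {ω ω' : Cf} (h : ∀ i ∈ S₀, ω i = ω' i) (hc : Cut S₀ T ω) :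
    Cut S₀ T ω' := by
  intro e he
  have hm : ∀ v, ω' v = true → v ∈ S₀ → ω v = true ∧ v ∈ S₀ :=
    fun v hv hS => ⟨(h v hS).trans hv, hS⟩
  exact ⟨fun hj => (hc e he).1 (jn_mono hm hj), fun hj => (hc e he).2 (jn_mono hm hj)⟩

end WDetx

open WDetx in
theorem v_det (_hb : Base) : V_det := by
  refine ⟨?_, ?_, ?_, ?_, ?_⟩
  · intro S₀ S ξ e b _ he hI hj e' he'
    have hm : ∀ v, ξ v = true → v ∈ S₀ \ S →
        Function.update ξ e b v = true ∧ v ∈ S₀ \ S.erase e := by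
      intro v hv hS
      obtain ⟨h1, h2⟩ := mem_sdiff.1 hS
      have hne : v ≠ e := fun h => h2 (h ▸ he)
      rw [Function.update_of_ne hne]
      exact ⟨hv, mem_sdiff.2 ⟨h1, fun h => h2 (mem_of_mem_erase h)⟩⟩
    have hk : Jn S₀ (S₀ \ S) ξ (Q.ea e') ∨ Jn S₀ (S₀ \ S) ξ (Q.eb e') := by
      by_cases hee : e' = e
      · rw [hee]
        exact hj
      · obtain ⟨h1, h2⟩ := mem_sdiff.1 he'
        exact hI e' (mem_sdiff.2 ⟨h1, fun h => h2 (mem_erase.2 ⟨hee, h⟩)⟩)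
    exact hk.imp (jn_mono hm) (jn_mono hm)
  · intro S₀ S T ξ _ hT hI hn ω hω hc
    obtain ⟨e, heT, heS⟩ := Finset.not_subset.1 hn
    have hm : ∀ v, ξ v = true → v ∈ S₀ \ S → ω v = true ∧ v ∈ S₀ := by
      intro v hv hS
      obtain ⟨h1, h2⟩ := mem_sdiff.1 hS
      exact ⟨(hω v h2).trans hv, h1⟩
    rcases hI e (mem_sdiff.2 ⟨hT heT, heS⟩) with h | h
    · exact (hc e heT).1 (jn_mono hm h)
    · exact (hc e heT).2 (jn_mono hm h)
  · intro S₀ S ξ _ hI hn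
    have hout : ∀ v ∉ S, ξ v = true → Jn S₀ (S₀ \ S) ξ (Q.ea v) ∧ Jn S₀ (S₀ \ S) ξ (Q.eb v) := by
      intro v hv hx
      by_cases h0 : v ∈ S₀
      · exact jn_both hx (mem_sdiff.2 ⟨h0, hv⟩) (hI v (mem_sdiff.2 ⟨h0, hv⟩))
      · exact ⟨jn_bdy ⟨v, h0, Or.inl rfl⟩, jn_bdy ⟨v, h0, Or.inr rfl⟩⟩
    have hP : ∀ x, (∃ e ∈ S, x = Q.ea e ∨ x = Q.eb e) → ¬Jn S₀ (S₀ \ S) ξ x := by
      rintro x ⟨e, he, h | h⟩
      · rw [h]
        exact (hn e he).1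
      · rw [h]
        exact (hn e he).2
    refine ⟨?_, ?_⟩
    · intro ω hω
      have key : ∀ x y, EqvGen (RR S₀ ω) x y →
          ((∃ e ∈ S, x = Q.ea e ∨ x = Q.eb e) ↔ ∃ e ∈ S, y = Q.ea e ∨ y = Q.eb e) := by
        intro x y h
        induction h with
        | rel u w h =>
          obtain ⟨v, hv, _, h1, h2⟩ := h
          by_cases hS : v ∈ S
          · exact iff_of_true ⟨v, hS, Or.inl h1.symm⟩ ⟨v, hS, Or.inr h2.symm⟩
          · obtain ⟨j1, j2⟩ := hout v hS ((hω v hS).symm.trans hv)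
            exact iff_of_false (fun h => hP u h (h1 ▸ j1)) (fun h => hP w h (h2 ▸ j2))
        | refl u => exact Iff.rfl
        | symm u w _ ih => exact ih.symm
        | trans u w t _ _ ih1 ih2 => exact ih1.trans ih2
      have fin : ∀ x, (∃ e ∈ S, x = Q.ea e ∨ x = Q.eb e) → ¬Jn S₀ S₀ ω x := by
        intro x hx hj
        obtain ⟨y, hy, hxy⟩ := (jn_iff _ _ _ _).1 hj
        exact hP y ((key x y hxy).1 hx) (jn_bdy hy)
      intro e he
      exact ⟨fin _ ⟨e, he, Or.inl rfl⟩, fin _ ⟨e, he, Or.inr rfl⟩⟩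
    · intro v hv hx e he
      obtain ⟨j1, j2⟩ := hout v hv hx
      exact ⟨fun h => hP _ ⟨e, he, Or.inl h⟩ j1, fun h => hP _ ⟨e, he, Or.inr h⟩ j1,
        fun h => hP _ ⟨e, he, Or.inl h⟩ j2, fun h => hP _ ⟨e, he, Or.inr h⟩ j2⟩
  · intro S₀ T ω ω' h
    exact congrArg Pc.chi (propext ⟨cut_imp h, cut_imp fun i hi => (h i hi).symm⟩)
  · intro z n N ω hω
    have fin : ∀ e ∈ bz z n, ∀ x, (x = Q.ea e ∨ x = Q.eb e) →
        ¬Jn (bz z (N + 1)) (bz z (N + 1)) ω x := by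
      intro e he x hx hj
      obtain ⟨y, ⟨v, hv, hy⟩, hxy⟩ := (jn_iff _ _ _ _).1 hj
      obtain ⟨hev, a1, a2, a3, a4⟩ := ends hx
      obtain ⟨-, b1, b2, b3, b4⟩ := ends hy
      rw [mem_bz] at he
      refine hω ⟨x, ?_, decide_eq_true hev, fun hsub => hv ?_⟩
      · rw [mem_bz]
        push_cast
        omega
      · have hyb : y ∈ bz z N := mem_coe.1 (hsub (eqv_clus hxy))
        rw [mem_bz] at hyb ⊢
        push_cast
        omega
    intro e he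
    exact ⟨fin e he _ (Or.inl rfl), fin e he _ (Or.inr rfl)⟩

end Vale.Agent.P167Q.W
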