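import Vale.Agent.P167W.WStm

open Finset Relation Filter Topology MeasureTheory
open scoped Classical BigOperators

namespace Vale.Agent.P167Q.W

open Vale.Agent.P167 (Q.FKm Pc.Loc)

namespace WDualx

theorem sh_one (ω : Cf) (v : Sq) : sh (1, 0) ω v = !ω (v + (1, 0)) := by
  simp [sh]

theorem loc {F : Cf → ℝ} (hF : Pc.Loc F) : Pc.Loc fun ω => F (sh (1, 0) ω) := by
  obtain ⟨S, hS⟩ := hF
  refine ⟨S.image (· + (1, 0)), fun ω ω' h => hS _ _ fun v hv => ?_⟩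
  rw [sh_one, sh_one, h _ (mem_image_of_mem _ hv)]

/-- the dual configuration on the torus -/
def tau (M L : ℕ) (ω : P167.Q.Tor M L → Bool) : P167.Q.Tor M L → Bool := fun v => !ω (v + (1, 0))

theorem tau_inj (M L : ℕ) : Function.Injective (tau M L) := fun ω ω' h => by
  funext v
  have := congrFun h (v - (1, 0))
  simpa [tau] using this

theorem lf_tau (M L : ℕ) (ω : P167.Q.Tor M L → Bool) :
    P167.Pc.lf M L (tau M L ω) = sh (1, 0) (P167.Pc.lf M L ω) := by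
  funext v
  rw [sh_one]
  simp [P167.Pc.lf, tau, P167.Pc.pv]

end WDualx

open WDualx in
theorem v_dual (_hs : P167.Pc.S_bas) (hl : P167.Q.T_loc) (h1 : V_nl) (h2 : V_cmp) : V_dual := by
  intro r μ hr hr2 hμ F hF
  refine eq_of_forall_dist_le fun ε hε => ?_
  obtain ⟨L0, a1⟩ := hl r μ hr hμ F hF (ε / 2) (half_pos hε)
  obtain ⟨L1, a2⟩ := hl r μ hr hμ _ (loc hF) (ε / 2) (half_pos hε)
  obtain ⟨M, hM, hM0, hM1, hM2⟩ : ∃ M : ℕ, Even M ∧ L0 ≤ M ∧ L1 ≤ M ∧ M ≠ 0 :=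
    ⟨2 * (L0 + L1 + 1), even_two_mul _, by omega, by omega, by omega⟩
  have : NeZero M := ⟨hM2⟩
  obtain ⟨κ, hκ, hc⟩ := h2 r M M hr hr2 hM hM
  have hi : ∀ (t : ℤ × ℤ) (ω : P167.Q.Tor M M → Bool), Even (t.1 + t.2) →
      r ^ P167.Q.nl (P167.Pc.nx (P167.Pc.pt M M) fun v => ω (v + P167.Pc.pv M M t)) =
        r ^ P167.Q.nl (P167.Pc.nx (P167.Pc.pt M M) ω) := fun t ω ht => by
    rw [(h1 M M hM hM ω).1 t ht]
  have b1 := a1 M M hM hM hM0 le_rfl _ κ hκ hc hi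
  have b2 := a2 M M hM hM hM1 le_rfl _ κ hκ hc hi
  have e : ∑ ω : P167.Q.Tor M M → Bool, r ^ P167.Q.nl (P167.Pc.nx (P167.Pc.pt M M) ω) *
        F (sh (1, 0) (P167.Pc.lf M M ω)) =
      ∑ ω : P167.Q.Tor M M → Bool, r ^ P167.Q.nl (P167.Pc.nx (P167.Pc.pt M M) ω) *
        F (P167.Pc.lf M M ω) := by
    refine Fintype.sum_bijective (tau M M) (Finite.injective_iff_bijective.1 (tau_inj M M)) _ _
      fun ω => ?_
    rw [lf_tau, ← (h1 M M hM hM ω).2]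
    rfl
  rw [e] at b2
  rw [Real.dist_eq, abs_le]
  rw [abs_le] at b1 b2
  constructor <;> linarith [b1.1, b1.2, b2.1, b2.2]

end Vale.Agent.P167Q.W
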