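import Vale.Agent.P167W.WStm

/-! Upper bound for the one arm probability. -/

open Finset Relation Filter Topology MeasureTheory
open scoped Classical BigOperators

namespace Vale.Agent.P167Q.W

namespace WEupx

variable {μ : Measure Cf}

theorem pa_le (hm : Mod μ) (a b : ℕ) : pam μ a b ≤ 1 := by
  have := hm.prob
  exact measureReal_le_one

theorem pa_nn (a b : ℕ) : 0 ≤ pam μ a b := measureReal_nonneg

theorem iter (hμ : Mod μ) {g m J₀ : ℕ} {q : ℝ}
    (hs : ∀ a b a' d, g * (b + 2) ≤ a' → a' ≤ d → a ≤ b →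
      pam μ a d ≤ 4 * (pam μ a b * pam μ a' d)) (hm : 2 ≤ m) (hq : 0 ≤ q)
    (h : ∀ J ≥ J₀, 4 * ppm μ J m ≤ q) (n t : ℕ) :
    ∀ J ≥ J₀, 3 * 2 ^ (J + t * (m + g)) ≤ n → pam μ (3 * 2 ^ J) n ≤ q ^ t := by
  induction t with
  | zero => intro J _ _; simpa using pa_le hμ _ _
  | succ t ih =>
    intro J hJ hn
    have e : J + (t + 1) * (m + g) = J + m + g + t * (m + g) := by ring
    rw [e] at hn
    have h1 : 0 < 2 ^ J := by positivity
    have h2 : 2 ^ J * 4 ≤ 2 ^ (J + m) := by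
      rw [pow_add]
      exact Nat.mul_le_mul_left _ (Nat.pow_le_pow_right (n := 2) (by norm_num) hm)
    have h3 : 2 ^ (J + m + g) ≤ 2 ^ (J + m + g + t * (m + g)) :=
      Nat.pow_le_pow_right (by norm_num) (Nat.le_add_right _ _)
    have h6 : g * (2 ^ (J + m) - 1 + 2) ≤ 3 * 2 ^ (J + m + g) := by
      have k1 : g ≤ 2 ^ g := Nat.lt_two_pow_self.le
      have k2 : 2 ^ (J + m) - 1 + 2 ≤ 3 * 2 ^ (J + m) := by omega
      calc g * (2 ^ (J + m) - 1 + 2) ≤ 2 ^ g * (3 * 2 ^ (J + m)) := Nat.mul_le_mul k1 k2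
        _ = 3 * 2 ^ (J + m + g) := by ring
    have h4 := hs (3 * 2 ^ J) (2 ^ (J + m) - 1) (3 * 2 ^ (J + m + g)) n h6 (by omega) (by omega)
    have h5 := ih (J + m + g) (by omega) hn
    rw [pow_succ']
    rw [← mul_assoc] at h4
    exact h4.trans (mul_le_mul (h J hJ) h5 (pa_nn _ _) hq)

theorem cross (f : ℕ → ℕ) (n : ℕ) (h0 : f 0 ≤ n) (h1 : n < f n) :
    ∃ t, f t ≤ n ∧ n < f (t + 1) := by
  by_contra hc
  have : ∀ t, f t ≤ n := fun t => by
    induction t with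
    | zero => exact h0
    | succ t ih => exact not_lt.1 fun h => hc ⟨t, ih, h⟩
  exact absurd (this n) (not_le.2 h1)

end WEupx

open WEupx in
theorem e_up {μ : Measure Cf} {a : ℝ} (_ha : Ang a) (hm : Mod μ) (hs : Q_subq μ) (hk : W_sym μ)
    (h : R_3q μ a) : E_upq μ a := by
  intro ε hε
  have l2 : 0 < Real.log 2 := Real.log_pos (by norm_num)
  unfold R_3q at h
  generalize al a = α at h ⊢
  rcases le_or_gt α ε with hb | hb
  · refine Eventually.of_forall fun n => ((hk true 0 n).1.trans (pa_le hm _ _)).trans ?_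
    refine Real.one_le_exp ?_
    nlinarith [Real.log_natCast_nonneg n]
  obtain ⟨g, -, hg⟩ := hs.two
  obtain ⟨m₀, hm₀⟩ := h (ε / 4 * Real.log 2) (by positivity)
  obtain ⟨m₁, hm₁⟩ := exists_nat_ge ((2 + α * g) / (ε / 4))
  obtain ⟨m, hm0, hm1, hm2⟩ : ∃ m, m₀ ≤ m ∧ m₁ ≤ m ∧ 2 ≤ m :=
    ⟨m₀ + m₁ + 2, by omega, by omega, by omega⟩
  obtain ⟨J₀, hJ⟩ := eventually_atTop.1 (hm₀ m hm0)
  have hq : ∀ J ≥ J₀, 4 * ppm μ J m ≤
      Real.exp (-((α - ε / 2) * Real.log 2 * ((m : ℝ) + g))) := fun J hJ' => by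
    have k4 : (4 : ℝ) = Real.exp (2 * Real.log 2) := by
      rw [two_mul, Real.exp_add, Real.exp_log two_pos]; norm_num
    refine (mul_le_mul_of_nonneg_left (hJ J hJ') (by norm_num)).trans ?_
    rw [show (4 : ℝ) * Real.exp (-((α * Real.log 2 - ε / 4 * Real.log 2) * m)) =
      Real.exp (2 * Real.log 2) * Real.exp (-((α * Real.log 2 - ε / 4 * Real.log 2) * m)) by
        rw [← k4], ← Real.exp_add, Real.exp_le_exp]
    have k1 : (m₁ : ℝ) ≤ m := by exact_mod_cast hm1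
    have k2 := hm₁.trans k1
    rw [div_le_iff₀ (by positivity)] at k2
    have k3 : 0 ≤ ε * g := by positivity
    have k5 : 2 + (α - ε / 2) * g ≤ m * (ε / 4) := by nlinarith
    nlinarith [mul_le_mul_of_nonneg_left k5 l2.le]
  have hlog : Tendsto (fun n : ℕ => Real.log n) atTop atTop :=
    Real.tendsto_log_atTop.comp tendsto_natCast_atTop_atTop
  filter_upwards [eventually_ge_atTop (3 * 2 ^ J₀), hlog.eventually_ge_atTop
    (α * (((J₀ : ℝ) + 2 + (m + g)) * Real.log 2) / (ε / 2))] with n hn hl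
  obtain ⟨t, t1, t2⟩ := cross (fun t => 3 * 2 ^ (J₀ + t * (m + g))) n (by simpa using hn) (by
    have h1 : n < 2 ^ n := Nat.lt_two_pow_self
    have h2 : 2 ^ n ≤ 2 ^ (J₀ + n * (m + g)) := Nat.pow_le_pow_right (by norm_num) (by nlinarith)
    show n < 3 * 2 ^ (J₀ + n * (m + g))
    omega)
  have h1 := iter hm (fun a b a' d k1 k2 => (hg a b a' d k1 k2).2) hm2 (Real.exp_pos _).le hq
    n t J₀ le_rfl t1
  have h2 : pcm μ true 0 n ≤ pam μ (3 * 2 ^ J₀) n :=
    (hk true 0 n).1.trans (hs.ma _ _ _ _ (Nat.zero_le _) le_rfl)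
  refine h2.trans (h1.trans ?_)
  rw [← Real.exp_nat_mul, Real.exp_le_exp]
  have hn0 : (0 : ℝ) < n := by
    have : 0 < 3 * 2 ^ J₀ := by positivity
    exact_mod_cast lt_of_lt_of_le this hn
  have h3 : n ≤ 2 ^ (J₀ + (t + 1) * (m + g) + 2) := by
    have : n < 3 * 2 ^ (J₀ + (t + 1) * (m + g)) := t2
    rw [pow_add _ _ 2]
    omega
  have h4 : Real.log n ≤ ((J₀ : ℝ) + (t + 1) * (m + g) + 2) * Real.log 2 := by
    have h5 : (n : ℝ) ≤ 2 ^ (J₀ + (t + 1) * (m + g) + 2) := by exact_mod_cast h3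
    have h6 := Real.log_le_log hn0 h5
    rw [Real.log_pow] at h6
    push_cast at h6
    exact h6
  rw [div_le_iff₀ (by positivity)] at hl
  have h7 : 0 ≤ ((J₀ : ℝ) + 2 + (m + g)) * Real.log 2 := by positivity
  have h8 : 0 ≤ α - ε / 2 := by linarith
  have h9 := mul_le_mul_of_nonneg_left h4 h8
  nlinarith [mul_nonneg hε.le h7]

end Vale.Agent.P167Q.W
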