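import Vale.Agent.P167W.WStm

/-! P167W: exponential moment of the number of large clusters from the one step bound. -/

open Finset Relation Filter Topology MeasureTheory
open scoped Classical BigOperators

namespace Vale.Agent.P167Q.W

open Vale.Agent.P152 (IsTest gcov Vx Site v6)
open Vale.Agent.P167 (Q.ea Q.eb Q.fx Q.f0 Q.FKm Pc.chi Pc.Loc Pc.ins Pc.loop)
open Vale.Agent.P153.RSW (Ev)

namespace WExpx

theorem kE_le (s : ℕ) (I : Finset (Sq × ℕ)) (R : Finset Sq) (ω : Cf) :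
    kE s I R ω ≤ (til I).card :=
  (card_filter_le _ _).trans card_image_le

theorem nn {μ : Measure Cf} {G H : Cf → ℝ} {R : Finset Sq} (hG : ∀ ω, 0 ≤ G ω) (hH : Adm R H) :
    0 ≤ exm μ fun ω => H ω * G ω :=
  integral_nonneg fun ω => mul_nonneg (hH.2.1 ω) (hG ω)

theorem mono {μ : Measure Cf} {G : Cf → ℝ} {t x y : ℝ} {s : ℕ} {I : Finset (Sq × ℕ)}
    (hG : ∀ ω, 0 ≤ G ω) (hxy : x ≤ y) (h : KB μ G t s I x) : KB μ G t s I y :=
  fun R H hH => (h R H hH).trans (mul_le_mul_of_nonneg_right hxy (nn hG hH))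

theorem base {μ : Measure Cf} {a : ℝ} (hx : W_bd μ a) {G : Cf → ℝ} {t : ℝ} (s : ℕ)
    (I : Finset (Sq × ℕ)) (hb : Bdm μ G) (hG : ∀ ω, 0 ≤ G ω) (ht : 1 ≤ t) :
    KB μ G t s I (t ^ (til I).card) := by
  intro R H hH
  have h1 : Bdm μ fun ω => H ω * G ω := hx.mul _ _ (hx.loc _ _ hH.1) hb
  have h2 := hx.int _ (hx.mul _ _ (hx.kE s I R fun n => t ^ n) h1)
  have h3 := hx.int _ (hx.mul _ _ (hx.const (t ^ (til I).card)) h1)
  unfold exm
  rw [← integral_const_mul]
  refine integral_mono h2 h3 fun ω => ?_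
  exact mul_le_mul_of_nonneg_right (pow_le_pow_right₀ ht (kE_le s I R ω))
    (mul_nonneg (hH.2.1 ω) (hG ω))

theorem lim {μ : Measure Cf} {G : Cf → ℝ} {t x y q : ℝ} {s : ℕ} {I : Finset (Sq × ℕ)}
    (h0 : 0 ≤ q) (h1 : q < 1) (h : ∀ n : ℕ, KB μ G t s I (x + q ^ n * y)) : KB μ G t s I x := by
  intro R H hH
  have h2 : Tendsto (fun n : ℕ => (x + q ^ n * y) * exm μ fun ω => H ω * G ω) atTop
      (𝓝 ((x + 0 * y) * exm μ fun ω => H ω * G ω)) :=
    (((tendsto_pow_atTop_nhds_zero_of_lt_one h0 h1).mul_const y).const_add x).mul_const _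
  rw [zero_mul, add_zero] at h2
  exact ge_of_tendsto' h2 fun n => h n R H hH

theorem all {μ : Measure Cf} {a : ℝ} (hx : W_bd μ a) (h : K_stp μ) {G : Cf → ℝ} {t ε : ℝ}
    {s g : ℕ} (hb : Bdm μ G) (hG : ∀ ω, 0 ≤ G ω) (ht : 1 ≤ t) (hε : 0 ≤ ε) (hq : t * ε < 1)
    (I : Finset (Sq × ℕ)) :
    (∀ i ∈ I, 2 * (g * i.2) < s ∧ HB μ G ε i.1 i.2 (g * i.2)) →
      KB μ G t s I ((1 / (1 - t * ε)) ^ I.card) := by
  have hq0 : 0 ≤ t * ε := mul_nonneg (zero_le_one.trans ht) hε
  have hd : 0 < 1 - t * ε := sub_pos.2 hq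
  have hk : 0 ≤ 1 / (1 - t * ε) := (one_div_pos.2 hd).le
  induction I using Finset.induction_on with
  | empty =>
    intro _
    have := base hx s ∅ hb hG ht
    simpa [til] using this
  | insert i I hi ih =>
    intro hI
    have h1 := ih fun j hj => hI j (mem_insert_of_mem hj)
    have h2 := hI i (mem_insert_self i I)
    have hy : 0 ≤ t ^ (til (insert i I)).card := pow_nonneg (zero_le_one.trans ht) _
    rw [card_insert_of_notMem hi]
    refine lim (y := t ^ (til (insert i I)).card) hq0 hq fun n => ?_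
    induction n with
    | zero =>
      refine mono hG ?_ (base hx s _ hb hG ht)
      rw [pow_zero, one_mul]
      exact le_add_of_nonneg_left (pow_nonneg hk _)
    | succ n ihn =>
      have h3 := h G t ε _ _ s (g * i.2) i I hb hG ht
        (add_nonneg (pow_nonneg hk _) (mul_nonneg (pow_nonneg hq0 n) hy)) h2.1 h2.2 h1 ihn
      refine mono hG (le_of_eq ?_) h3
      have h4 : 1 + t * ε * (1 / (1 - t * ε)) = 1 / (1 - t * ε) := by
        field_simp
        ring
      generalize 1 / (1 - t * ε) = k at h4 ⊢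
      linear_combination k ^ I.card * h4

end WExpx

theorem k_exp {μ : Measure Cf} {a : ℝ} (_hm : Mod μ) (hx : W_bd μ a) (h : K_stp μ) :
    K_exp μ := by
  intro G t ε s g I hb hG ht hε hq hI
  have h1 := WExpx.all hx h hb hG ht hε hq I hI ∅ (fun _ => 1)
    ⟨fun _ _ _ => rfl, fun _ => zero_le_one, fun _ _ x hx => absurd hx (notMem_empty x)⟩
  simpa only [one_mul] using h1

end Vale.Agent.P167Q.W
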