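import Vale.Agent.P167W.WStm
import Vale.Agent.P167Q.HDet
import Vale.Agent.P167Q.HCir

open Finset Relation Filter Topology MeasureTheory
open scoped Classical BigOperators

namespace Vale.Agent.P167Q.W

open Vale.Agent.P152 (IsTest gcov Vx Site v6)

namespace WFinx

open HCirx

theorem le_pull {W : Finset Vx} {A : Set (Vx → Bool)} (h : Le W A) :
    Le (W.image v6) {ω : Cf | (fun m => ω (v6 m)) ∈ A} :=
  fun _ _ k => h _ _ fun m hm => k _ (Finset.mem_image_of_mem _ hm)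

theorem le_inter {ι : Type} {V W : Finset ι} {A B : Set (ι → Bool)} (hA : Le V A) (hB : Le W B) :
    Le (V ∪ W) (A ∩ B) := fun ω ω' k =>
  propext (and_congr (iff_of_eq (hA ω ω' fun i hi => k i (Finset.mem_union_left _ hi)))
    (iff_of_eq (hB ω ω' fun i hi => k i (Finset.mem_union_right _ hi))))

theorem far (S : Finset Sq) : ∃ K : ℕ, ∀ n ≥ K, ∀ r : ℤ,
    Disjoint S ((bo r \ bo ((n : ℤ) - 1)).image v6) := by
  refine ⟨S.sup (fun v => v.1.natAbs + v.2.natAbs) + 4, fun n hn r => ?_⟩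
  rw [Finset.disjoint_right]
  intro v hv hS
  obtain ⟨m, hm, rfl⟩ := Finset.mem_image.1 hv
  have h1 : (v6 m).1.natAbs + (v6 m).2.natAbs ≤ S.sup fun v => v.1.natAbs + v.2.natAbs :=
    Finset.le_sup (f := fun v : Sq => v.1.natAbs + v.2.natAbs) hS
  refine (Finset.mem_sdiff.1 hm).2 (mem_bo.2 ?_)
  rw [P145.Rs.mem_sq]
  generalize (S.sup fun v => v.1.natAbs + v.2.natAbs) = K at *
  obtain ⟨⟨a, b⟩, s⟩ := m
  cases s <;> simp only [v6, P152.src, Prod.fst_zero, Prod.snd_zero, if_true, Bool.false_eq_true,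
    if_false] at h1 ⊢ <;> omega

theorem small {μ : Measure Cf} (hb : Base) (hm : Mod μ) {c : ℝ} (hc0 : 0 < c) (hc1 : c ≤ 1)
    (hc : ∀ n : ℕ, 72 ≤ n → c ≤ nr μ (Ci n (3 * n))) (n0 k : ℕ) :
    ∃ (W : Finset Sq) (A : Set Cf), Le W A ∧ μ.real A ≤ (1 - c / 2) ^ k ∧
      ∀ ω : Cf, (∀ n, n0 ≤ n → (fun m => ω (v6 m)) ∉ Ci n (3 * n)) → ω ∈ A := by
  haveI := hm.prob
  induction k with
  | zero => exact ⟨∅, Set.univ, fun _ _ _ => rfl, by simp, fun _ _ => trivial⟩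
  | succ k ih =>
    obtain ⟨W, A, h1, h2, h3⟩ := ih
    have hx : 0 < (1 - c / 2) ^ k := pow_pos (by linarith) k
    obtain ⟨S, hS⟩ := hm.mix W A h1 (c / 2 * (1 - c / 2) ^ k) (by positivity)
    obtain ⟨K, hK⟩ := far S
    obtain ⟨n, hn1, hn2, hn3⟩ : ∃ n, K ≤ n ∧ n0 ≤ n ∧ 72 ≤ n :=
      ⟨K + n0 + 72, by omega, by omega, by omega⟩
    have hW : Le (bo ((3 * n : ℕ) : ℤ) \ bo ((n : ℤ) - 1)) (Ci n (3 * n)) :=
      hb.ev.2.2 _ _ _ fun m h1 h2 => Finset.mem_sdiff.2 ⟨mem_bo.2 h1, fun k => h2 (mem_bo.1 k)⟩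
    have hP := le_pull hW
    refine ⟨_, _, le_inter h1 (le_compl hP), ?_, fun ω h => ⟨h3 ω h, h n hn2⟩⟩
    refine (hS _ _ (le_compl hP) (hK n hn1 _)).trans ?_
    rw [probReal_compl_eq_one_sub ((hb.loc _ _).2 _ hP).1, pow_succ]
    have h4 := hc n hn3
    unfold nr at h4
    have h5 : μ.real A * (1 - μ.real {ω : Cf | (fun m => ω (v6 m)) ∈ Ci n (3 * n)}) ≤
        (1 - c / 2) ^ k * (1 - c) :=
      mul_le_mul h2 (by linarith) (sub_nonneg.2 measureReal_le_one) hx.le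
    linarith

end WFinx

theorem w_fin {μ : Measure Cf} (hb : Base) (hs : X_sh) (hm : Mod μ) (hc : W_cir μ) : W_fin μ := by
  haveI := hm.prob
  obtain ⟨c, hc0, hc⟩ := hc.1
  have hc1 : c ≤ 1 := (hc 72 le_rfl).trans measureReal_le_one
  have h0 : ∀ᵐ ω ∂μ, ∀ n0 : ℕ, ∃ n N : ℕ, n0 ≤ n ∧ n ≤ N ∧ (fun m => ω (v6 m)) ∈ Ci n N := by
    refine ae_all_iff.2 fun n0 => ?_
    rw [ae_iff, ← measureReal_eq_zero_iff]
    refine le_antisymm ?_ measureReal_nonneg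
    refine ge_of_tendsto' (tendsto_pow_atTop_nhds_zero_of_lt_one
      (show 0 ≤ 1 - c / 2 by linarith) (by linarith)) fun k => ?_
    obtain ⟨W, A, -, h2, h3⟩ := WFinx.small hb hm hc0 hc1 hc n0 k
    refine le_trans (measureReal_mono ?_) h2
    intro ω hω
    exact h3 ω fun n hn h => hω ⟨n, 3 * n, hn, by omega, h⟩
  have h1 : ∀ᵐ ω ∂μ, ∀ x : Sq, ¬Even (x.1 + x.2) → (clus ω x).Finite :=
    h0.mono fun ω h => hdet_pf ω h
  have h2 := (hm.inv (1, 0)).quasiMeasurePreserving.ae h1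
  filter_upwards [h1, h2] with ω a b x
  by_cases h : Even (x.1 + x.2)
  · have h3 := b (x - (1, 0)) (by
      rw [Int.even_iff] at h ⊢
      simp only [Prod.fst_sub, Prod.snd_sub]
      omega)
    refine (h3.image fun y => y + (1, 0)).subset fun y hy => ⟨y - (1, 0), ?_, sub_add_cancel _ _⟩
    rw [hs.cl, sub_add_cancel, sub_add_cancel]
    exact hy
  · exact a x h

end Vale.Agent.P167Q.W
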