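import Vale.Agent.P167W.WStm
import Vale.Agent.P167Q.FProd

/-! P167W: only the loops round clusters that meet the box have a weight different from one. -/

open Finset Relation Filter Topology MeasureTheory
open scoped Classical BigOperators

namespace Vale.Agent.P167Q.W

theorem l_fp (hb : Base) : L_fp := by
  intro a δ f φ R ha h0 hT ω
  have hp := hb.bas
  have c0 : 0 < Real.cos a := Real.cos_pos_of_mem_Ioo
    ⟨by linarith [Real.pi_pos, ha.1], by linarith [Real.pi_pos, ha.2]⟩
  have key : ∀ C ∈ loops ω, wq a (∫ z in region δ (fill ω C), f z) ≠ 1 →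
      C ∈ (box R).image (clus ω) := by
    rintro C ⟨-, x, rfl⟩ hw
    by_contra hn
    refine hw ?_
    rw [wq, hT, FProdx.zero hp h0 fun y hy hc => hn (mem_image.2 ⟨y, hy, hp.cleq ω x y hc⟩),
      add_zero, div_self c0.ne']
  rw [nestq, finprod_mem_eq_prod_of_inter_mulSupport_eq _
    (t := ((box R).image (clus ω)).filter Set.Finite), prod_filter, nq]
  · simp only [hT]
  · ext C
    simp only [Set.mem_inter_iff, Function.mem_mulSupport, mem_coe, mem_filter]
    refine and_congr_left fun hw => ⟨fun hC => ⟨key C hC hw, hC.1⟩, fun hC => ⟨hC.2, ?_⟩⟩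
    obtain ⟨x, -, hx⟩ := mem_image.1 hC.1
    exact ⟨x, hx.symm⟩

end Vale.Agent.P167Q.W
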