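import Vale.Agent.P167W.WStm
import Vale.Agent.P167Q.XGff

/-! P167W: the field estimate for two charges. -/

open Finset Relation Filter Topology MeasureTheory
open scoped Classical BigOperators

namespace Vale.Agent.P167Q.W

open Vale.Agent.P152 (IsTest gcov Vx Site v6)
open Vale.Agent.P167 (Q.ea Q.eb Q.fx Q.f0 Q.FKm Pc.chi Pc.Loc Pc.ins Pc.loop)
open Vale.Agent.P153.RSW (Ev)

namespace WGffx

open XGffx

theorem nest_eq {a : ℝ} (hb : Base) (ha : Ang a) (hp : L_fp) (hc : G_cel) {A : ℝ}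
    {ρ : ℝ × ℝ → ℝ} (hρ : Bump A ρ) (θ₁ θ₂ : ℝ) (J m₁ m₂ : ℕ) :
    nestq a (1 / 2 ^ J) (tf ρ θ₁ θ₂ m₁ m₂) = nnq a (tri ρ J m₁ m₂) θ₁ θ₂ := by
  funext ω
  have hR : ∀ m, m ≤ m₁ + m₂ → 3 * 2 ^ (J + m) ≤ (tri ρ J m₁ m₂).R := fun m hm =>
    Nat.mul_le_mul_left 3 (Nat.pow_le_pow_right two_pos
      (show J + m ≤ J + m₁ + m₂ by omega))
  have r0 := hR 0 (Nat.zero_le _)
  have r1 := hR m₁ (Nat.le_add_right _ _)
  have r2 := hR (m₁ + m₂) le_rfl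
  refine hp a _ _ _ _ ha ?_ (fun S => ?_) ω
  · have s0 := sum_one hb (hc A ρ hρ J 0).1 r0
    have s1 := sum_one hb (hc A ρ hρ J m₁).1 r1
    have s2 := sum_one hb (hc A ρ hρ J (m₁ + m₂)).1 r2
    show ∑ x ∈ box (tri ρ J m₁ m₂).R, ((θ₁ + θ₂) * cel J (bmp ρ 0) x - θ₁ * cel J (bmp ρ m₁) x -
      θ₂ * cel J (bmp ρ (m₁ + m₂)) x) = 0
    rw [Finset.sum_sub_distrib, Finset.sum_sub_distrib, ← Finset.mul_sum, ← Finset.mul_sum,
      ← Finset.mul_sum, s0, s1, s2]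
    ring
  · obtain ⟨i0, e0⟩ := (hc A ρ hρ J 0).2 _ r0 S
    obtain ⟨i1, e1⟩ := (hc A ρ hρ J m₁).2 _ r1 S
    obtain ⟨i2, e2⟩ := (hc A ρ hρ J (m₁ + m₂)).2 _ r2 S
    have j0 := i0.integrable.const_mul (θ₁ + θ₂)
    have j1 := i1.integrable.const_mul θ₁
    have j2 := i2.integrable.const_mul θ₂
    have j3 : Integrable (fun x => (θ₁ + θ₂) * bmp ρ 0 x - θ₁ * bmp ρ m₁ x)
        (volume.restrict (region (1 / 2 ^ J) S)) := j0.sub j1
    rw [ms_ch]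
    unfold tf
    rw [integral_sub j3 j2, integral_sub j0 j1, integral_const_mul, integral_const_mul,
      integral_const_mul, e0, e1, e2]
    rfl

theorem scale {a g C θ m : ℝ} (ha : Ang a)
    (h : |3 / (2 * Real.pi) * g - aa * ((θ + 0) ^ 2 * m + 0 ^ 2 * (4 : ℕ))| ≤ C) :
    |1 / (Real.pi - a) * g - aq a * θ ^ 2 * m| ≤ 2 * Real.pi / (3 * (Real.pi - a)) * C := by
  have hπ := Real.pi_pos
  have h1 : 0 < Real.pi - a := by linarith [ha.2]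
  have hk : 0 < 2 * Real.pi / (3 * (Real.pi - a)) := by positivity
  have e : 1 / (Real.pi - a) * g - aq a * θ ^ 2 * m = 2 * Real.pi / (3 * (Real.pi - a)) *
      (3 / (2 * Real.pi) * g - aa * ((θ + 0) ^ 2 * m + 0 ^ 2 * (4 : ℕ))) := by
    unfold aq aa
    field_simp
    ring
  rw [e, abs_mul, abs_of_pos hk]
  exact mul_le_mul_of_nonneg_left h hk.le

end WGffx

open XGffx in
theorem g_gff {μ : Measure Cf} {a : ℝ} (hb : Base) (ha : Ang a) (hG : Goalq μ a) (hp : L_fp)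
    (ht : G_tf) (hc : G_cel) : G_gffq μ a := by
  obtain ⟨⟨A, ρ, hρ⟩, ht⟩ := ht
  refine ⟨A, fun J m => tri ρ J m 4, fun J m hm => ⟨⟨hm, le_rfl, (hc A ρ hρ J 0).1,
    (hc A ρ hρ J m).1, ?_⟩, rfl, rfl⟩, fun θ => ?_⟩
  · show Ad A (J + m + 4) _
    rw [add_assoc]
    exact (hc A ρ hρ J (m + 4)).1
  obtain ⟨C, hC⟩ := ht A ρ hρ θ 0
  refine ⟨2 * Real.pi / (3 * (Real.pi - a)) * C + 1, fun m h1 => ?_⟩
  obtain ⟨hf, hv⟩ := hC m 4 h1 le_rfl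
  have t := (hG _ hf).comp lim
  have hw := abs_le.1 (WGffx.scale ha hv)
  filter_upwards [t.eventually (lt_mem_nhds (a :=
      Real.exp (-(aq a * θ ^ 2 * m) - (2 * Real.pi / (3 * (Real.pi - a)) * C + 1)))
      (Real.exp_lt_exp.2 (by linarith [hw.2]))),
    t.eventually (gt_mem_nhds (a :=
      Real.exp (-(aq a * θ ^ 2 * m) + (2 * Real.pi / (3 * (Real.pi - a)) * C + 1)))
      (Real.exp_lt_exp.2 (by linarith [hw.1])))] with J a1 a2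
  simp only [Function.comp_apply, WGffx.nest_eq hb ha hp hc hρ] at a1 a2
  exact ⟨a1.le, a2.le⟩

end Vale.Agent.P167Q.W
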