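import Vale.Agent.P167W.WStm

/-! P167W, one arm exponent: changing the inner radius and gluing two arms. -/

open Finset Relation Filter Topology MeasureTheory
open scoped Classical BigOperators

namespace Vale.Agent.P167Q.W

namespace WGluex

theorem le1 {μ : Measure Cf} (hm : Mod μ) (s : Set Cf) : μ.real s ≤ 1 := by
  have := hm.prob
  exact measureReal_le_one

theorem pc0 (μ : Measure Cf) (c : Bool) (a b : ℕ) : 0 ≤ pcm μ c a b := measureReal_nonneg

theorem pc1 {μ : Measure Cf} (hm : Mod μ) (c : Bool) (a b : ℕ) : pcm μ c a b ≤ 1 := le1 hm _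

theorem pa0 (μ : Measure Cf) (a b : ℕ) : 0 ≤ pam μ a b := measureReal_nonneg

theorem pa1 {μ : Measure Cf} (hm : Mod μ) (a b : ℕ) : pam μ a b ≤ 1 := le1 hm _

theorem qin {μ : Measure Cf} (hm : Mod μ) (hs : Q_subq μ) (hr : Q_ringq μ) (hw : Q_rswq μ) :
    Q_inq μ := by
  intro g
  obtain ⟨c, hc, hR⟩ := hr
  obtain ⟨c', hc', hW⟩ := hw.1 (6 * g + 12)
  refine ⟨min 1 c * c', by positivity, fun a ha a' ha' d => ?_⟩
  have e : (6 * g + 12) * a = 6 * (g * a) + 12 * a := by ring
  have h0 := pc0 μ true a' d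
  have h1 := hW a ha
  have m1 := min_le_left 1 c
  have m2 := min_le_right 1 c
  have m0 : 0 ≤ min 1 c := by positivity
  rcases lt_or_ge d (6 * (g * a + a + 1)) with h | h
  · have h2 := hs.mc true a a ((6 * g + 12) * a) d le_rfl (by omega)
    have h3 : min 1 c * c' * pcm μ true a' d ≤ 1 * c' * 1 := by
      gcongr
      exact pc1 hm _ _ _
    linarith
  · have h2 := hR a (g * a + a + 1) d (by omega) (by omega) h
    have h3 := hs.mc true a a ((6 * g + 12) * a) (6 * (g * a + a + 1)) le_rfl (by omega)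
    have h4 := hs.mc true a' (g * a + a + 1 - 1) d d (by omega) le_rfl
    refine le_trans ?_ h2
    rw [mul_assoc]
    have h5 := h1.trans h3
    gcongr
    exact pc0 μ _ _ _

theorem qglue {μ : Measure Cf} (hm : Mod μ) (hs : Q_subq μ) (hk : W_sym μ) (hr : Q_ringq μ)
    (hi : Q_inq μ) : Q_glueq μ := by
  intro g
  obtain ⟨c, hc, hR⟩ := hr
  obtain ⟨c1, hc1, H1⟩ := hi (100 * g + 1)
  obtain ⟨c2, hc2, H2⟩ := hi 2
  obtain ⟨c3, hc3, H3⟩ := hi (7 * g + 1)
  refine ⟨5 / c1 + 5 / c2 + 25 / (c * c2 * c3), fun a k k' d ha hk1 hk2 => ?_⟩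
  have p0 := pc0 μ true a d
  have q0 := pa0 μ a k
  have q1 := pa1 hm a k
  have r0 := pa0 μ k' d
  have r1 := pa1 hm k' d
  have s1 := (hk true a k).2
  have s2 := (hk true k' d).2
  have t1 : 0 ≤ 5 / c1 * pcm μ true a d := by positivity
  have t2 : 0 ≤ 5 / c2 * pcm μ true a d := by positivity
  have t3 : 0 ≤ 25 / (c * c2 * c3) * pcm μ true a d := by positivity
  have u2 := H2 a ha (a + 1) (by omega) k
  rw [add_mul, add_mul]
  rcases le_or_gt k (100 * a) with h | h
  · have x1 : g * k ≤ g * (100 * a) := Nat.mul_le_mul_left g h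
    have x2 : (100 * g + 1) * a = g * (100 * a) + a := by ring
    have u1 := H1 a ha (k' + 1) (by omega) d
    have v1 : pam μ a k * pam μ k' d ≤ pam μ k' d := mul_le_of_le_one_left r0 q1
    have v2 : pam μ k' d ≤ 5 / c1 * pcm μ true a d := by
      rw [div_mul_eq_mul_div, le_div_iff₀ hc1]
      nlinarith
    linarith
  rcases le_or_gt d k with h' | h'
  · have u3 := hs.mc true a a k d le_rfl h'
    have v1 : pam μ a k * pam μ k' d ≤ pam μ a k := mul_le_of_le_one_right q0 r1
    have v2 : pam μ a k ≤ 5 / c2 * pcm μ true a d := by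
      rw [div_mul_eq_mul_div, le_div_iff₀ hc2]
      nlinarith
    linarith
  · have u3 := hR a (k / 6) d (by omega) (by omega) (by omega)
    have u4 := hs.mc true a a k (6 * (k / 6)) le_rfl (by omega)
    have x1 : g * k ≤ g * (7 * (k / 6 - 1)) := Nat.mul_le_mul_left g (by omega)
    have x2 : (7 * g + 1) * (k / 6 - 1) = g * (7 * (k / 6 - 1)) + (k / 6 - 1) := by ring
    have u5 := H3 (k / 6 - 1) (by omega) (k' + 1) (by omega) d
    have w1 : c2 * pam μ a k ≤ 5 * pcm μ true a (6 * (k / 6)) := by nlinarith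
    have w2 : c3 * pam μ k' d ≤ 5 * pcm μ true (k / 6 - 1) d := by nlinarith
    have w3 := mul_le_mul w1 w2 (by positivity) (by have := pc0 μ true a (6 * (k / 6)); positivity)
    have w4 := mul_le_mul_of_nonneg_left w3 hc.le
    have v : pam μ a k * pam μ k' d ≤ 25 / (c * c2 * c3) * pcm μ true a d := by
      rw [div_mul_eq_mul_div, le_div_iff₀ (by positivity)]
      linarith
    linarith

end WGluex

theorem q_glue {μ : Measure Cf} (hm : Mod μ) (hs : Q_subq μ) (hk : W_sym μ) (hr : Q_ringq μ)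
    (hw : Q_rswq μ) : Q_inq μ ∧ Q_glueq μ :=
  ⟨WGluex.qin hm hs hr hw, WGluex.qglue hm hs hk hr (WGluex.qin hm hs hr hw)⟩

end Vale.Agent.P167Q.W
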