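import Vale.Agent.P167W.WStm
import Vale.Agent.P167Q.XGoal

open Finset Relation Filter Topology MeasureTheory
open scoped Classical BigOperators

namespace Vale.Agent.P167Q.W

open Vale.Agent.P152 (IsTest gcov Vx Site v6)
open Vale.Agent.P167 (Q.ea Q.eb Q.fx Q.f0 Q.FKm Pc.chi Pc.Loc Pc.ins Pc.loop)
open Vale.Agent.P153.RSW (Ev)

namespace WGoalx

lemma ed_even (v : Sq) (i : Bool) : Even ((ed v true i).1 + (ed v true i).2) := by
  unfold ed
  by_cases h : Even (v.1 + v.2) <;> cases i <;> simp [h] <;> rw [Int.even_iff] at * <;> omega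

lemma ed_odd (v : Sq) (i : Bool) : ¬Even ((ed v false i).1 + (ed v false i).2) := by
  unfold ed
  rw [Int.even_iff]
  by_cases h : Even (v.1 + v.2) <;> cases i <;>
    simp only [h, decide_true, decide_false, Bool.false_eq_true, if_true, if_false] <;>
    rw [Int.even_iff] at h <;> omega

lemma ends (v : Sq) : ∃ i, Q.ea v = ed v true i ∧ Q.eb v = ed v true (!i) := by
  obtain ⟨x, y⟩ := v
  by_cases h : Even (x + y)
  · exact ⟨true, by simp [P167.Q.ea, ed, h], by simp [P167.Q.eb, ed, h]⟩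
  · exact ⟨false, by simp [P167.Q.ea, ed, h], by simp [P167.Q.eb, ed, h]⟩

lemma op_symm {ω : Cf} {x y : Sq} (h : Op ω x y) : Op ω y x := by
  obtain ⟨v, i, h1, h2⟩ := h
  exact ⟨v, !i, h2, by rw [Bool.not_not]; exact h1⟩

lemma rt_symm {ω : Cf} {x y : Sq} (h : ReflTransGen (Op ω) x y) : ReflTransGen (Op ω) y x := by
  induction h with
  | refl => exact ReflTransGen.refl
  | tail _ h2 ih => exact (ReflTransGen.single (op_symm h2)).trans ih

lemma sub1 {ω : Cf} {x y : Sq}
    (h : EqvGen (fun u w => ∃ v, ω v = true ∧ Q.ea v = u ∧ Q.eb v = w) x y) :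
    ReflTransGen (Op ω) x y := by
  induction h with
  | rel u w h =>
    obtain ⟨v, h1, h2, h3⟩ := h
    obtain ⟨i, k1, k2⟩ := ends v
    exact ReflTransGen.single ⟨v, i, by rw [h1, ← h2, k1], by rw [h1, ← h3, k2]⟩
  | refl u => exact ReflTransGen.refl
  | symm u w _ ih => exact rt_symm ih
  | trans u w z _ _ ih1 ih2 => exact ih1.trans ih2

lemma sub2 {ω : Cf} {x y : Sq} (hx : Even (x.1 + x.2)) (h : ReflTransGen (Op ω) x y) :
    Even (y.1 + y.2) ∧ EqvGen (fun u w => ∃ v, ω v = true ∧ Q.ea v = u ∧ Q.eb v = w) x y := by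
  induction h with
  | refl => exact ⟨hx, EqvGen.refl _⟩
  | tail _ h2 ih =>
    obtain ⟨v, i, h3, h4⟩ := h2
    cases k : ω v
    · rw [k] at h3
      exact absurd (h3 ▸ ih.1) (ed_odd v i)
    · rw [k] at h3 h4
      refine ⟨h4 ▸ ed_even v (!i), EqvGen.trans _ _ _ ih.2 ?_⟩
      obtain ⟨j, k1, k2⟩ := ends v
      by_cases hij : i = j
      · subst hij
        exact EqvGen.rel _ _ ⟨v, k, k1.trans h3.symm, k2.trans h4.symm⟩
      · have e : j = !i := by
          cases i <;> cases j <;> simp at hij ⊢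
        subst e
        rw [Bool.not_not] at k2
        exact EqvGen.symm _ _ (EqvGen.rel _ _ ⟨v, k, k1.trans h4.symm, k2.trans h3.symm⟩)

lemma clus_eq (ω : Cf) : P167.Q.clus ω (0, 0) = clus ω (0, 0) := by
  ext y
  exact ⟨fun h => sub1 h, fun h => (sub2 (by simp) h).2⟩

end WGoalx

theorem goal3 {μ : Measure Cf} {a : ℝ} (hu : E_upq μ a) (hl : E_loq μ a) : Goal3 μ a := by
  unfold Goal3
  simp only [WGoalx.clus_eq, XGoalx.set_eq]
  refine Metric.tendsto_nhds.2 fun ε hε => ?_
  filter_upwards [hu (ε / 2) (half_pos hε), hl (ε / 2) (half_pos hε), eventually_gt_atTop 1]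
    with n h1 h2 hn
  have hlog : 0 < Real.log n := Real.log_pos (by exact_mod_cast hn)
  have hp : 0 < pcm μ true 0 n := (Real.exp_pos _).trans_le h2
  have k1 : Real.log (pcm μ true 0 n) ≤ -((al a - ε / 2) * Real.log n) :=
    (Real.log_le_iff_le_exp hp).2 h1
  have k2 : -((al a + ε / 2) * Real.log n) ≤ Real.log (pcm μ true 0 n) :=
    (Real.le_log_iff_exp_le hp).2 h2
  have e : μ.real (BA true 0 n) = pcm μ true 0 n := rfl
  rw [e, Real.dist_eq, abs_lt]
  have k3 : Real.log (pcm μ true 0 n) / Real.log n ≤ -(al a - ε / 2) := by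
    rw [div_le_iff₀ hlog]
    linarith
  have k4 : -(al a + ε / 2) ≤ Real.log (pcm μ true 0 n) / Real.log n := by
    rw [le_div_iff₀ hlog]
    linarith
  constructor <;> linarith

end Vale.Agent.P167Q.W
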