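import Vale.Agent.P167W.WStm
import Vale.Agent.P167Q.XGood

/-! P167W: the good event for one angle. -/

open Finset Relation Filter Topology MeasureTheory
open scoped Classical BigOperators

namespace Vale.Agent.P167Q.W

open Vale.Agent.P152 (IsTest gcov Vx Site v6)
open Vale.Agent.P167 (Q.ea Q.eb Q.fx Q.f0 Q.FKm Pc.chi Pc.Loc Pc.ins Pc.loop)
open Vale.Agent.P153.RSW (Ev)

theorem d_good {a : ℝ} (ha : Ang a) (hs : D_sum) : D_goodq a := by
  intro A θ T hT ω _ C _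
  obtain ⟨-, -, a0, a1, -⟩ := hT
  have j0 : T.J ≤ T.J₂ := by
    unfold Tri.J₂
    omega
  have j1 : T.J₁ ≤ T.J₂ := Nat.le_add_right _ _
  have m0 := (hs A T _ _ a0 j0 ω).1
  have m1 := (hs A T _ _ a1 j1 ω).1
  have e : |T.xx θ 0 ω C| ≤ |θ| := by
    rw [XGoodx.xx_eq, add_zero, zero_mul, sub_zero, ← mul_sub, abs_mul]
    exact mul_le_of_le_one_right (abs_nonneg _) (abs_le.2
      ⟨by linarith [(m0 C).1, (m1 C).2], by linarith [(m0 C).2, (m1 C).1]⟩)
  obtain ⟨e1, e2⟩ := abs_le.1 e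
  have := ha.1
  constructor <;> linarith

end Vale.Agent.P167Q.W
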