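import Vale.Agent.P167W.WStm

/-! P167W: arms that start outside the explored set. -/

open Finset Relation Filter Topology MeasureTheory
open scoped Classical BigOperators

namespace Vale.Agent.P167Q.W

open Vale.Agent.P152 (IsTest gcov Vx Site v6)
open Vale.Agent.P167 (Q.ea Q.eb Q.fx Q.f0 Q.FKm Pc.chi Pc.Loc Pc.ins Pc.loop)
open Vale.Agent.P153.RSW (Ev)

namespace WHbx

theorem intg (hb : Base) (μ : Measure Cf) [IsProbabilityMeasure μ] {W : Finset Sq} {G : Cf → ℝ}
    (h : Lc W G) : Integrable G μ := by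
  refine Integrable.of_bound ((hb.loc Sq W).1 G h).1.aestronglyMeasurable
    (∑ η : W → Bool, |G (xt W η)|) (Eventually.of_forall fun ω => ?_)
  have e : G ω = G (xt W fun i => ω i) := h _ _ fun i hi => by
    unfold xt
    rw [dif_pos hi]
  rw [e, Real.norm_eq_abs]
  exact single_le_sum (f := fun η : W → Bool => |G (xt W η)|) (fun _ _ => abs_nonneg _)
    (mem_univ _)

theorem lc_mul {V W : Finset Sq} {F G : Cf → ℝ} (hF : Lc V F) (hG : Lc W G) :
    Lc (V ∪ W) fun ω => F ω * G ω := fun ω ω' e => by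
  simp only [hF ω ω' fun v hv => e v (mem_union_left _ hv),
    hG ω ω' fun v hv => e v (mem_union_right _ hv)]

theorem lc_ind {W : Finset Sq} {A : Set Cf} (h : Le W A) :
    Lc W (A.indicator (1 : Cf → ℝ)) := fun ω ω' e => by
  have k : (ω ∈ A) = (ω' ∈ A) := h ω ω' e
  simp only [Set.indicator_apply, k, Pi.one_apply]

theorem lc_cut {W : Finset Sq} {F : Cf → ℝ} (h : Lc W F) (R : Finset Sq) :
    Lc W fun ω => F (cutR R ω) := fun ω ω' e => h _ _ fun v hv => by
  unfold cutR
  rw [e v hv]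

theorem ind_nn (A : Set Cf) (ω : Cf) : 0 ≤ A.indicator (1 : Cf → ℝ) ω :=
  Set.indicator_nonneg (fun _ _ => zero_le_one) ω

theorem ind_mono {A : Set Cf} (h : IsUpperSet A) : Monotone (A.indicator (1 : Cf → ℝ)) := by
  intro ω ω' k
  by_cases h1 : ω ∈ A
  · rw [Set.indicator_of_mem h1, Set.indicator_of_mem (h k h1)]
    exact le_rfl
  · rw [Set.indicator_of_notMem h1]
    exact ind_nn A ω'

theorem step (hb : Base) (hz : W_az) (μ : Measure Cf) [IsProbabilityMeasure μ] (z : Sq)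
    (n N : ℕ) {R V : Finset Sq} {H G : Cf → ℝ} (hH : Adm R H) (hG : Lc V G)
    (hG0 : ∀ ω, 0 ≤ G ω) :
    (exm μ fun ω => (AR R z n N).indicator 1 ω * (H ω * G ω)) ≤
      exm μ fun ω => (AZ true z n N).indicator 1 (cutR R ω) * (H ω * G ω) := by
  refine integral_mono_of_nonneg (Eventually.of_forall fun ω =>
    mul_nonneg (ind_nn _ ω) (mul_nonneg (hH.2.1 ω) (hG0 ω)))
    (intg hb μ (lc_mul (lc_cut (lc_ind (hz.lc true z n N)) R) (lc_mul hH.1 hG)))
    (Eventually.of_forall fun ω => ?_)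
  by_cases h0 : H ω = 0
  · simp [h0]
  · refine mul_le_mul_of_nonneg_right ?_ (mul_nonneg (hH.2.1 ω) (hG0 ω))
    by_cases h1 : ω ∈ AR R z n N
    · rw [Set.indicator_of_mem h1, Set.indicator_of_mem (hz.cut R z n N ω (hH.2.2 ω h0) h1)]
      exact le_rfl
    · rw [Set.indicator_of_notMem h1]
      exact ind_nn _ _

end WHbx

open WHbx in
theorem v_hb (hb : Base) (hz : W_az) (h1 : V_sup) (h2 : V_nega) (h3 : V_negb) : V_hb := by
  intro r μ hr hμ hm
  haveI := hm.prob
  refine ⟨fun z n N R H hH => ?_, fun z n N ε hε G hG R H hH => ?_⟩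
  · refine (step hb hz μ z n N (V := ∅) hH (fun _ _ _ => rfl) fun _ => zero_le_one).trans ?_
    have k := h2 r μ hr hμ R _ H (ind_mono (hz.up z n N).1) ⟨_, lc_ind (hz.lc true z n N)⟩
      (ind_nn _) hH
    have e : exm μ ((AZ true z n N).indicator 1) = μ.real (AZ true z n N) :=
      integral_indicator_one ((hb.loc Sq _).2 _ (hz.lc true z n N)).1
    rw [e] at k
    simpa only [mul_one] using k
  · obtain ⟨V, hV, -⟩ := hG.1
    refine (step hb hz μ z n N hH hV hG.2).trans ?_
    refine (h3 r μ hr hμ _ R _ H G (ind_mono (hz.up z n N).1) (lc_ind (hz.lc true z n N))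
      (ind_nn _) hH hG).trans ?_
    exact mul_le_mul_of_nonneg_right
      (h1 r μ hr hμ hm _ _ ε (ind_mono (hz.up z n N).1) (lc_ind (hz.lc true z n N)) hε)
      (integral_nonneg fun ω => mul_nonneg (hH.2.1 ω) (hG.2 ω))

end Vale.Agent.P167Q.W
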