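import Vale.Agent.P167W.WStm
import Vale.Agent.P167Q.HSym
import Vale.Agent.P167Q.HEv

/-! P167W: symmetry of crossing events, crossings of squares. -/

open Finset Relation Filter Topology MeasureTheory
open scoped Classical BigOperators

namespace Vale.Agent.P167Q.W

open Vale.Agent.P152 (IsTest gcov Vx Site v6 src tgt dir)
open Vale.Agent.P145 (du r_hex)
open Vale.Agent.P153.RSW (Ev)
open HSymx HEvx

namespace WHsx

theorem pre {μ : Measure Cf} (hb : Base) (ge : Vx → Vx) (b : Bool) (T : Cf → Cf)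
    (hT : MeasurePreserving T μ μ) (h : ∀ ω m, T ω (v6 m) = xor b (ω (v6 (ge m))))
    (W : Finset Vx) (A : Set (Vx → Bool)) (hA : Le W A) :
    nr μ ((fun (w : Vx → Bool) m => xor b (w (ge m))) ⁻¹' A) = nr μ A := by
  have m : MeasurableSet {ω : Cf | (fun m => ω (v6 m)) ∈ A} :=
    ((hb.loc _ (W.image v6)).2 {ω : Cf | (fun m => ω (v6 m)) ∈ A} fun ω ω' e =>
      hA (fun m => ω (v6 m)) (fun m => ω' (v6 m)) fun m hm => e (v6 m) (mem_image_of_mem _ hm)).1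
  have e : {ω : Cf | (fun m => ω (v6 m)) ∈ (fun (w : Vx → Bool) m => xor b (w (ge m))) ⁻¹' A} =
      T ⁻¹' {ω : Cf | (fun m => ω (v6 m)) ∈ A} := by
    ext ω
    have : (fun m => T ω (v6 m)) = fun m => xor b (ω (v6 (ge m))) := funext (h ω)
    change (fun m => xor b (ω (v6 (ge m)))) ∈ A ↔ (fun m => T ω (v6 m)) ∈ A
    rw [this]
  unfold nr
  rw [e]
  exact hT.measureReal_preimage m.nullMeasurableSet

theorem le_fin (hb : Base) {S : Set Site} (hS : S.Finite) (A B : Set Site) :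
    Le (hS.toFinset ×ˢ Finset.univ) (Ev e2 S A B) :=
  hb.ev.1 S A B _ fun _ hm => Finset.mem_product.2 ⟨hS.mem_toFinset.2 hm, Finset.mem_univ _⟩

theorem gen {μ : Measure Cf} (hb : Base) (g : Site ≃ Site) (ge : Vx ≃ Vx)
    (h : ∀ m a b, P145.Joi m (g a) (g b) ↔ P145.Joi (ge m) a b) (T : Cf → Cf)
    (hT : MeasurePreserving T μ μ) (h' : ∀ ω m, T ω (v6 m) = xor false (ω (v6 (ge m))))
    (S A B : Set Site) (hS : S.Finite) :
    nr μ (Ev e2 (g ⁻¹' S) (g ⁻¹' A) (g ⁻¹' B)) = nr μ (Ev e2 S A B) := by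
  have k : ∀ (w : Vx → Bool) a b, e2 (fun m => xor false (w (ge m))) (g a) (g b) ↔ e2 w a b := by
    intro w a b
    simp only [Bool.false_xor]
    refine ⟨fun ⟨m, h1, h2⟩ => ⟨ge m, h1, (h m a b).1 h2⟩, fun ⟨m, h1, h2⟩ => ?_⟩
    obtain ⟨m, rfl⟩ := ge.surjective m
    exact ⟨m, h1, (h m a b).2 h2⟩
  have e : Ev e2 (g ⁻¹' S) (g ⁻¹' A) (g ⁻¹' B) =
      (fun (w : Vx → Bool) m => xor false (w (ge m))) ⁻¹' Ev e2 S A B := by
    ext w
    refine ⟨fwd (g := g) (fun a b => (k w a b).2) (fun _ e => e) (fun _ e => e) fun _ e => e,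
      fwd (g := g.symm) (fun a b e => (k w _ _).1 ?_) (fun _ e => by simpa using e)
        (fun _ e => by simpa using e) fun _ e => by simpa using e⟩
    rwa [g.apply_symm_apply, g.apply_symm_apply]
  rw [e]
  exact pre hb ge false T hT h' _ _ (le_fin hb hS A B)

theorem hs {μ : Measure Cf} (hb : Base) (hm : Mod μ) : W_hs μ := by
  rintro g (⟨t, rfl⟩ | rfl | rfl) S A B hS
  · refine gen hb (Equiv.addRight t) ((Equiv.subRight t).prodCongr (Equiv.refl _)) ?_ _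
      (hm.inv (-(t.1 + t.2), -(t.1 - t.2))) ?_ S A B hS
    · rintro ⟨⟨x, y⟩, s⟩ ⟨a1, a2⟩ ⟨b1, b2⟩
      cases s <;> simp [P145.Joi, src, tgt, dir, Prod.ext_iff] <;> omega
    · rintro ω ⟨⟨x, y⟩, s⟩
      have e : ¬Odd (-(t.1 + t.2) + -(t.1 - t.2)) := by
        rw [Int.odd_iff]
        omega
      unfold sh
      rw [decide_eq_false e]
      refine congrArg (fun v => xor false (ω v)) (Prod.ext ?_ ?_) <;> simp [v6] <;> omega
  · refine gen hb ((Equiv.neg ℤ).prodCongr (Equiv.refl _)) fl_inv.toPerm ?_ _ hm.r2 ?_ S A B hS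
    · rintro ⟨⟨x, y⟩, s⟩ ⟨a1, a2⟩ ⟨b1, b2⟩
      cases s <;> simp [P145.Joi, fl, src, tgt, dir, Prod.ext_iff] <;> omega
    · rintro ω ⟨⟨x, y⟩, s⟩
      rw [Bool.false_xor]
      refine congrArg ω (Prod.ext ?_ ?_) <;> cases s <;> simp [v6, fl] <;> omega
  · refine gen hb (Equiv.prodComm _ _) sw_inv.toPerm ?_ _ hm.r1 ?_ S A B hS
    · rintro ⟨⟨x, y⟩, s⟩ ⟨a1, a2⟩ ⟨b1, b2⟩
      cases s <;> simp [P145.Joi, sw, src, tgt, dir, Prod.ext_iff] <;> omega
    · rintro ω ⟨⟨x, y⟩, s⟩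
      rw [Bool.false_xor]
      refine congrArg ω (Prod.ext ?_ ?_) <;> cases s <;> simp [v6, sw] <;> omega

end WHsx

open WHsx in
theorem w_hs {μ : Measure Cf} (hb : Base) (hm : Mod μ) : W_hs μ ∧ W_hc μ := by
  refine ⟨hs hb hm, fun n => ?_⟩
  have := hm.prob
  have hf := P145.Rs.rc_fin 0 n 0 n
  have h1 := pre hb duE true _ (hm.inv (1, 0)) (fun ω m => by
    have e : Odd (((1, 0) : Sq).1 + ((1, 0) : Sq).2) := by decide
    unfold sh
    rw [decide_eq_true e]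
    obtain ⟨⟨x, y⟩, s⟩ := m
    refine congrArg (fun v => xor true (ω v)) (Prod.ext ?_ ?_) <;> cases s <;>
      simp [v6, duE, du, dir] <;> omega) _ (P145.Rs.VC e2 0 n 0 n) (le_fin hb hf _ _)
  have h2 := hs hb hm (fun v => (v.2, v.1)) (Or.inr (Or.inr rfl)) _ {v | v.1 = 0} {v | v.1 = n} hf
  have e : (fun v : Site => (v.2, v.1)) ⁻¹' P145.Rs.rc 0 n 0 n = P145.Rs.rc 0 n 0 n := by
    ext v
    simp only [Set.mem_preimage, P145.Rs.mem_rc]
    omega
  rw [e] at h2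
  have h3 : (Set.univ : Set Cf) ⊆ {ω | (fun m => ω (v6 m)) ∈ P145.Rs.HC e2 0 n 0 n} ∪
      {ω | (fun m => ω (v6 m)) ∈
        (fun (ω : Vx → Bool) (m : Vx) => xor true (ω (duE m))) ⁻¹' P145.Rs.VC e2 0 n 0 n} := by
    intro ω _
    refine (r_hex {m | ω (v6 m) = true} n).imp id fun k => ?_
    have e' : {m | du m ∉ {m | ω (v6 m) = true}} = {m | xor true (ω (v6 (duE m))) = true} := by
      ext m
      simp [duE]
    rw [e'] at k
    exact k
  have h4 := (measureReal_mono (μ := μ) h3).trans (measureReal_union_le _ _)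
  rw [probReal_univ] at h4
  have h5 : nr μ (P145.Rs.VC e2 0 n 0 n) = nr μ (P145.Rs.HC e2 0 n 0 n) := h2
  have h6 : 1 ≤ nr μ (P145.Rs.HC e2 0 n 0 n) + nr μ
      ((fun (ω : Vx → Bool) (m : Vx) => xor true (ω (duE m))) ⁻¹' P145.Rs.VC e2 0 n 0 n) := h4
  linarith

end Vale.Agent.P167Q.W
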