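import Vale.Agent.P167W.WStm
import Vale.Agent.P167Q.XIlo

open Finset Relation Filter Topology MeasureTheory
open scoped Classical BigOperators

namespace Vale.Agent.P167Q.W

namespace WIlox

theorem memLq {μ : Measure Cf} [IsProbabilityMeasure μ] {G : Cf → ℝ} (h : Bdm μ G)
    (p : ENNReal) : MemLp G p μ := by
  obtain ⟨h1, M, h2⟩ := h
  exact MemLp.of_bound h1.aestronglyMeasurable M (ae_of_all _ h2)

end WIlox

open WIlox XIlox in
theorem i_lo {μ : Measure Cf} {a : ℝ} (hm : Mod μ) (hf : W_fin μ) (hx : W_bd μ a)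
    (ht : C_triq μ a) (hd : D_loq a) : I_loq μ a := by
  have hprob : IsProbabilityMeasure μ := hm.prob
  intro A θ₁ θ₂ η p hη hp h1 h2
  have hp0 : 0 < p := by linarith
  have hpq : p.HolderConjugate (p / (p - 1)) := (Real.holderConjugate_iff_eq_conjExponent hp).2 rfl
  generalize p / (p - 1) = q at hpq
  have hq0 : 0 < q := hpq.symm.pos
  obtain ⟨c, hc, hl⟩ := hd A θ₁ θ₂ η hη
  obtain ⟨C, ht⟩ := ht A θ₁ θ₂ (-q / p) (q * c / p) (by positivity)
  refine ⟨C * p / q, fun T hT B hB hG => ?_⟩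
  obtain ⟨b1, b2⟩ := ht T hT
  set H : Cf → ℝ := fun ω =>
    -q / p * (-(Real.tan a * T.Y θ₁ θ₂ ω) - bq μ a T θ₁ θ₂) + q * c / p * T.V ω with hH
  have bN : Bdm μ fun ω => nnq a T θ₁ θ₂ ω * B.indicator 1 ω :=
    hx.mul _ _ (hx.nb _ _) (hx.ind B hB)
  have hr : 0 ≤ 1 / p := by positivity
  have bf := hx.cont _ (fun x => |x| ^ (1 / p)) bN (continuous_abs.rpow_const fun _ => Or.inr hr)
  have bg := hx.cont _ (fun x => Real.exp (x / q)) b1 (by fun_prop)
  have hZ : ∀ ω, 0 < T.Z (wq a (θ₁ + θ₂)) (wq a θ₂) ω := fun ω => by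
    unfold Tri.Z
    positivity
  have k1 : (exm μ fun ω => T.Z (wq a (θ₁ + θ₂) ^ (1 / p)) (wq a θ₂ ^ (1 / p)) ω * B.indicator 1 ω) ≤
      ∫ ω, Real.exp (-bq μ a T θ₁ θ₂ * (1 / p)) *
        (|nnq a T θ₁ θ₂ ω * B.indicator 1 ω| ^ (1 / p) * Real.exp (H ω / q)) ∂μ := by
    refine integral_mono_of_nonneg (ae_of_all _ fun ω => ?_)
      ((hx.int _ (hx.mul _ _ bf bg)).const_mul _) ?_
    · refine mul_nonneg ?_ (Set.indicator_nonneg (fun _ _ => zero_le_one) ω)
      unfold Tri.Z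
      positivity
    · filter_upwards [hf] with ω hω
      by_cases hm' : ω ∈ B
      · simp only [Set.indicator_of_mem hm', Pi.one_apply, mul_one]
        refine pt _ _ h1 h2 hr (hl T hT ω hω (hG ω hm')) ?_
        simp only [hH]
        field_simp
        ring
      · simp only [Set.indicator_of_notMem hm', mul_zero]
        positivity
  have k2 := integral_mul_le_Lp_mul_Lq_of_nonneg hpq (μ := μ)
    (ae_of_all _ fun ω => Real.rpow_nonneg (abs_nonneg _) _)
    (ae_of_all _ fun ω => (Real.exp_pos _).le) (memLq bf _) (memLq bg _)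
  have hN0 : ∀ᵐ ω ∂μ, 0 ≤ nnq a T θ₁ θ₂ ω * B.indicator 1 ω := by
    filter_upwards [hf] with ω hω
    by_cases hm' : ω ∈ B
    · simp only [Set.indicator_of_mem hm', Pi.one_apply, mul_one]
      exact (mul_pos (hZ ω) (Real.exp_pos _)).le.trans (hl T hT ω hω (hG ω hm'))
    · simp only [Set.indicator_of_notMem hm', mul_zero, le_refl]
  have e1 : ∫ ω, (|nnq a T θ₁ θ₂ ω * B.indicator 1 ω| ^ (1 / p)) ^ p ∂μ =
      exm μ fun ω => nnq a T θ₁ θ₂ ω * B.indicator 1 ω := by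
    refine integral_congr_ae ?_
    filter_upwards [hN0] with ω hω
    rw [abs_of_nonneg hω, one_div, Real.rpow_inv_rpow hω hp0.ne']
  have e2 : ∫ ω, Real.exp (H ω / q) ^ q ∂μ = exm μ fun ω => Real.exp (H ω) := by
    refine integral_congr_ae (ae_of_all _ fun ω => ?_)
    simp only
    rw [← Real.exp_mul, div_mul_cancel₀ _ hq0.ne']
  rw [e1, e2] at k2
  have n1 : 0 ≤ exm μ fun ω => nnq a T θ₁ θ₂ ω * B.indicator 1 ω := integral_nonneg_of_ae hN0
  have n2 : 0 ≤ exm μ fun ω => Real.exp (H ω) := integral_nonneg fun ω => (Real.exp_pos _).le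
  have n3 : 0 ≤ exm μ fun ω =>
      T.Z (wq a (θ₁ + θ₂) ^ (1 / p)) (wq a θ₂ ^ (1 / p)) ω * B.indicator 1 ω := by
    refine integral_nonneg fun ω => mul_nonneg ?_ (Set.indicator_nonneg (fun _ _ => zero_le_one) ω)
    unfold Tri.Z
    positivity
  rw [integral_const_mul] at k1
  have k3 := Real.rpow_le_rpow n2 b2 (by positivity : 0 ≤ 1 / q)
  have k4 := k1.trans (mul_le_mul_of_nonneg_left
    (k2.trans (mul_le_mul_of_nonneg_left k3 (Real.rpow_nonneg n1 _))) (Real.exp_pos _).le)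
  refine (Real.rpow_le_rpow n3 k4 hp0.le).trans (le_of_eq ?_)
  rw [Real.mul_rpow (Real.exp_pos _).le (by positivity),
    Real.mul_rpow (Real.rpow_nonneg n1 _) (by positivity), ← Real.exp_mul, ← Real.exp_mul,
    ← Real.exp_mul, one_div p, Real.rpow_inv_rpow n1 hp0.ne', mul_left_comm, ← Real.exp_add,
    mul_comm]
  congr 2
  field_simp
  ring

end Vale.Agent.P167Q.W
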