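import Vale.Agent.P167W.WStm
import Vale.Agent.P167.PcInt

open Finset Relation Filter Topology MeasureTheory
open scoped Classical BigOperators

namespace Vale.Agent.P167Q.W

open Vale.Agent.P152 (IsTest gcov Vx Site v6)
open Vale.Agent.P167 (Q.ea Q.eb Q.fx Q.f0 Q.FKm Pc.chi Pc.Loc Pc.ins Pc.loop)
open Vale.Agent.P153.RSW (Ev)

namespace WInvx

theorem mp (he : V_ext) (μ : Measure Cf) [IsProbabilityMeasure μ] (T : Cf → Cf)
    (hT : Measurable T) (h : ∀ F : Cf → ℝ, Pc.Loc F → ∫ ω, F (T ω) ∂μ = ∫ ω, F ω ∂μ) :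
    MeasurePreserving T μ μ := by
  refine ⟨hT, he _ _ (Measure.isProbabilityMeasure_map hT.aemeasurable) inferInstance ?_⟩
  intro F hF
  obtain ⟨S, hS⟩ := hF
  have hm : Measurable F := (P167.Pc.s_int S F hS).1
  rw [integral_map hT.aemeasurable hm.aestronglyMeasurable]
  exact h F ⟨S, hS⟩

theorem mcomp (ρ : Sq → Sq) : Measurable fun ω : Cf => ω ∘ ρ :=
  measurable_pi_lambda _ fun v => measurable_pi_apply (ρ v)

theorem msh (t : Sq) : Measurable (sh t) := by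
  refine measurable_pi_lambda _ fun v => ?_
  exact (Measurable.of_discrete (f := fun b : Bool => xor (decide (Odd (t.1 + t.2))) b)).comp
    (measurable_pi_apply (v + t))

theorem sh_even (t : Sq) (ht : Even (t.1 + t.2)) (ω : Cf) : sh t ω = fun v => ω (v + t) := by
  funext v
  have h : ¬Odd (t.1 + t.2) := Int.not_odd_iff_even.mpr ht
  simp [sh, h]

theorem sh_odd (t : Sq) (ht : Odd (t.1 + t.2)) :
    sh t = sh (1, 0) ∘ fun (ω : Cf) (v : Sq) => ω (v + (t - (1, 0))) := by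
  funext ω v
  have h : v + (1, 0) + (t - (1, 0)) = v + t := by abel
  simp only [sh, Function.comp, h]
  simp [ht]

end WInvx

open WInvx in
theorem v_inv (hq : P167.Q.T_qi) (ha : P167.Q.T_aut) (he : V_ext) (hd : V_dual) : V_inv := by
  intro r μ h1 h2 hμ
  haveI : IsProbabilityMeasure μ := hμ.1
  have key : ∀ (ρ π : ℤ × ℤ ≃ ℤ × ℤ) (g : Sq → Sq), P167.Q.Aut ρ π → (∀ v, ρ v = g v) →
      MeasurePreserving (fun (ω : Cf) (v : Sq) => ω (g v)) μ μ := by
    intro ρ π g hA hg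
    have e : g = ρ := funext fun v => (hg v).symm
    subst e
    exact mp he μ _ (mcomp ρ) fun F hF => (hq r μ h1 hμ).1 ρ π F hA hF
  have ev : ∀ t : Sq, Even (t.1 + t.2) →
      MeasurePreserving (fun (ω : Cf) (v : Sq) => ω (v + t)) μ μ := by
    intro t ht
    obtain ⟨ρ, π, hA, hρ⟩ := ha.1 t ht
    exact key ρ π (fun v => v + t) hA hρ
  refine ⟨fun t => ?_, ?_, ?_⟩
  · rcases Int.even_or_odd (t.1 + t.2) with ht | ht
    · have e : sh t = fun (ω : Cf) (v : Sq) => ω (v + t) := funext (sh_even t ht)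
      rw [e]
      exact ev t ht
    · rw [sh_odd t ht]
      refine (mp he μ _ (msh _) (hd r μ h1 h2 hμ)).comp (ev _ ?_)
      obtain ⟨k, hk⟩ := ht
      refine ⟨k, ?_⟩
      simp only [Prod.fst_sub, Prod.snd_sub]
      omega
  · obtain ⟨ρ, π, hA, hρ⟩ := ha.2.1
    exact key ρ π (fun v => (v.1, 1 - v.2)) hA hρ
  · obtain ⟨ρ, π, hA, hρ⟩ := ha.2.2.1
    obtain ⟨ρ', π', hA', hρ'⟩ := ha.2.2.2.1
    exact (key ρ' π' (fun v => (v.2, v.1)) hA' hρ').comp
      (key ρ π (fun v => (1 - v.1, 1 - v.2)) hA hρ)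

end Vale.Agent.P167Q.W
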