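import Vale.Agent.P167W.WStm

/-! P167W: the inside of a loop and the two clusters at the loop. -/

open Finset Relation Filter Topology MeasureTheory
open scoped Classical BigOperators

namespace Vale.Agent.P167Q.W

open Vale.Agent.P152 (IsTest gcov Vx Site v6)
open Vale.Agent.P167 (Q.ea Q.eb Q.fx Q.f0 Q.FKm Pc.chi Pc.Loc Pc.ins Pc.loop)
open Vale.Agent.P153.RSW (Ev)

namespace WLax

theorem sd1 (i j : ℤ) (c : Bool) : sd ((i, j), c) true = (i, j) := rfl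

theorem sd2 (i j : ℤ) : sd ((i, j), false) false = (i - 1, j) := by simp [sd]

theorem sd3 (i j : ℤ) : sd ((i, j), true) false = (i, j - 1) := by simp [sd]

theorem side (hw : P167.Pc.S_w1) (ω : Cf) (e : P152.Edge) (hf : (Pc.loop ω e).Finite)
    (e' : P152.Edge) (b : Bool) :
    (sd e' b ∈ Pc.ins (Pc.loop ω e) ↔ sd e' (!b) ∈ Pc.ins (Pc.loop ω e)) ↔ e' ∉ Pc.loop ω e := by
  obtain ⟨⟨i, j⟩, c⟩ := e'
  obtain ⟨k1, k2⟩ := hw ω e hf i j
  cases c <;> cases b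
  · rw [Bool.not_false, sd1, sd2]; exact Iff.comm.trans k1
  · rw [Bool.not_true, sd1, sd2]; exact k1
  · rw [Bool.not_false, sd1, sd3]; exact Iff.comm.trans k2
  · rw [Bool.not_true, sd1, sd3]; exact k2

theorem par (e : P152.Edge) (b : Bool) (n : ℤ) :
    Even ((sd e b).1 + (sd e b).2 + n) ∨ Even ((sd e (!b)).1 + (sd e (!b)).2 + n) := by
  obtain ⟨⟨i, j⟩, c⟩ := e
  cases c <;> cases b <;>
    simp only [Bool.not_false, Bool.not_true, sd1, sd2, sd3, Int.even_iff] <;> omega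

theorem edge {u v : Sq} (h : Nb u v) : ∃ e' b', u = sd e' b' ∧ v = sd e' (!b') := by
  obtain ⟨i, j⟩ := u
  obtain ⟨k, l⟩ := v
  have h' : |i - k| + |j - l| = 1 := h
  have : (k = i - 1 ∧ l = j) ∨ (k = i ∧ l = j - 1) ∨ (i = k - 1 ∧ j = l) ∨ (i = k ∧ j = l - 1) := by
    rcases abs_cases (i - k) with h1 | h1 <;> rcases abs_cases (j - l) with h2 | h2 <;> omega
  rcases this with ⟨rfl, rfl⟩ | ⟨rfl, rfl⟩ | ⟨rfl, rfl⟩ | ⟨rfl, rfl⟩
  · exact ⟨(_, false), true, rfl, (sd2 _ _).symm⟩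
  · exact ⟨(_, true), true, rfl, (sd3 _ _).symm⟩
  · exact ⟨(_, false), false, (sd2 _ _).symm, rfl⟩
  · exact ⟨(_, true), false, (sd3 _ _).symm, rfl⟩

theorem const {ω : Cf} {D : Set Sq} (h : ∀ u v, Op ω u v → (u ∈ D ↔ v ∈ D)) {x y : Sq}
    (hy : y ∈ clus ω x) : x ∈ D ↔ y ∈ D := by
  have hy' : ReflTransGen (Op ω) x y := hy
  clear hy
  induction hy' with
  | refl => exact Iff.rfl
  | tail _ hbc ih => exact ih.trans (h _ _ hbc)

end WLax

theorem l_a (_hb : Base) (hw : P167.Pc.S_w1) (h0 : L_a0) (h1 : L_a1) : L_a := by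
  intro ω e hf
  obtain ⟨k1, k2⟩ := h1 ω e hf
  refine ⟨k1, k2, ?_⟩
  have he : e ∈ Pc.loop ω e := EqvGen.refl e
  obtain ⟨b, hx, hy⟩ : ∃ b, sd e b ∈ Pc.ins (Pc.loop ω e) ∧ sd e (!b) ∉ Pc.ins (Pc.loop ω e) := by
    have k := WLax.side hw ω e hf e true
    by_cases h : sd e true ∈ Pc.ins (Pc.loop ω e)
    · exact ⟨true, h, fun h' => k.1 (iff_of_true h h') he⟩
    · refine ⟨false, ?_, h⟩
      by_contra h'
      exact k.1 (iff_of_false h h') he
  refine ⟨sd e b, sd e (!b), hx, hy, fun u v huv hu hv => ?_⟩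
  obtain ⟨e', b', rfl, rfl⟩ := WLax.edge huv
  have he' : e' ∈ Pc.loop ω e := by
    by_contra h
    exact hv (((WLax.side hw ω e hf e' b').2 h).1 hu)
  have two : ∀ c, sd e' c ∈ clus ω (sd e b) ∨ sd e' c ∈ clus ω (sd e (!b)) := fun c =>
    (WLax.par e b _).imp (h0 ω e e' b c he') (h0 ω e e' (!b) c he')
  exact ⟨(two b').resolve_right fun h => hy ((WLax.const k2 h).2 hu),
    (two (!b')).resolve_left fun h => hv ((WLax.const k2 h).1 hx)⟩

end Vale.Agent.P167Q.W
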