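import Vale.Agent.P167W.WStm

open Finset Relation Filter Topology MeasureTheory
open scoped Classical BigOperators

namespace Vale.Agent.P167Q.W

open Vale.Agent.P152 (IsTest gcov Vx Site v6)
open Vale.Agent.P167 (Q.ea Q.eb Q.fx Q.f0 Q.FKm Pc.chi Pc.Loc Pc.ins Pc.loop)
open Vale.Agent.P153.RSW (Ev)

namespace WLa1x

theorem arc {ω : Cf} {e a b : P152.Edge} (h : P167.Pc.Arc ω a b) :
    a ∈ Pc.loop ω e ↔ b ∈ Pc.loop ω e :=
  ⟨fun x => EqvGen.trans _ _ _ x (EqvGen.rel _ _ h),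
    fun x => EqvGen.trans _ _ _ x (EqvGen.symm _ _ (EqvGen.rel _ _ h))⟩

theorem pr {A B C x y : Prop} (h1 : (A ↔ C) ↔ ¬x) (h2 : (C ↔ B) ↔ ¬y) (h : x ↔ y) : A ↔ B := by
  tauto

theorem pr' {A B C x y : Prop} (h1 : (C ↔ A) ↔ ¬x) (h2 : (C ↔ B) ↔ ¬y) (h : x ↔ y) : A ↔ B := by
  tauto

theorem c1 (hw : P167.Pc.S_w1) {ω : Cf} {e : P152.Edge} (hl : (Pc.loop ω e).Finite) (a b : ℤ)
    (h : ω (a, b) = decide (Even (a + b))) :
    (a, b) ∈ Pc.ins (Pc.loop ω e) ↔ (a - 1, b - 1) ∈ Pc.ins (Pc.loop ω e) := by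
  refine pr (hw ω e hl a b).2 (hw ω e hl a (b - 1)).1
    (arc ⟨(a, b - 1), 0, 1, Or.inl rfl, Or.inr rfl, by simp, by simp, ?_⟩)
  have e1 : ((a, b - 1) + (0, 1) : ℤ × ℤ) = (a, b) := by simp
  rw [e1, h, decide_eq_true_iff, Int.even_iff, Int.odd_iff]
  omega

theorem c2 (hw : P167.Pc.S_w1) {ω : Cf} {e : P152.Edge} (hl : (Pc.loop ω e).Finite) (a b : ℤ)
    (h : ¬ω (a, b) = decide (Even (a + b))) :
    (a, b - 1) ∈ Pc.ins (Pc.loop ω e) ↔ (a - 1, b) ∈ Pc.ins (Pc.loop ω e) := by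
  refine pr' (hw ω e hl a b).2 (hw ω e hl a b).1
    (arc ⟨(a, b), 0, 0, Or.inl rfl, Or.inl rfl, by simp, by simp, ?_⟩)
  have e1 : ((a, b) + (0, 0) : ℤ × ℤ) = (a, b) := by simp
  rw [e1, ← Int.not_even_iff_odd]
  by_cases h1 : Even (a + b) <;> simpa [h1] using h

theorem op (hw : P167.Pc.S_w1) {ω : Cf} {e : P152.Edge} (hl : (Pc.loop ω e).Finite) (p : Sq) :
    ed p (ω p) true ∈ Pc.ins (Pc.loop ω e) ↔ ed p (ω p) false ∈ Pc.ins (Pc.loop ω e) := by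
  obtain ⟨a, b⟩ := p
  by_cases h : ω (a, b) = decide (Even (a + b))
  · rw [ed, ed, if_pos h, if_pos h]
    exact c1 hw hl a b h
  · rw [ed, ed, if_neg h, if_neg h]
    exact c2 hw hl a b h

theorem far {l : Set P152.Edge} {K : ℤ} (hK : ∀ x ∈ l, max |x.1.1| |x.1.2| ≤ K) {i j : ℤ}
    (h : i < -K ∨ K < |j|) : (i, j) ∉ Pc.ins l := by
  have e : {k : ℤ | k ≤ i ∧ ((k, j), false) ∈ l} = ∅ := by
    refine Set.eq_empty_of_forall_notMem fun k hk => ?_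
    have h1 : max |k| |j| ≤ K := hK _ hk.2
    have h2 : k ≤ i := hk.1
    have h3 := neg_abs_le k
    omega
  show ¬Odd {k : ℤ | k ≤ i ∧ ((k, j), false) ∈ l}.ncard
  rw [e, Set.ncard_empty]
  exact Nat.not_odd_zero

theorem up (hw : P167.Pc.S_w1) {ω : Cf} {e : P152.Edge} (hl : (Pc.loop ω e).Finite) {K : ℤ}
    (hK : ∀ x ∈ Pc.loop ω e, max |x.1.1| |x.1.2| ≤ K) {i j : ℤ} (hi : K < i) (n : ℕ)
    (h : (i, j) ∈ Pc.ins (Pc.loop ω e)) : (i, j + n) ∈ Pc.ins (Pc.loop ω e) := by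
  induction n with
  | zero => simpa using h
  | succ n ih =>
    have h1 := (hw ω e hl i (j + (n + 1 : ℕ))).2.2 fun hm => by
      have h2 : max |i| |j + (n + 1 : ℕ)| ≤ K := hK _ hm
      have h3 := le_abs_self i
      omega
    rw [show j + ((n + 1 : ℕ) : ℤ) - 1 = j + n by omega] at h1
    exact h1.2 ih

theorem fin (hw : P167.Pc.S_w1) {ω : Cf} {e : P152.Edge} (hl : (Pc.loop ω e).Finite) :
    (Pc.ins (Pc.loop ω e)).Finite := by
  obtain ⟨K, hK'⟩ := (hl.image fun x : P152.Edge => max |x.1.1| |x.1.2|).bddAbove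
  have hK : ∀ x ∈ Pc.loop ω e, max |x.1.1| |x.1.2| ≤ K := fun x hx => hK' ⟨x, hx, rfl⟩
  refine ((Set.finite_Icc (-K) K).prod (Set.finite_Icc (-K) K)).subset ?_
  rintro ⟨i, j⟩ h
  have h1 : ¬(i < -K ∨ K < |j|) := fun x => far hK x h
  have h2 : ¬K < i := fun hi => by
    refine far hK (Or.inr ?_) (up hw hl hK hi (K + 1 - j).toNat h)
    have := le_abs_self (j + ((K + 1 - j).toNat : ℤ))
    omega
  have h3 := le_abs_self j
  have h4 := neg_abs_le j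
  refine ⟨⟨?_, ?_⟩, ?_, ?_⟩ <;> simp only <;> omega

end WLa1x

theorem l_a1 (hw : P167.Pc.S_w1) : L_a1 := by
  intro ω e hl
  refine ⟨WLa1x.fin hw hl, ?_⟩
  rintro u v ⟨p, i, rfl, rfl⟩
  cases i
  · exact (WLa1x.op hw hl p).symm
  · exact WLa1x.op hw hl p

end Vale.Agent.P167Q.W
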