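import Vale.Agent.P167W.WStm

open Finset Relation Filter Topology MeasureTheory
open scoped Classical BigOperators

namespace Vale.Agent.P167Q.W

theorem l_b (hb : Base) : L_b := by
  intro ω D x y hD hop hx hy hn
  have hC : ∀ u ∈ clus ω x, u ∈ D := fun u hu => by
    induction hu with
    | refl => exact hx
    | tail _ h ih => exact (hop _ _ h).1 ih
  have hY : ∀ u ∈ clus ω y, u ∉ D := fun u hu => by
    induction hu with
    | refl => exact hy
    | tail _ h ih => exact fun k => ih ((hop _ _ h).2 k)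
  refine Set.Subset.antisymm (fun z hz => ?_) fun z hz => by_contra fun hz' => ?_
  · refine or_iff_not_imp_left.2 fun hz' => hD.subset fun u hu => ?_
    suffices k : u ∈ D ∧ u ∉ clus ω x from k.1
    induction hu with
    | refl => exact ⟨hz, hz'⟩
    | tail _ h ih =>
      exact ⟨h.1.elim (fun k => by_contra fun k' => ih.2 (hn _ _ k ih.1 k').1)
        fun k => (hop _ _ k).1 ih.1, h.2⟩
  have hf := hz.resolve_left fun k => hz' (hC z k)
  obtain ⟨r, hr⟩ : ∃ r : Sq → Sq → Prop,
      r = fun u v => (Nb u v ∨ Op ω u v) ∧ v ∉ clus ω x := ⟨_, rfl⟩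
  rw [← hr] at hf
  have st : ∀ u v, ReflTransGen r z u → Nb u v ∨ Op ω u v → v ∉ D → ReflTransGen r z v :=
    fun u v h1 h2 h3 => h1.tail (hr ▸ ⟨h2, fun k => h3 (hC v k)⟩)
  have A : ∀ u, ReflTransGen r z u → u ∈ clus ω y → ∀ v ∈ clus ω y, ReflTransGen r z v := by
    intro u h1 h2 v h3
    have e := hb.bas.cleq ω y u h2
    rw [← e] at h3 hY
    induction h3 with
    | refl => exact h1
    | tail h4 h ih => exact st _ _ ih (Or.inr h) (hY _ (h4.tail h))
  let p : ℕ → Sq := fun k => (z.1 - k, z.2)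
  have nb : ∀ k, Nb (p k) (p (k + 1)) := fun k => by simp [Nb, p]
  have B : ∀ k, (p k ∉ D → ReflTransGen r z (p k)) ∧ (p k ∈ D → ReflTransGen r z y) := by
    intro k
    induction k with
    | zero =>
      have e : p 0 = z := by simp [p]
      rw [e]
      exact ⟨fun _ => .refl, fun k => (hz' k).elim⟩
    | succ k ih =>
      by_cases h : p k ∈ D
      · exact ⟨fun h' => A y (ih.2 h) (hb.bas.self ω y) _ (hn _ _ (nb k) h h').2, fun _ => ih.2 h⟩
      · exact ⟨st _ _ (ih.1 h) (Or.inl (nb k)), fun h' => A _ (ih.1 h)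
          (hn _ _ (hb.bas.nbs _ _ (nb k)) h' h).2 y (hb.bas.self ω y)⟩
  have inj : Function.Injective p := fun a b h => by
    have := congrArg Prod.fst h
    simp only [p] at this
    omega
  refine ((Set.infinite_range_of_injective inj).diff hD).mono ?_ hf
  rintro _ ⟨⟨k, rfl⟩, hk⟩
  exact (B k).1 hk

end Vale.Agent.P167Q.W
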