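import Vale.Agent.P167W.WStm

/-! P167W: every cluster has its loop, and the filling determines the cluster. -/

open Finset Relation Filter Topology MeasureTheory
open scoped Classical BigOperators

namespace Vale.Agent.P167Q.W

open Vale.Agent.P152 (IsTest gcov Vx Site v6)
open Vale.Agent.P167 (Q.ea Q.eb Q.fx Q.f0 Q.FKm Pc.chi Pc.Loc Pc.ins Pc.loop)
open Vale.Agent.P153.RSW (Ev)

namespace WLcx

theorem nbl (a b : ℤ) : Nb (a, b) (a - 1, b) := by
  unfold Nb
  simp

theorem inj (a b : ℤ) : Function.Injective fun k : ℕ => ((a - k, b) : Sq) := by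
  intro k l hkl
  have h1 : a - k = a - l := congrArg Prod.fst hkl
  omega

theorem ray (ω : Cf) (C : Set Sq) (a b : ℤ) (hC : ∀ k : ℕ, ((a - k, b) : Sq) ∉ C) :
    (a, b) ∉ fill ω C := by
  rintro (hx | hx)
  · exact hC 0 (by simpa using hx)
  · refine Set.infinite_of_injective_forall_mem (inj a b) (fun k => ?_) hx
    induction k with
    | zero => simpa using ReflTransGen.refl
    | succ k ih =>
      refine ReflTransGen.tail ih ⟨Or.inl ?_, hC (k + 1)⟩
      have e : a - ((k + 1 : ℕ) : ℤ) = a - k - 1 := by push_cast; ring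
      rw [e]
      exact nbl _ _

theorem exit (D : Set Sq) (hD : D.Finite) (a b : ℤ) (h : (a, b) ∈ D) :
    ∃ c : ℤ, c ≤ a ∧ (c, b) ∈ D ∧ (c - 1, b) ∉ D := by
  by_contra k
  refine Set.infinite_of_injective_forall_mem (inj a b) (fun n => ?_) hD
  induction n with
  | zero => simpa using h
  | succ n ih =>
    have e : a - ((n + 1 : ℕ) : ℤ) = a - n - 1 := by push_cast; ring
    rw [e]
    by_contra k'
    exact k ⟨a - n, by omega, ih, k'⟩

end WLcx

theorem l_c (hb : Base) (hg : X_geo) (hw : P167.Pc.S_w1) (h1 : L_a) (h2 : L_b) : L_c := by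
  intro ω hF hL
  have hp := hb.bas
  refine ⟨fun x => ?_, fun x x' he => ?_⟩
  · obtain ⟨⟨a, b⟩, hu, hm⟩ := Set.exists_min_image (clus ω x) Prod.fst (hF x) ⟨x, hp.self ω x⟩
    refine ⟨((a, b), false), ?_⟩
    obtain ⟨hD, hop, x', y', hx', hy', hnb⟩ := h1 ω ((a, b), false) (hL _)
    have hs : ((a, b), false) ∈ Pc.loop ω ((a, b), false) := EqvGen.refl _
    have hne := (hw ω ((a, b), false) (hL _) a b).1.not.2 (not_not.2 hs)
    have hc := hp.cleq ω x _ hu
    by_cases k : (a, b) ∈ Pc.ins (Pc.loop ω ((a, b), false))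
    · have k2 := (hnb _ _ (WLcx.nbl a b) k fun k' => hne ⟨fun _ => k', fun _ => k⟩).1
      rw [← hc, hp.cleq ω x' _ k2]
      exact h2 ω _ x' y' hD hop hx' hy' hnb
    · have k1 : (a - 1, b) ∈ Pc.ins (Pc.loop ω ((a, b), false)) := by
        by_contra k'
        exact hne ⟨fun h => absurd h k, fun h => absurd h k'⟩
      have k2 := (hnb _ _ (hp.nbs _ _ (WLcx.nbl a b)) k1 k).2
      obtain ⟨c, hca, c1, c2⟩ := WLcx.exit _ hD _ _ k1
      have k3 := (hnb _ _ (WLcx.nbl c b) c1 c2).2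
      rw [← hp.cleq ω y' _ k2, hc] at k3
      have k4 : a ≤ c - 1 := hm _ k3
      omega
  · obtain ⟨⟨a, b⟩, hu, hm⟩ := Set.exists_min_image (clus ω x) Prod.fst (hF x) ⟨x, hp.self ω x⟩
    have hf : (a, b) ∈ fill ω (clus ω x') := he ▸ Or.inl hu
    have hu' : (a, b) ∈ clus ω x' := by
      by_contra k
      refine WLcx.ray ω _ a b (fun n hn => ?_) hf
      have k1 : ((a - n, b) : Sq) ∈ fill ω (clus ω x) := he ▸ Or.inl hn
      obtain ⟨z, hz, k2⟩ := (hg.bd ω _ _ k1).1
      have k3 : a ≤ z.1 := hm z hz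
      have k4 : z.1 ≤ a - n := k2
      have k5 : a - n = a := by omega
      rw [k5] at hn
      exact k hn
    rw [← hp.cleq ω x _ hu, hp.cleq ω x' _ hu']

end Vale.Agent.P167Q.W
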