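import Vale.Agent.P167W.WStm
import Vale.Agent.P167Q.XLev

/-! P167W: concentration at one level. -/

open Finset Relation Filter Topology MeasureTheory
open scoped Classical BigOperators

namespace Vale.Agent.P167Q.W

namespace WLevx

theorem md {u n a a' y : ℤ} (hu : 0 < u) (hn : 1 ≤ n) (h : a % (15 * n) = a' % (15 * n))
    (h1 : u * a - 10 * n * u ≤ y) (h2 : y ≤ u * a + 10 * n * u) (h3 : u * a' - 4 * u ≤ y)
    (h4 : y ≤ u * a' + 4 * u) : a = a' := by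
  obtain ⟨c, hc⟩ := Int.ModEq.dvd h
  have e : a' = a + 15 * n * c := by linarith
  have hun : u ≤ n * u := by nlinarith
  rcases lt_trichotomy c 0 with h0 | h0 | h0
  · have : n * u * c ≤ -(n * u) := by nlinarith
    subst e
    nlinarith
  · rw [e, h0]; ring
  · have : n * u ≤ n * u * c := by nlinarith
    subst e
    nlinarith

theorem num {C T A D G K F s N : ℝ} (hC : 0 ≤ C) (hT : 0 ≤ T) (hA : 0 ≤ A) (hG : 0 < G)
    (hF : 0 < F) (hs : 0 ≤ s) (h1 : K ^ 2 * s ≤ D) (h2 : G ^ 2 * K ^ 4 ≤ D * F) (hN : N ≤ 49 * F) :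
    C * ((15 * G) ^ 2 * (T * K ^ 2) * A / F * s + ((15 * G) ^ 2 * (T * K ^ 2) * A / F) ^ 2) * N /
      (15 * G) ^ 2 ≤ 49 * C * (T * A * D + 225 * (T * A) ^ 2 * D) := by
  have h3 : G ^ 2 * K ^ 4 / F ≤ D := (div_le_iff₀ hF).2 h2
  calc _ ≤ C * ((15 * G) ^ 2 * (T * K ^ 2) * A / F * s +
        ((15 * G) ^ 2 * (T * K ^ 2) * A / F) ^ 2) * (49 * F) / (15 * G) ^ 2 := by gcongr
    _ = 49 * C * (T * A * (K ^ 2 * s) + 225 * (T * A) ^ 2 * (G ^ 2 * K ^ 4 / F)) := by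
        field_simp
        ring
    _ ≤ _ := by gcongr

end WLevx

open XLevx WLevx in
theorem c_lev {μ : Measure Cf} {a : ℝ} (_hm : Mod μ) (hg : X_geo) (hd : X_dep) (hx : W_bd μ a)
    (h1 : C_spl μ) (h2 : C_num) (h3 : C_til μ) : C_levq μ := by
  intro A T hT
  obtain ⟨g, hg2, h3⟩ := h3
  obtain ⟨D, hD⟩ := h2 g hg2
  have hD0 : 0 ≤ D := by
    obtain ⟨l, h, -⟩ := hD 0
    exact le_trans (by positivity) h
  obtain ⟨C, hC0, hC⟩ := h3 (225 * T * |A| * D) (by positivity)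
  refine ⟨Real.exp (49 * C * (T * |A| * D + 225 * (T * |A|) ^ 2 * D)), fun J j ψ τ hA hj hτ => ?_⟩
  obtain ⟨k, rfl⟩ := Nat.exists_eq_add_of_le hj
  rw [Nat.add_sub_cancel_left] at hτ
  obtain ⟨l, n1, n2⟩ := hD k
  have hu : 0 < 2 ^ j := by positivity
  have hgl : 1 ≤ g ^ l := Nat.one_le_pow _ _ (by omega)
  have hG : (1 : ℝ) ≤ (g : ℝ) ^ l := by exact_mod_cast hgl
  have hL := Wt_lc hd ψ (j + k) j
  have hW : ∀ b, Bdm μ (Wt ψ (j + k) j b) := fun b => hx.loc _ _ (hL b)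
  have e1 : ∀ ω, LL ψ (j + k) j ω = ∑ b ∈ box (3 * 2 ^ k), Wt ψ (j + k) j b ω := fun ω =>
    (sum_fiberwise_of_maps_to (fun x h => ti_box hu (by rwa [← pow_add])) _).symm
  have e2 : exm μ (LL ψ (j + k) j) = ∑ b ∈ box (3 * 2 ^ k), exm μ (Wt ψ (j + k) j b) := by
    rw [funext e1]
    exact integral_finsetSum _ fun b _ => hx.int _ (hW b)
  set L : ℤ := 15 * ((g ^ l : ℕ) : ℤ) with hLd
  have hL0 : 0 < L := by positivity
  have hR : (((Ico (0 : ℤ) L ×ˢ Ico (0 : ℤ) L).card : ℕ) : ℝ) = (15 * (g : ℝ) ^ l) ^ 2 := by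
    have : L.toNat = 15 * g ^ l := by omega
    rw [card_product, Int.card_Ico, sub_zero, this]
    push_cast
    ring
  set ε : ℝ := (15 * (g : ℝ) ^ l) ^ 2 * (T * ((k : ℝ) + 1) ^ 2) * |A| / 4 ^ k with hε
  have hε1 : ε ≤ 225 * T * |A| * D := by
    have hk : (1 : ℝ) ≤ (k : ℝ) + 1 := by linarith [(Nat.cast_nonneg k : (0 : ℝ) ≤ k)]
    have h4 : ((g : ℝ) ^ l) ^ 2 * ((k : ℝ) + 1) ^ 2 ≤ D * 4 ^ k :=
      le_trans (mul_le_mul_of_nonneg_left (pow_le_pow_right₀ hk (by norm_num)) (by positivity)) n2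
    have h5 : ((g : ℝ) ^ l) ^ 2 * ((k : ℝ) + 1) ^ 2 / 4 ^ k ≤ D := (div_le_iff₀ (by positivity)).2 h4
    calc ε = 225 * T * |A| * (((g : ℝ) ^ l) ^ 2 * ((k : ℝ) + 1) ^ 2 / 4 ^ k) := by rw [hε]; ring
      _ ≤ _ := by gcongr
  have key := h1 (box (3 * 2 ^ k)) (Ico (0 : ℤ) L ×ˢ Ico (0 : ℤ) L) (fun b => (b.1 % L, b.2 % L))
    (fun b => bz (((2 ^ j : ℕ) : ℤ) * b.1, ((2 ^ j : ℕ) : ℤ) * b.2) (4 * 2 ^ j))
    (fun b => bz (((2 ^ j : ℕ) : ℤ) * b.1, ((2 ^ j : ℕ) : ℤ) * b.2) (10 * g ^ l * 2 ^ j))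
    (fun b ω => τ * (Wt ψ (j + k) j b ω - exm μ (Wt ψ (j + k) j b)))
    (C * (ε * Real.sqrt (2 * (1 / 2) ^ l) + ε ^ 2))
    ⟨(0, 0), by simp only [mem_product, mem_Ico]; omega⟩
    (fun b _ ω ω' h => by
      show τ * _ = τ * _
      rw [hL b ω ω' h])
    (fun b _ => by
      simp only [mem_product, mem_Ico]
      exact ⟨⟨Int.emod_nonneg _ hL0.ne', Int.emod_lt_of_pos _ hL0⟩,
        Int.emod_nonneg _ hL0.ne', Int.emod_lt_of_pos _ hL0⟩)
    (fun b _ b' _ hne he => by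
      rw [disjoint_left]
      intro y h' h
      have hu' : (0 : ℤ) < (2 ^ j : ℕ) := by exact_mod_cast hu
      have hn' : (1 : ℤ) ≤ (g ^ l : ℕ) := by exact_mod_cast hgl
      rw [Prod.mk.injEq, hLd] at he
      generalize 2 ^ j = u at *
      generalize g ^ l = n at *
      rw [mem_bz] at h h'
      push_cast at h h'
      exact hne (Prod.ext (WLevx.md hu' hn' he.1 h.1 h.2.1 h'.1 h'.2.1)
        (WLevx.md hu' hn' he.2 h.2.2.1 h.2.2.2 h'.2.2.1 h'.2.2.2)))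
    (fun b _ H hH => by
      have h := hC l (2 ^ j) (((2 ^ j : ℕ) : ℤ) * b.1, ((2 ^ j : ℕ) : ℤ) * b.2)
        (fun ω => (15 * (g : ℝ) ^ l) ^ 2 * τ * Wt ψ (j + k) j b ω) H ε hu (by positivity) hε1
        (fun ω ω' h => by
          show _ * _ = _ * _
          rw [hL b ω ω' h]) (fun ω => ?_) hH
      · have e : (exm μ fun ω => (15 * (g : ℝ) ^ l) ^ 2 * τ * Wt ψ (j + k) j b ω) =
            (15 * (g : ℝ) ^ l) ^ 2 * τ * exm μ (Wt ψ (j + k) j b) := integral_const_mul _ _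
        rw [e] at h
        refine le_trans (le_of_eq ?_) h
        rw [hR]
        refine congrArg (exm μ) (funext fun ω => ?_)
        rw [← mul_sub, mul_assoc]
      · rw [abs_mul, abs_mul, abs_of_nonneg (by positivity : (0 : ℝ) ≤ (15 * (g : ℝ) ^ l) ^ 2)]
        refine (mul_le_mul (mul_le_mul_of_nonneg_left hτ (by positivity)) (Wt_le hg hA j b ω)
          (abs_nonneg _) (by positivity)).trans (le_of_eq ?_)
        rw [hε, show (4 : ℝ) ^ (j + k) = (2 ^ j) ^ 2 * 4 ^ k by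
          rw [pow_add, ← pow_mul, mul_comm j 2, pow_mul]; norm_num]
        push_cast
        field_simp)
  rw [hR, card_box] at key
  refine le_trans (le_of_eq ?_) (key.trans (Real.exp_le_exp.2 ?_))
  · refine congrArg (exm μ) (funext fun ω => congrArg Real.exp ?_)
    rw [e1, e2, ← sum_sub_distrib, mul_sum]
  · refine num hC0 hT (abs_nonneg A) (by positivity) (by positivity) (Real.sqrt_nonneg _) n1 n2 ?_
    have hn : (1 : ℝ) ≤ 2 ^ k := one_le_pow₀ (by norm_num)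
    rw [show (4 : ℝ) ^ k = (2 ^ k) ^ 2 by rw [← pow_mul, mul_comm, pow_mul]; norm_num]
    push_cast
    nlinarith

end Vale.Agent.P167Q.W
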