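import Vale.Agent.P167W.WStm
import Vale.Agent.P167.QQm

/-! P167W: a finite volume inequality lifts to the infinite volume measure. -/

open Finset Relation Filter Topology MeasureTheory
open scoped Classical BigOperators

namespace Vale.Agent.P167Q.W

open Vale.Agent.P152 (IsTest gcov Vx Site v6)
open Vale.Agent.P167 (Q.ea Q.eb Q.fx Q.f0 Q.FKm Pc.chi Pc.Loc Pc.ins Pc.loop)
open Vale.Agent.P153.RSW (Ev)

namespace WLiftx

theorem out (r : ℝ) (S : Finset Sq) (ξ : Cf) (F G : Cf → ℝ) (V : Finset Sq) (hV : Lc V G)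
    (hd : Disjoint V S) : (Q.fx r S ξ fun ω => F ω * G ω) = G ξ * Q.fx r S ξ F := by
  have hG : ∀ A, G (P167.Q.cf S ξ A) = G ξ := fun A => hV _ _ fun i hi => by
    unfold P167.Q.cf
    rw [if_neg (Finset.disjoint_left.1 hd hi)]
  unfold P167.Q.fx P167.Q.ex P167.Q.sm
  rw [← mul_div_assoc, Finset.mul_sum]
  congr 1
  refine Finset.sum_congr rfl fun A _ => ?_
  beta_reduce
  rw [hG A]
  ring

theorem op01 (hl : P167.Q.T_lin) (r : ℝ) (hr : 0 < r) (S : Finset Sq) (ξ : Cf) (e : Sq) :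
    0 ≤ Q.fx r S ξ (P167.Q.op e) ∧ Q.fx r S ξ (P167.Q.op e) ≤ 1 := by
  obtain ⟨hc, -, -, hm, -⟩ := hl _ _ r Q.ea Q.eb P167.Q.nil S ξ hr
  constructor
  · refine (hc 0).symm.le.trans (hm _ _ fun ω => ?_)
    unfold P167.Q.op
    split_ifs <;> norm_num
  · refine (hm _ _ fun ω => ?_).trans (hc 1).le
    unfold P167.Q.op
    split_ifs <;> norm_num

theorem grow (hl : P167.Q.T_lin) (h1 : V_step) (r : ℝ) (hr : 0 < r) (S₀ : Finset Sq)
    (A B : Cf → ℝ) (h0 : ∀ ξ, Q.fx r S₀ ξ A ≤ Q.fx r S₀ ξ B) (S : Finset Sq) (hS : S₀ ⊆ S) :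
    ∀ ξ, Q.fx r S ξ A ≤ Q.fx r S ξ B := by
  induction S using Finset.strongInduction with
  | H S ih =>
    intro ξ
    by_cases h : S = S₀
    · rw [h]; exact h0 ξ
    · obtain ⟨e, he, he0⟩ := Finset.exists_of_ssubset (lt_of_le_of_ne hS (Ne.symm h))
      have hsub : S₀ ⊆ S.erase e := fun v hv =>
        Finset.mem_erase.2 ⟨fun h2 => he0 (h2 ▸ hv), hS hv⟩
      have ih' := ih (S.erase e) (Finset.erase_ssubset he) hsub
      obtain ⟨p0, p1⟩ := op01 hl r hr S ξ e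
      rw [h1 r S ξ e A hr he, h1 r S ξ e B hr he]
      exact add_le_add (mul_le_mul_of_nonneg_left (ih' _) p0)
        (mul_le_mul_of_nonneg_left (ih' _) (sub_nonneg.2 p1))

end WLiftx

theorem v_lift (_hb : Base) (hl : P167.Q.T_lin) (h1 : V_step) : V_lift := by
  intro r μ hr hμ S₀ F F' G hF hF' hle hG
  obtain ⟨⟨V, hV, hd⟩, hG0⟩ := hG
  have hr0 : 0 < r := by linarith
  have lG : Pc.Loc G := ⟨V, hV⟩
  have h0 : ∀ ξ, (Q.fx r S₀ ξ fun ω => F ω * G ω) ≤ Q.fx r S₀ ξ fun ω => F' ω * G ω := by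
    intro ξ
    rw [WLiftx.out r S₀ ξ F G V hV hd, WLiftx.out r S₀ ξ F' G V hV hd]
    exact mul_le_mul_of_nonneg_left (hle ξ) (hG0 ξ)
  exact le_of_tendsto_of_tendsto (P167.Q.Qm.tend hμ (P167.Q.Qm.loc_mul hF lG))
    (P167.Q.Qm.tend hμ (P167.Q.Qm.loc_mul hF' lG))
    ((eventually_ge_atTop S₀).mono fun S hS => WLiftx.grow hl h1 r hr0 S₀ _ _ h0 S hS _)

end Vale.Agent.P167Q.W
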