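import Vale.Agent.P167W.WStm

/-! P167W: arm probabilities tend to zero when all clusters are finite. -/

open Finset Relation Filter Topology MeasureTheory
open scoped Classical BigOperators

namespace Vale.Agent.P167Q.W

theorem w_lim {μ : Measure Cf} (hb : Base) (hd : X_dep) (hm : Mod μ) (hf : W_fin μ) :
    W_lim μ := by
  intro a
  have := hm.prob
  have h1 : ∀ K, NullMeasurableSet {ω | ¬NoArm a K ω} μ := fun K =>
    ((hb.loc Sq _).2 _ (hd.arm0 a K)).1.nullMeasurableSet
  have h2 : Antitone fun K => {ω | ¬NoArm a K ω} := fun K K' h ω hω k =>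
    hω fun x hx => (k x hx).trans (coe_subset.2 (hb.bas.mono K K' h))
  have h3 : μ (⋂ K, {ω | ¬NoArm a K ω}) = 0 := by
    refine measure_mono_null (t := {ω | ¬AllF ω}) (fun ω hω (hF : AllF ω) => ?_) (ae_iff.1 hf)
    obtain ⟨K, hK⟩ := hb.bas.fin (⋃ x ∈ box a, clus ω x)
      ((box a).finite_toSet.biUnion fun x _ => hF x)
    exact Set.mem_iInter.1 hω K fun x hx => (Set.subset_biUnion_of_mem (u := clus ω) hx).trans hK
  have h4 := tendsto_measure_iInter_atTop h1 h2 ⟨0, measure_ne_top _ _⟩
  rw [h3] at h4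
  exact (ENNReal.tendsto_toReal ENNReal.zero_ne_top).comp h4

end Vale.Agent.P167Q.W
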