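import Vale.Agent.P167W.WStm

/-! P167W: first moment of the number of large clusters. -/

open Finset Relation Filter Topology MeasureTheory
open scoped Classical BigOperators

namespace Vale.Agent.P167Q.W

open Vale.Agent.P152 (IsTest gcov Vx Site v6)
open Vale.Agent.P167 (Q.ea Q.eb Q.fx Q.f0 Q.FKm Pc.chi Pc.Loc Pc.ins Pc.loop)
open Vale.Agent.P153.RSW (Ev)

namespace WM1x

theorem card_bz (z : Sq) (s : ℕ) : (bz z s).card = (2 * s + 1) ^ 2 := by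
  have e : ∀ a : ℤ, (Icc (a - s) (a + s)).card = 2 * s + 1 := fun a => by
    rw [Int.card_Icc, show a + s + 1 - (a - s) = ((2 * s + 1 : ℕ) : ℤ) by push_cast; ring,
      Int.toNat_natCast]
  rw [bz, card_product, e, e, pow_two]

theorem kb_le (s : ℕ) (z : Sq) (ω : Cf) : kb s z ω ≤ (2 * (3 * s) + 1) ^ 2 :=
  (card_filter_le _ _).trans (card_image_le.trans (card_bz z _).le)

theorem one {μ : Measure Cf} {a : ℝ} (hm : Mod μ) (hx : W_bd μ a) (he : K_exp μ) (h0 : M_hb0 μ)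
    {c : ℝ} {g : ℕ} (c0 : 0 < c) (c1 : c ≤ 1)
    (hw : ∀ z u, 1 ≤ u → μ.real (AZ true z u (g * u)) ≤ 1 - c) (s n₀ : ℕ) (I : Finset (Sq × ℕ))
    (hI : I.card ≤ n₀) (h : ∀ i ∈ I, 1 ≤ i.2 ∧ 2 * (g * i.2) < s) :
    (∫ ω, (kE s I ∅ ω : ℝ) ∂μ) ≤ (1 / (1 - (1 + c) * (1 - c))) ^ n₀ / c := by
  have pm := hm.prob
  have q0 : 0 < 1 - (1 + c) * (1 - c) := by nlinarith
  have q1 : 1 ≤ 1 / (1 - (1 + c) * (1 - c)) := by
    rw [le_div_iff₀ q0]
    nlinarith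
  have k := he (fun _ => 1) (1 + c) (1 - c) s g I (hx.const 1) (fun _ => zero_le_one)
    (by linarith) (by linarith) (by linarith) fun i hi => ⟨(h i hi).2, fun R H hA =>
      (h0 i.1 i.2 (g * i.2) R H hA).trans (mul_le_mul_of_nonneg_right (hw _ _ (h i hi).1)
        (integral_nonneg fun ω => mul_nonneg (hA.2.1 ω) zero_le_one))⟩
  simp only [exm, mul_one, integral_const, probReal_univ, smul_eq_mul] at k
  rw [le_div_iff₀ c0, ← integral_mul_const]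
  refine le_trans (integral_mono ((hx.int _ (hx.kE s I ∅ Nat.cast)).mul_const c)
    (hx.int _ (hx.kE s I ∅ fun n => (1 + c) ^ n)) fun ω => ?_)
    (k.trans (pow_le_pow_right₀ q1 hI))
  have := one_add_mul_le_pow (show (-2 : ℝ) ≤ c by linarith) (kE s I ∅ ω)
  simp only
  linarith

end WM1x

theorem k_m1 {μ : Measure Cf} {a : ℝ} (hm : Mod μ) (hx : W_bd μ a) (hp : K_pt) (ht : K_til)
    (he : K_exp μ) (hw : W_weak μ) (h0 : M_hb0 μ) : K_m1 μ := by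
  have pm := hm.prob
  obtain ⟨c, c0, g, g1, hw⟩ := hw
  have c1 : c ≤ 1 := by
    have h1 := hw 0 1 le_rfl
    have h2 : 0 ≤ μ.real (AZ true 0 1 (g * 1)) := measureReal_nonneg
    linarith
  obtain ⟨n₀, s₀, hI⟩ := ht g g1
  obtain ⟨B, hB⟩ : ∃ B : ℝ, B = (1 / (1 - (1 + c) * (1 - c))) ^ n₀ / c := ⟨_, rfl⟩
  have B0 : 0 ≤ B := by
    have q0 : 0 < 1 - (1 + c) * (1 - c) := by nlinarith
    rw [hB]
    positivity
  refine ⟨B + B + (((2 * (3 * s₀) + 1) ^ 2 : ℕ) : ℝ), fun s z => ?_⟩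
  have i0 : Integrable (fun ω => (kb s z ω : ℝ)) μ := hx.int _ (hx.kb s z Nat.cast)
  unfold exm
  by_cases hs : s₀ ≤ s
  · obtain ⟨I, I1, I2, I3⟩ := hI s hs z
    obtain ⟨I', J1, J2, J3⟩ := hI s hs (z - (1, 0))
    have k1 := WM1x.one hm hx he h0 c0 c1 hw (s / 2) n₀ I I1
      fun i hi => ⟨(I3 i hi).1, (I3 i hi).2.1⟩
    have k2 := WM1x.one hm hx he h0 c0 c1 hw (s / 2) n₀ I' J1
      fun i hi => ⟨(J3 i hi).1, (J3 i hi).2.1⟩
    rw [← hB] at k1 k2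
    have i1 : Integrable (fun ω => (kE (s / 2) I ∅ ω : ℝ)) μ := hx.int _ (hx.kE _ I ∅ Nat.cast)
    have i2 : Integrable (fun ω => (kE (s / 2) I' ∅ ω : ℝ)) μ := hx.int _ (hx.kE _ I' ∅ Nat.cast)
    have i3 : Integrable (fun ω => (kE (s / 2) I' ∅ (sh (1, 0) ω) : ℝ)) μ :=
      (hm.inv (1, 0)).integrable_comp_of_integrable i2
    have m : AEStronglyMeasurable (fun ω => (kE (s / 2) I' ∅ ω : ℝ)) (μ.map (sh (1, 0))) := by
      rw [(hm.inv (1, 0)).map_eq]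
      exact i2.1
    have e := integral_map (hm.inv (1, 0)).measurable.aemeasurable m
    rw [(hm.inv (1, 0)).map_eq] at e
    have k3 : ∫ ω, (kb s z ω : ℝ) ∂μ ≤
        ∫ ω, ((kE (s / 2) I ∅ ω : ℝ) + (kE (s / 2) I' ∅ (sh (1, 0) ω) : ℝ)) ∂μ :=
      integral_mono i0 (i1.add i3) fun ω => by
        have := hp.kb s z I I' ω I2 J2
        simp only
        exact_mod_cast this
    rw [integral_add i1 i3, ← e] at k3
    have k4 : (0 : ℝ) ≤ (((2 * (3 * s₀) + 1) ^ 2 : ℕ) : ℝ) := Nat.cast_nonneg _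
    linarith
  · have k2 : ∫ ω, (kb s z ω : ℝ) ∂μ ≤ ∫ _ω, (((2 * (3 * s₀) + 1) ^ 2 : ℕ) : ℝ) ∂μ :=
      integral_mono i0 (integrable_const _) fun ω => Nat.cast_le.2
        ((WM1x.kb_le s z ω).trans (Nat.pow_le_pow_left (by omega) 2))
    rw [integral_const, probReal_univ, one_smul] at k2
    linarith

end Vale.Agent.P167Q.W
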