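import Vale.Agent.P167W.WStm

/-! P167W: conditional exponential moments of the number of large clusters. -/

open Finset Relation Filter Topology MeasureTheory
open scoped Classical BigOperators

namespace Vale.Agent.P167Q.W

namespace WMcx

theorem card_bz (z : Sq) (s : ℕ) : (bz z s).card = (2 * s + 1) ^ 2 := by
  have e : ∀ a : ℤ, (Icc (a - s) (a + s)).card = 2 * s + 1 := fun a => by
    rw [Int.card_Icc, show a + s + 1 - (a - s) = ((2 * s + 1 : ℕ) : ℤ) by push_cast; ring,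
      Int.toNat_natCast]
  rw [bz, card_product, e, e, pow_two]

theorem kb_le (s : ℕ) (z : Sq) (ω : Cf) : kb s z ω ≤ (2 * (3 * s) + 1) ^ 2 :=
  (card_filter_le _ _).trans (card_image_le.trans (card_bz z _).le)

theorem exp_le (t : ℝ) {k n : ℕ} (h : k ≤ n) : Real.exp (t * k) ≤ Real.exp |t| ^ n := by
  rw [← Real.exp_nat_mul, mul_comm (n : ℝ)]
  refine Real.exp_le_exp.2 ((mul_le_mul_of_nonneg_right (le_abs_self t) (Nat.cast_nonneg k)).trans ?_)
  exact mul_le_mul_of_nonneg_left (Nat.cast_le.2 h) (abs_nonneg t)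

theorem exp_le2 (t : ℝ) {k a b : ℕ} (h : k ≤ a + b) :
    Real.exp (t * k) ≤ (Real.exp |t| ^ 2) ^ a + (Real.exp |t| ^ 2) ^ b := by
  rw [← pow_mul, ← pow_mul]
  have p1 : 0 ≤ Real.exp |t| ^ (2 * a) := by positivity
  have p2 : 0 ≤ Real.exp |t| ^ (2 * b) := by positivity
  rcases le_total a b with q | q
  · have := exp_le t (show k ≤ 2 * b by omega)
    linarith
  · have := exp_le t (show k ≤ 2 * a by omega)
    linarith

theorem off_mono {W W' : Finset Sq} {G : Cf → ℝ} (h : Off W G) (hW : W' ⊆ W) : Off W' G := by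
  obtain ⟨⟨V, h1, h2⟩, h3⟩ := h
  exact ⟨⟨V, h1, h2.mono_right hW⟩, h3⟩

theorem off_bd {μ : Measure Cf} {a : ℝ} (hx : W_bd μ a) {W : Finset Sq} {G : Cf → ℝ}
    (h : Off W G) : Bdm μ G := by
  obtain ⟨⟨V, h1, -⟩, -⟩ := h
  exact hx.loc V G h1

theorem sh_sh (ω : Cf) : sh (-(1, 0)) (sh (1, 0) ω) = ω := by
  funext v
  have e1 : Odd ((-((1, 0) : Sq)).1 + (-((1, 0) : Sq)).2) := by decide
  have e2 : Odd ((((1, 0) : Sq)).1 + (((1, 0) : Sq)).2) := by decide
  simp only [sh, e1, e2, decide_true, neg_add_cancel_right]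
  cases ω v <;> rfl

theorem ex_sh {μ : Measure Cf} (hm : Mod μ) (t : Sq) {F : Cf → ℝ} (hF : Bdm μ F) :
    (exm μ fun ω => F (sh t ω)) = exm μ F ∧ AEMeasurable (fun ω => F (sh t ω)) μ := by
  have m : AEMeasurable F (μ.map (sh t)) := by
    rw [(hm.inv t).map_eq]
    exact hF.1
  have := integral_map (hm.inv t).measurable.aemeasurable m.aestronglyMeasurable
  rw [(hm.inv t).map_eq] at this
  exact ⟨this.symm, m.comp_measurable (hm.inv t).measurable⟩

end WMcx

open WMcx in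
theorem k_mc {μ : Measure Cf} {a : ℝ} (hm : Mod μ) (hz : W_az) (hx : W_bd μ a) (hp : K_pt)
    (ht : K_til) (he : K_exp μ) (hr : S_rsw μ) (h1 : M_hb1 μ) : K_mc μ ∧ K_momq μ := by
  have := hm.prob
  have main : K_mc μ := by
    intro t
    have l1 : 1 ≤ Real.exp |t| ^ 2 := one_le_pow₀ (Real.one_le_exp (abs_nonneg t))
    generalize hl : Real.exp |t| ^ 2 = lam at l1
    have l0 : 0 < lam := by linarith
    obtain ⟨g, g1, hg⟩ := hr (1 / (2 * lam)) (by positivity)
    obtain ⟨n₀, s₀, hI⟩ := ht g g1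
    have e2 : lam * (1 / (2 * lam)) = 1 / 2 := by field_simp
    have key : ∀ s ≥ s₀, ∀ z : Sq, ∃ I : Finset (Sq × ℕ), bz z (3 * s) ⊆ til I ∧
        ∀ G, Off (bz z (5 * s)) G →
          (exm μ fun ω => lam ^ kE (s / 2) I ∅ ω * G ω) ≤ 2 ^ n₀ * exm μ G := by
      intro s hs z
      obtain ⟨I, I1, I2, I3⟩ := hI s hs z
      refine ⟨I, I2, fun G hG => ?_⟩
      have k1 := he G lam (1 / (2 * lam)) (s / 2) g I (off_bd hx hG) hG.2 l1 (by positivity)
        (by rw [e2]; norm_num) fun i hi => ⟨(I3 i hi).2.1, h1 i.1 i.2 (g * i.2) _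
          (fun G' hG' => hg true i.1 i.2 G' (I3 i hi).1 hG') G (off_mono hG (I3 i hi).2.2)⟩
      rw [e2, show (1 : ℝ) / (1 - 1 / 2) = 2 by norm_num] at k1
      exact k1.trans (mul_le_mul_of_nonneg_right (pow_le_pow_right₀ one_le_two I1)
        (integral_nonneg hG.2))
    refine ⟨2 * 2 ^ n₀ + Real.exp |t| ^ (2 * (3 * s₀) + 1) ^ 2, fun s z G hG => ?_⟩
    have bG := off_bd hx hG
    have G0 : 0 ≤ exm μ G := integral_nonneg hG.2
    have i0 : Integrable (fun ω => Real.exp (t * kb s z ω) * G ω) μ :=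
      hx.int _ (hx.mul _ _ (hx.kb s z fun k => Real.exp (t * k)) bG)
    have k4 : 0 ≤ Real.exp |t| ^ (2 * (3 * s₀) + 1) ^ 2 * exm μ G := by positivity
    have k5 : 0 ≤ 2 * 2 ^ n₀ * exm μ G := by positivity
    by_cases hs : s₀ ≤ s
    · obtain ⟨I, I1, I2⟩ := key s hs z
      obtain ⟨I', I1', I2'⟩ := key s hs (z - (1, 0))
      have hG' : Off (bz (z - (1, 0)) (5 * s)) fun ω => G (sh (-(1, 0)) ω) :=
        hz.off _ _ _ G hG fun v hv => by
          rw [mem_bz] at hv ⊢
          simp only [Prod.fst_sub, Prod.snd_sub, Prod.fst_neg, Prod.snd_neg] at hv ⊢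
          push_cast at hv ⊢
          omega
      have a1 := I2 G (off_mono hG fun v hv => by
        rw [mem_bz] at hv ⊢
        push_cast at hv ⊢
        omega)
      have a2 := I2' _ hG'
      rw [(ex_sh hm _ bG).1] at a2
      have b2 := hx.mul _ _ (hx.kE (s / 2) I' ∅ fun k => lam ^ k) (off_bd hx hG')
      obtain ⟨c1, c2⟩ := ex_sh hm (1, 0) b2
      simp only [sh_sh] at c1 c2
      obtain ⟨-, M, hM⟩ := b2
      have i2 : Integrable (fun ω => lam ^ kE (s / 2) I' ∅ (sh (1, 0) ω) * G ω) μ :=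
        hx.int _ ⟨c2, M, fun ω => by simpa only [sh_sh] using hM (sh (1, 0) ω)⟩
      have i1 : Integrable (fun ω => lam ^ kE (s / 2) I ∅ ω * G ω) μ :=
        hx.int _ (hx.mul _ _ (hx.kE (s / 2) I ∅ fun k => lam ^ k) bG)
      have k2 : (exm μ fun ω => Real.exp (t * kb s z ω) * G ω) ≤
          (exm μ fun ω => lam ^ kE (s / 2) I ∅ ω * G ω) +
            exm μ fun ω => lam ^ kE (s / 2) I' ∅ (sh (1, 0) ω) * G ω := by
        unfold exm
        rw [← integral_add i1 i2]
        refine integral_mono i0 (i1.add i2) fun ω => ?_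
        have := exp_le2 t (hp.kb s z I I' ω I1 I1')
        rw [hl] at this
        exact (mul_le_mul_of_nonneg_right this (hG.2 ω)).trans_eq (add_mul _ _ _)
      rw [c1] at k2
      linarith
    · have k2 : (exm μ fun ω => Real.exp (t * kb s z ω) * G ω) ≤
          Real.exp |t| ^ (2 * (3 * s₀) + 1) ^ 2 * exm μ G := by
        unfold exm
        rw [← integral_const_mul]
        exact integral_mono i0 ((hx.int _ bG).const_mul _) fun ω =>
          mul_le_mul_of_nonneg_right (exp_le t ((kb_le s z ω).trans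
            (Nat.pow_le_pow_left (by omega) 2))) (hG.2 ω)
      linarith
  refine ⟨main, fun t => ?_⟩
  obtain ⟨C, hC⟩ := main t
  refine ⟨C, fun s z => ?_⟩
  have := hC s z (fun _ => 1) ⟨⟨∅, fun _ _ _ => rfl, disjoint_empty_left _⟩, fun _ => zero_le_one⟩
  simpa [exm] using this

end Vale.Agent.P167Q.W
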