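import Vale.Agent.P167W.WStm
import Vale.Agent.P167Q.XMid

/-! P167W: no surrounding cluster forces an arm. -/

open Finset Relation Filter Topology MeasureTheory
open scoped Classical BigOperators

namespace Vale.Agent.P167Q.W

namespace WMidx

theorem one {μ : Measure Cf} (hm : Mod μ) {g a k b : ℕ} (hg : 2 ≤ g)
    (hs : g * (k + 2) ≤ b → μ.real ({ω | ¬NoArm a k ω} ∩ {ω | ¬NoArm (g * (k + 2)) b ω}) ≤
      4 * (pam μ a k * pam μ (g * (k + 2)) b)) :
    μ.real ({ω | ¬NoArm a k ω} ∩ {ω | ¬NoArm (2 * k + 1) b ω}) ≤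
      4 * (pam μ a k * pam μ (g * (k + 2)) b) := by
  have := hm.prob
  have k1 : 2 * (k + 2) ≤ g * (k + 2) := Nat.mul_le_mul_right _ hg
  by_cases h : g * (k + 2) ≤ b
  · have s : {ω | ¬NoArm (2 * k + 1) b ω} ⊆ {ω | ¬NoArm (g * (k + 2)) b ω} := by
      refine fun ω q q' => q fun x hx => q' x ?_
      generalize g * (k + 2) = l at k1
      rw [mem_box] at hx ⊢
      omega
    exact (measureReal_mono (Set.inter_subset_inter_right _ s)).trans (hs h)
  · have e : {ω | ¬NoArm (g * (k + 2)) b ω} = Set.univ :=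
      Set.eq_univ_of_forall fun ω q => h (XMidx.le_of q)
    have p0 : 0 ≤ pam μ a k := measureReal_nonneg
    have p1 : pam μ (g * (k + 2)) b = 1 := by
      unfold pam
      rw [e, probReal_univ]
    have p2 : μ.real ({ω | ¬NoArm a k ω} ∩ {ω | ¬NoArm (2 * k + 1) b ω}) ≤ pam μ a k :=
      measureReal_mono Set.inter_subset_left
    rw [p1]
    linarith

end WMidx

open XMidx in
theorem q_mid {μ : Measure Cf} {a : ℝ} (_hb : Base) (hm : Mod μ) (h0 : R_0q μ a) (hs : Q_subq μ)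
    (hk : W_sym μ) (hi : Q_inq μ) (hg : Q_glueq μ) (ht : T_top) : Q_midq μ := by
  obtain ⟨c, c0, hc⟩ := hi 2
  obtain ⟨g, g2, h2⟩ := hs.two
  obtain ⟨C, hC⟩ := hg (2 * g)
  refine ⟨5 / c + 4 * C, fun J hJ m hm' => ?_⟩
  have j1 : 2 ^ 6 ≤ 2 ^ J := Nat.pow_le_pow_right two_pos hJ
  have j2 : 2 ^ 4 ≤ 2 ^ m := Nat.pow_le_pow_right two_pos hm'
  have j3 : 2 ^ J * 2 ^ 4 ≤ 2 ^ J * 2 ^ m := Nat.mul_le_mul_left _ j2
  rw [h0.zero]
  unfold N1
  have b1 : 3 * 2 ^ J + 1 ≤ 2 ^ (J + m) - 1 := by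
    rw [pow_add]
    omega
  have b2 : ¬3 * 2 ^ J * 2 ^ m + 1 ≤ 2 ^ (J + m) - 1 := by
    rw [pow_add, mul_assoc]
    omega
  have a1 : 144 ≤ 3 * 2 ^ J := by omega
  generalize 3 * 2 ^ J = u at b1 b2 a1
  generalize 2 ^ (J + m) - 1 = b at b1 b2
  have := hm.prob
  have s1 : {ω | mid u b ω = 0} ⊆ {ω | ¬NoArm (u + 1) b ω} ∪ ⋃ j ∈ range m,
      {ω | ¬NoArm u (u * 2 ^ j) ω} ∩ {ω | ¬NoArm (2 * (u * 2 ^ j) + 1) b ω} := by
    intro ω hω
    by_contra k
    simp only [Set.mem_union, Set.mem_iUnion, Set.mem_inter_iff, Set.mem_ofPred_eq, not_or,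
      not_exists, not_and, not_not, mem_range] at k
    exact b2 (cover ht (by omega) b1 hω k.1 m k.2).1
  have p0 : 0 ≤ pcm μ true u b := measureReal_nonneg
  have s2 : pam μ (u + 1) b ≤ 5 / c * pcm μ true u b := by
    have k1 := (hk true (u + 1) b).2
    have k2 := hc u a1 (u + 1 + 1) (by omega) b
    rw [div_mul_eq_mul_div, le_div_iff₀ c0]
    nlinarith
  have s3 : ∀ j ∈ range m, μ.real ({ω | ¬NoArm u (u * 2 ^ j) ω} ∩
      {ω | ¬NoArm (2 * (u * 2 ^ j) + 1) b ω}) ≤ 4 * (C * pcm μ true u b) := fun j _ => by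
    have k : u ≤ u * 2 ^ j := Nat.le_mul_of_pos_right _ (by positivity)
    refine (WMidx.one hm g2 fun q => (h2 _ _ _ _ le_rfl q).1).trans
      (mul_le_mul_of_nonneg_left (hC u _ _ b a1 k ?_) (by norm_num))
    rw [mul_comm 2 g, mul_assoc]
    exact Nat.mul_le_mul_left _ (by omega)
  have s4 := (measureReal_biUnion_finset_le _ _).trans (sum_le_card_nsmul _ _ _ s3)
  rw [card_range, nsmul_eq_mul] at s4
  refine (measureReal_mono s1).trans ((measureReal_union_le _ _).trans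
    ((add_le_add s2 s4).trans ?_))
  have m1 : (1 : ℝ) ≤ m := by exact_mod_cast (by omega : 1 ≤ m)
  have s5 : 0 ≤ 5 / c * pcm μ true u b := by positivity
  nlinarith

end Vale.Agent.P167Q.W
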