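import Vale.Agent.P167W.WStm

/-! P167W: an arm of either colour decouples from the outside. -/

open Finset Relation Filter Topology MeasureTheory
open scoped Classical BigOperators

namespace Vale.Agent.P167Q.W

namespace WMixx

theorem lc_ind {V : Finset Sq} {A : Set Cf} (h : Le V A) :
    Lc V (A.indicator (1 : Cf → ℝ)) := by
  intro ω ω' hω
  have h1 : (ω ∈ A) = (ω' ∈ A) := h ω ω' hω
  simp only [Set.indicator_apply, h1, Pi.one_apply]

theorem ind_nn (A : Set Cf) (ω : Cf) : 0 ≤ A.indicator (1 : Cf → ℝ) ω :=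
  Set.indicator_nonneg (fun _ _ => zero_le_one) ω

theorem fls {μ : Measure Cf} (hb : Base) (hm : Mod μ) (hz : W_az) (h : M_mix1 μ) (z : Sq)
    (u n N : ℕ) (G : Cf → ℝ) (hn : n + 1 ≤ N) (hG : Off (bz z (N + 1)) G) :
    (1 - pam μ (n + 2) N) * (exm μ fun ω => (AZ false z u n).indicator 1 ω * G ω) ≤
      μ.real (AZ false z u n) * exm μ G := by
  have hA := hz.lc false z u n
  have h1 : Antitone ((AZ false z u n).indicator (1 : Cf → ℝ)) := by
    intro ω ω' hω
    by_cases h2 : ω' ∈ AZ false z u n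
    · rw [Set.indicator_of_mem h2, Set.indicator_of_mem ((hz.up z u n).2 hω h2)]
      exact le_rfl
    · rw [Set.indicator_of_notMem h2]
      exact ind_nn _ _
  have h2 := h z (n + 1) N _ G hn (ind_nn _) (lc_ind hA) h1 hG
  have h3 : exm μ ((AZ false z u n).indicator 1) = μ.real (AZ false z u n) :=
    integral_indicator_one ((hb.loc Sq _).2 _ hA).1
  have h4 : 0 ≤ exm μ fun ω => (AZ false z u n).indicator 1 ω * G ω :=
    integral_nonneg fun ω => mul_nonneg (ind_nn _ ω) (hG.2 ω)
  have h5 := hz.le μ hm true z (n + 2) N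
  rw [h3] at h2
  exact (mul_le_mul_of_nonneg_right (by linarith) h4).trans h2

theorem chg {μ : Measure Cf} (hm : Mod μ) (t : Sq) {F : Cf → ℝ} (hF : Measurable F) :
    exm μ (fun ω => F (sh t ω)) = exm μ F := by
  unfold exm
  rw [← integral_map (hm.inv t).measurable.aemeasurable hF.aestronglyMeasurable,
    (hm.inv t).map_eq]

theorem sh_sh (ω : Cf) : sh (-1, 0) (sh (1, 0) ω) = ω := by
  funext v
  have e : v + (-1, 0) + (1, 0) = v := by
    ext <;> simp
  have o1 : decide (Odd ((-1 : ℤ) + 0)) = true := by decide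
  have o2 : decide (Odd ((1 : ℤ) + 0)) = true := by decide
  simp only [sh, e, o1, o2]
  cases ω v <;> rfl

end WMixx

theorem m_mix {μ : Measure Cf} (hb : Base) (hm : Mod μ) (hz : W_az) (h : M_mix1 μ) :
    M_mix μ := by
  intro c z u n N G hn hG
  cases c
  · exact WMixx.fls hb hm hz h z u n N G hn hG
  · have hG' : Off (bz (z - (1, 0)) (N + 1)) fun ω => G (sh (-1, 0) ω) := by
      refine hz.off _ _ (-1, 0) G hG fun v hv => ?_
      rw [mem_bz] at hv ⊢
      simp only [Prod.fst_sub, Prod.snd_sub] at hv ⊢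
      omega
    have h1 := WMixx.fls hb hm hz h (z - (1, 0)) u n N _ hn hG'
    have hA := hz.lc false (z - (1, 0)) u n
    have hmem : ∀ ω, sh (1, 0) ω ∈ AZ false (z - (1, 0)) u n ↔ ω ∈ AZ true z u n := by
      intro ω
      have o2 : xor (decide (Odd ((1 : ℤ) + 0))) false = true := by decide
      rw [hz.shf, sub_add_cancel]
      simp only [o2]
    have hind : ∀ ω, (AZ false (z - (1, 0)) u n).indicator (1 : Cf → ℝ) (sh (1, 0) ω) =
        (AZ true z u n).indicator 1 ω := by
      intro ω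
      simp only [Set.indicator_apply, hmem, Pi.one_apply]
    have m1 : Measurable ((AZ false (z - (1, 0)) u n).indicator (1 : Cf → ℝ)) :=
      ((hb.loc Sq _).1 _ (WMixx.lc_ind hA)).1
    obtain ⟨⟨V, hV, _⟩, _⟩ := hG'
    have m2 : Measurable fun ω => G (sh (-1, 0) ω) := ((hb.loc Sq V).1 _ hV).1
    have e1 := WMixx.chg hm (1, 0) (F := fun ω => (AZ false (z - (1, 0)) u n).indicator 1 ω *
      G (sh (-1, 0) ω)) (m1.mul m2)
    have e2 := WMixx.chg hm (1, 0) m2
    have e3 := WMixx.chg hm (1, 0) m1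
    simp only [WMixx.sh_sh, hind] at e1 e2 e3
    have e4 : exm μ ((AZ false (z - (1, 0)) u n).indicator 1) =
        μ.real (AZ false (z - (1, 0)) u n) := integral_indicator_one ((hb.loc Sq _).2 _ hA).1
    have e5 : exm μ ((AZ true z u n).indicator 1) = μ.real (AZ true z u n) :=
      integral_indicator_one ((hb.loc Sq _).2 _ (hz.lc true z u n)).1
    rw [← e1, ← e2, ← e4, ← e3] at h1
    rw [← e5]
    exact h1

end Vale.Agent.P167Q.W
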