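import Vale.Agent.P167W.WStm

/-! P167W: a decreasing local function decouples from the outside. -/

open Finset Relation Filter Topology MeasureTheory
open scoped Classical BigOperators

namespace Vale.Agent.P167Q.W

open Vale.Agent.P152 (IsTest gcov Vx Site v6)
open Vale.Agent.P167 (Q.ea Q.eb Q.fx Q.f0 Q.FKm Pc.chi Pc.Loc Pc.ins Pc.loop)
open Vale.Agent.P153.RSW (Ev)

namespace WMix1x

theorem intg (hb : Base) (μ : Measure Cf) [IsProbabilityMeasure μ] (W : Finset Sq) (G : Cf → ℝ)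
    (h : Lc W G) : Integrable G μ := by
  refine Integrable.of_bound ((hb.loc Sq W).1 G h).1.aestronglyMeasurable
    (∑ η : W → Bool, |G (xt W η)|) (Eventually.of_forall fun ω => ?_)
  rw [Real.norm_eq_abs, h ω (xt W fun i => ω i) fun i hi => by simp [xt, hi]]
  exact single_le_sum (f := fun η : W → Bool => |G (xt W η)|) (fun _ _ => abs_nonneg _)
    (mem_univ _)

theorem lc_mono {T S : Finset Sq} {F : Cf → ℝ} (h : Lc T F) (hT : T ⊆ S) : Lc S F :=
  fun ω ω' e => h ω ω' fun i hi => e i (hT hi)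

theorem cst (hl : P167.Q.T_lin) {r : ℝ} (hr : 0 < r) (S : Finset Sq) (ξ : Cf) (x : ℝ) :
    Q.fx r S ξ (fun _ => x) = x := (hl _ _ r Q.ea Q.eb P167.Q.nil S ξ hr).1 x

theorem ng (hl : P167.Q.T_lin) {r : ℝ} (hr : 0 < r) (S : Finset Sq) (ξ : Cf) (F : Cf → ℝ) :
    Q.fx r S ξ (fun ω => -1 * F ω) = -1 * Q.fx r S ξ F :=
  (hl _ _ r Q.ea Q.eb P167.Q.nil S ξ hr).2.2.1 (-1) F

theorem mo (hl : P167.Q.T_lin) {r : ℝ} (hr : 0 < r) (S : Finset Sq) (ξ : Cf) (F G : Cf → ℝ)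
    (h : ∀ ω, F ω ≤ G ω) : Q.fx r S ξ F ≤ Q.fx r S ξ G :=
  (hl _ _ r Q.ea Q.eb P167.Q.nil S ξ hr).2.2.2.1 F G h

end WMix1x

open WMix1x in
theorem v_mix1 (hb : Base) (hl : P167.Q.T_lin) (hp : P167.Q.T_pl) (hz : W_az) (h1 : V_mon)
    (h2 : V_det) (h3 : V_rep) (h4 : V_lift) : V_mix1 := by
  intro r μ hr hμ z n N F G hn F0 hF hA hG
  have := hμ.1
  have r0 : 0 < r := by linarith
  have hT : bz z n ⊆ bz z (N + 1) := fun x hx => by
    rw [mem_bz] at hx ⊢
    push_cast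
    omega
  obtain ⟨m, hm⟩ : ∃ m, m = Q.fx r (bz z (N + 1)) (fun _ => false) F := ⟨_, rfl⟩
  have m0 : 0 ≤ m := by
    rw [hm, ← cst hl r0 (bz z (N + 1)) (fun _ => false) 0]
    exact mo hl r0 _ _ _ _ F0
  have hM : Monotone fun ω => -1 * F ω := fun ω ω' h => by
    have := hA h
    show -1 * F ω ≤ -1 * F ω'
    linarith
  have hL : Lc (bz z n) fun ω => -1 * F ω := fun ω ω' e => congrArg _ (hF ω ω' e)
  have a1 : ∀ ξ, Q.fx r (bz z (N + 1)) ξ (fun ω => m * Pc.chi (Cut (bz z (N + 1)) (bz z n) ω)) ≤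
      Q.fx r (bz z (N + 1)) ξ F := fun ξ => by
    obtain ⟨w, w0, wT, hw⟩ := h3 r _ _ ξ ξ hr hT fun _ _ => le_rfl
    rw [(hw (fun _ => m) fun _ _ _ => rfl).1]
    refine le_trans (sum_le_sum fun S hS => ?_) ((hw F hF).2 F0)
    by_cases h0 : w S = 0
    · rw [h0, zero_mul, zero_mul]
    refine mul_le_mul_of_nonneg_left ?_ (w0 S)
    have k := ((hp r S _ _ hr (mem_powerset.1 hS) hM fun ω ω' e =>
      lc_mono hL (wT S h0) ω ω' fun i hi => e i hi).2 (fun _ => false) (fun _ => 1)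
      (fun _ => zero_le_one) fun _ _ _ => rfl).1
    simp only [mul_one, P167.Q.f0] at k ⊢
    rw [cst hl r0, ng hl r0, ng hl r0, ← hm] at k
    rw [cst hl r0]
    linarith
  have lc1 : Lc (bz z (N + 1)) fun ω => m * Pc.chi (Cut (bz z (N + 1)) (bz z n) ω) :=
    fun ω ω' e => congrArg _ (h2.lc _ _ ω ω' e)
  have a2 := h4 r μ hr hμ _ _ F (fun _ => 1) ⟨_, lc1⟩ ⟨_, hF⟩ a1
    ⟨⟨∅, fun _ _ _ => rfl, disjoint_empty_left _⟩, fun _ => zero_le_one⟩
  have ms := ((hb.loc Sq _).2 _ (hz.lc true z (n + 1) N)).1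
  have i1 : Integrable ((AZ true z (n + 1) N).indicator (1 : Cf → ℝ)) μ :=
    (integrable_const (1 : ℝ)).indicator ms
  have a3 : m * (1 - μ.real (AZ true z (n + 1) N)) ≤ exm μ F := by
    have e : ∫ ω, m * (1 - (AZ true z (n + 1) N).indicator (1 : Cf → ℝ) ω) ∂μ =
        m * (1 - μ.real (AZ true z (n + 1) N)) := by
      rw [integral_const_mul, integral_sub (integrable_const _) i1, integral_indicator_one ms]
      simp
    simp only [mul_one] at a2
    rw [← e]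
    refine le_trans (integral_mono (((integrable_const _).sub i1).const_mul m)
      (intg hb μ _ _ lc1) fun ω => mul_le_mul_of_nonneg_left ?_ m0) a2
    by_cases h : ω ∈ AZ true z (n + 1) N
    · rw [Set.indicator_of_mem h]
      unfold P167.Pc.chi
      split_ifs <;> simp
    · rw [Set.indicator_of_notMem h]
      unfold P167.Pc.chi
      rw [if_pos (h2.az z n N ω h)]
      simp
  have b1 : ∀ ξ, Q.fx r (bz z (N + 1)) ξ F ≤ Q.fx r (bz z (N + 1)) ξ fun _ => m := fun ξ => by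
    have k := h1 r _ (fun _ => false) ξ _ hr (fun _ _ => Bool.false_le _) hM (lc_mono hL hT)
    rw [ng hl r0, ng hl r0, ← hm] at k
    rw [cst hl r0]
    linarith
  have b2 := h4 r μ hr hμ _ F (fun _ => m) G ⟨_, hF⟩ ⟨∅, fun _ _ _ => rfl⟩ b1 hG
  have b3 : (exm μ fun ω => m * G ω) = m * exm μ G := integral_const_mul _ _
  have g0 : 0 ≤ exm μ G := integral_nonneg hG.2
  have p1 : 0 ≤ 1 - μ.real (AZ true z (n + 1) N) := sub_nonneg.2 measureReal_le_one
  rw [b3] at b2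
  calc _ ≤ (1 - μ.real (AZ true z (n + 1) N)) * (m * exm μ G) := mul_le_mul_of_nonneg_left b2 p1
    _ = m * (1 - μ.real (AZ true z (n + 1) N)) * exm μ G := by ring
    _ ≤ _ := mul_le_mul_of_nonneg_right a3 g0

end Vale.Agent.P167Q.W
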