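import Vale.Agent.P167W.WStm

/-! P167W: the properties of the random-cluster measure used in the sequel. -/

open Finset Relation Filter Topology MeasureTheory
open scoped Classical BigOperators

namespace Vale.Agent.P167Q.W

open Vale.Agent.P152 (IsTest gcov Vx Site v6)
open Vale.Agent.P167 (Q.ea Q.eb Q.fx Q.f0 Q.FKm Pc.chi Pc.Loc Pc.ins Pc.loop)
open Vale.Agent.P153.RSW (Ev)

namespace WModx

theorem ind_lc {W : Finset Sq} {A : Set Cf} (h : Le W A) :
    Lc W (A.indicator (1 : Cf → ℝ)) := fun ω ω' e => by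
  have := h ω ω' e
  simp only [Set.indicator_apply, this, Pi.one_apply]

theorem ind_mono {A : Set Cf} (h : IsUpperSet A) : Monotone (A.indicator (1 : Cf → ℝ)) := by
  intro ω ω' e
  by_cases c : ω ∈ A
  · rw [Set.indicator_of_mem c, Set.indicator_of_mem (h e c)]
    exact le_rfl
  · rw [Set.indicator_of_notMem c]
    exact Set.indicator_nonneg (fun _ _ => zero_le_one) _

theorem ind_mul (A B : Set Cf) (ω : Cf) :
    A.indicator (1 : Cf → ℝ) ω * B.indicator (1 : Cf → ℝ) ω = (A ∩ B).indicator 1 ω := by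
  rw [Set.inter_indicator_one]
  rfl

theorem ind_abs (B : Set Cf) (ω : Cf) : |B.indicator (1 : Cf → ℝ) ω| ≤ 1 := by
  by_cases c : ω ∈ B <;> simp [c]

theorem le_all (W : Finset Sq) (b : Bool) : Le W {ω : Cf | ∀ v ∈ W, ω v = b} := fun ω ω' e =>
  propext (forall₂_congr fun v hv => by rw [e v hv])

end WModx

open WModx in
theorem v_mod (hb : Base) (hq : P167.Q.T_qi) (hm : P167.Q.T_qm) (hi : V_inv) : V_mod := by
  intro r μ h1 h2 hμ
  have hP : IsProbabilityMeasure μ := hμ.1
  obtain ⟨i1, i2, i3⟩ := hi r μ h1 h2 hμ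
  have ms : ∀ {W : Finset Sq} {A : Set Cf}, Le W A → MeasurableSet A :=
    fun {W A} hA => ((hb.loc _ W).2 A hA).1
  refine ⟨hP, i1, i2, i3, fun V W A B hA hB uA uB => ?_, fun W => ?_, fun W A hA ε hε => ?_⟩
  · have := (hq r μ h1 hμ).2.1 _ _ ⟨V, ind_lc hA⟩ ⟨W, ind_lc hB⟩ (ind_mono uA) (ind_mono uB)
    simp only [ind_mul] at this
    rwa [integral_indicator_one (ms hA), integral_indicator_one (ms hB),
      integral_indicator_one ((ms hA).inter (ms hB))] at this
  · obtain ⟨T, hT⟩ : ∃ T : Finset Sq, T = W.image fun v => v + (1, 0) := ⟨_, rfl⟩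
    have a1 := (hq r μ h1 hμ).2.2 T _ ⟨T, ind_lc (le_all T false)⟩
      fun ω => Set.indicator_nonneg (fun _ _ => zero_le_one) ω
    have a2 : ∀ ω : Cf, ({ω : Cf | ∀ v ∈ T, ω v = false}.indicator (1 : Cf → ℝ)
        fun v => if v ∈ T then false else ω v) = 1 := fun ω =>
      Set.indicator_of_mem (s := {ω : Cf | ∀ v ∈ T, ω v = false}) (fun v hv => if_pos hv) _
    simp only [a2] at a1
    rw [integral_indicator_one (ms (le_all T false)), integral_const, probReal_univ,
      one_smul] at a1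
    have e : sh (1, 0) ⁻¹' {ω : Cf | ∀ v ∈ W, ω v = true} = {ω : Cf | ∀ v ∈ T, ω v = false} := by
      ext ω
      rw [hT, Set.mem_setOf_eq, forall_mem_image]
      refine forall₂_congr fun v _ => ?_
      simp [sh]
    rw [← (i1 (1, 0)).measureReal_preimage (ms (le_all W true)).nullMeasurableSet, e]
    refine lt_of_le_of_ne measureReal_nonneg fun h0 => ?_
    rw [← h0, mul_zero] at a1
    linarith
  · obtain ⟨S, hS⟩ := hm r μ h1 hμ _ ⟨W, ind_lc hA⟩ ε hε
    refine ⟨S, fun V B hB hd => ?_⟩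
    have := hS V (B.indicator 1) (fun ω ω' e => ind_lc hB ω ω' fun v hv => e v (mem_coe.2 hv)) hd
      (ind_abs B)
    simp only [ind_mul] at this
    rw [integral_indicator_one (ms hA), integral_indicator_one (ms hB),
      integral_indicator_one ((ms hA).inter (ms hB))] at this
    linarith [(abs_le.1 this).2]

end Vale.Agent.P167Q.W
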