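import Vale.Agent.P167W.WStm

open Finset Relation Filter Topology MeasureTheory
open scoped Classical BigOperators

namespace Vale.Agent.P167Q.W

open Vale.Agent.P152 (IsTest gcov Vx Site v6)
open Vale.Agent.P167 (Q.ea Q.eb Q.fx Q.f0 Q.FKm Pc.chi Pc.Loc Pc.ins Pc.loop)
open Vale.Agent.P153.RSW (Ev)

namespace WMonx

theorem cn_mono {X E : Type} {a b : E → X} {R : X → X → Prop} {ω ω' : E → Bool}
    (h : ∀ e, ω e ≤ ω' e) {x y : X} (hc : P167.Q.Cn a b R ω x y) : P167.Q.Cn a b R ω' x y := by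
  refine Relation.EqvGen.mono (fun u w huw => ?_) _ _ hc
  rcases huw with ⟨v, hv, h1⟩ | h1
  · refine Or.inl ⟨v, ?_, h1⟩
    have := h v
    rw [hv] at this
    exact top_le_iff.1 this
  · exact Or.inr h1

end WMonx

theorem v_mon (hl : P167.Q.T_lin) (hd : P167.Q.T_dom) : V_mon := by
  intro r S ξ ξ' F hr hξ hF hL
  have key := (hd _ _ _ _ r Q.ea Q.eb P167.Q.nil S ξ Q.ea Q.eb P167.Q.nil S ξ'
    id F (fun _ => 1) hr (Function.injective_id.injOn) (fun e he => he) hF
    (fun ω ω' h => hL ω ω' fun v hv => h v hv) (fun _ => zero_le_one) (fun _ _ _ => rfl)).1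
    (fun ω ω' _ h1 h2 h3 e _ hc => WMonx.cn_mono (fun v => by
      by_cases hv : v ∈ S
      · exact h3 v hv
      · rw [h1 v hv, h2 v hv]
        exact hξ v hv) hc)
  rw [(hl _ _ r Q.ea Q.eb P167.Q.nil S ξ (by linarith)).1 1, mul_one] at key
  simp only [mul_one, Function.comp_id] at key
  exact key

end Vale.Agent.P167Q.W
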