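import Vale.Agent.P167W.WStm
import Vale.Agent.P167.QQm

/-! P167W: negative association after revealing a union of clusters. -/

open Finset Relation Filter Topology MeasureTheory
open scoped Classical BigOperators

namespace Vale.Agent.P167Q.W

open Vale.Agent.P152 (IsTest gcov Vx Site v6)
open Vale.Agent.P167 (Q.ea Q.eb Q.fx Q.f0 Q.FKm Pc.chi Pc.Loc Pc.ins Pc.loop)
open Vale.Agent.P153.RSW (Ev)

namespace WNegax

theorem ends (v : Sq) : ∃ i, Q.ea v = ed v true i ∧ Q.eb v = ed v true (!i) := by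
  obtain ⟨x, y⟩ := v
  by_cases h : Even (x + y)
  · exact ⟨true, by simp [P167.Q.ea, P167.Q.eb, ed, h]⟩
  · exact ⟨false, by simp [P167.Q.ea, P167.Q.eb, ed, h]⟩

theorem even_ed (v : Sq) (i : Bool) : Even ((ed v true i).1 + (ed v true i).2) := by
  obtain ⟨x, y⟩ := v
  by_cases h : Even (x + y) <;> cases i <;> simp only [ed, h] <;> rw [Int.even_iff] at h ⊢ <;>
    simp <;> omega

theorem mem_tch {R : Finset Sq} {v : Sq} {i : Bool} (h : ed v true i ∈ R) : v ∈ tch R := by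
  refine mem_filter.2 ⟨mem_biUnion.2 ⟨_, h, ?_⟩, i, h⟩
  rw [mem_bz]
  unfold ed
  split_ifs <;> simp only [Nat.cast_one] <;> omega

theorem key (hb : Base) {R : Finset Sq} {ω ω' : Cf}
    (hR : ∀ x ∈ R, Even (x.1 + x.2) → clus ω x ⊆ R)
    (hω : ∀ v, ω v = true → v ∉ tch R → ω' v = true) {x y : Sq}
    (h : P167.Q.Cn Q.ea Q.eb P167.Q.nil ω x y) :
    (x ∈ R ↔ y ∈ R) ∧ (x ∉ R → P167.Q.Cn Q.ea Q.eb P167.Q.nil ω' x y) := by
  induction h with
  | rel x y h =>
    obtain ⟨v, hv, rfl, rfl⟩ := h.resolve_right id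
    obtain ⟨i, e1, e2⟩ := ends v
    have o : Op ω (Q.ea v) (Q.eb v) := ⟨v, i, by rw [hv, e1], by rw [hv, e2]⟩
    have a : Q.ea v ∈ R ↔ Q.eb v ∈ R :=
      ⟨fun k => hR _ k (e1 ▸ even_ed v i) (ReflTransGen.single o),
        fun k => hR _ k (e2 ▸ even_ed v (!i)) (ReflTransGen.single (hb.bas.ops _ _ _ o))⟩
    refine ⟨a, fun k => EqvGen.rel _ _ (Or.inl ⟨v, hω v hv fun t => ?_, rfl, rfl⟩)⟩
    obtain ⟨j, hj⟩ := (mem_filter.1 t).2
    by_cases c : j = i
    · rw [c, ← e1] at hj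
      exact k hj
    · rw [Bool.eq_not_of_ne c, ← e2] at hj
      exact k (a.2 hj)
  | refl x => exact ⟨Iff.rfl, fun _ => EqvGen.refl _⟩
  | symm x y _ ih => exact ⟨ih.1.symm, fun k => EqvGen.symm _ _ (ih.2 fun t => k (ih.1.1 t))⟩
  | trans x y z _ _ i1 i2 =>
    exact ⟨i1.1.trans i2.1, fun k => EqvGen.trans _ _ _ (i1.2 k) (i2.2 fun t => k (i1.1.2 t))⟩

theorem cut_mono (R : Finset Sq) : Monotone (cutR R) := fun ω ω' h v => by
  unfold cutR
  split_ifs
  · exact le_rfl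
  · exact h v

theorem cut_le (R : Finset Sq) (ω : Cf) : cutR R ω ≤ ω := fun v => by
  unfold cutR
  split_ifs
  · exact Bool.false_le _
  · exact le_rfl

end WNegax

open WNegax in
theorem v_nega (hb : Base) (hl : P167.Q.T_lin) (hd : P167.Q.T_dom) (hp : P167.Q.T_pl) :
    V_nega := by
  intro r μ hr h R F H hm lF _ hH
  obtain ⟨h1, h2, h3⟩ := hH
  have lH : Pc.Loc H := ⟨_, h1⟩
  have lF0 := lF
  obtain ⟨V, hV⟩ := lF0
  have lF' : Pc.Loc fun ω => F (cutR R ω) := ⟨V, fun ω ω' e => hV _ _ fun v hv => by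
    unfold cutR
    rw [e v hv]⟩
  have hm' : Monotone fun ω => F (cutR R ω) := hm.comp (cut_mono R)
  refine le_of_tendsto_of_tendsto (P167.Q.Qm.tend h (P167.Q.Qm.loc_mul lF' lH))
    ((P167.Q.Qm.tend h lF).mul (P167.Q.Qm.tend h lH))
    ((eventually_ge_atTop V).mono fun S hS => ?_)
  have dF : P167.Q.Dep ((S \ tch R : Finset Sq) : Set Sq) fun ω => F (cutR R ω) :=
    fun ω ω' e => hV _ _ fun v hv => by
      unfold cutR
      split_ifs with c
      · rfl
      · exact e v (mem_coe.2 (mem_sdiff.2 ⟨hS hv, c⟩))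
  have dH : P167.Q.Dep (id '' ((S \ tch R : Finset Sq) : Set Sq))ᶜ H := fun ω ω' e =>
    h1 ω ω' fun v hv => e v (by
      rw [Set.image_id]
      exact fun t => (mem_sdiff.1 (mem_coe.1 t)).2 hv)
  have a1 := (hd _ _ _ _ r Q.ea Q.eb P167.Q.nil S (fun _ => false) Q.ea Q.eb P167.Q.nil
    (S \ tch R) (fun _ => false) id _ H hr (Set.injOn_id _) (fun e he => (mem_sdiff.1 he).1)
    hm' dF h2 dH).1 (by
      intro ω ω' k1 k2 _ k4 e he c
      obtain ⟨i, e1, -⟩ := ends e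
      refine (key hb (h3 ω k1) (fun v hv t => ?_) c).2 fun t => (mem_sdiff.1 he).2 ?_
      · have hvS : v ∈ S := by
          by_contra n
          rw [k2 v n] at hv
          exact Bool.false_ne_true hv
        exact Bool.eq_true_of_true_le (hv ▸ k4 v (mem_sdiff.2 ⟨hvS, t⟩))
      · exact mem_tch (e1 ▸ t))
  obtain ⟨l1, -, -, l4, -⟩ := hl _ _ r Q.ea Q.eb P167.Q.nil S (fun _ => false) (by linarith)
  have a2 := ((hp r (S \ tch R) S _ hr sdiff_subset hm' dF).2 (fun _ => false) (fun _ => 1)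
    (fun _ => zero_le_one) fun _ _ _ => rfl).1
  have a3 : Q.fx r S (fun _ => false) (fun _ => 1) = 1 := l1 1
  have a4 : Q.fx r S (fun _ => false) (fun ω => F (cutR R ω) * 1) ≤ Q.fx r S (fun _ => false) F :=
    l4 _ _ fun ω => (mul_one _).le.trans (hm (cut_le R ω))
  have a5 : 0 ≤ Q.fx r S (fun _ => false) H := (l1 0).ge.trans (l4 _ _ h2)
  rw [a3, mul_one] at a2
  exact a1.trans (mul_le_mul_of_nonneg_right (a2.trans a4) a5)

end Vale.Agent.P167Q.W
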