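import Vale.Agent.P167W.WStm
import Vale.Agent.P167.QQi
import Vale.Agent.P167.QQm

/-! P167W: negative information from revealed clusters, with an outside observable. -/

open Finset Relation Filter Topology MeasureTheory
open scoped Classical BigOperators

namespace Vale.Agent.P167Q.W

open Vale.Agent.P152 (IsTest gcov Vx Site v6)
open Vale.Agent.P167 (Q.ea Q.eb Q.fx Q.f0 Q.FKm Pc.chi Pc.Loc Pc.ins Pc.loop)
open Vale.Agent.P153.RSW (Ev)

namespace WNegbx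

theorem ends (v : Sq) : (ed v true true = Q.ea v ∧ ed v true false = Q.eb v) ∨
    (ed v true false = Q.ea v ∧ ed v true true = Q.eb v) := by
  by_cases h : Even (v.1 + v.2)
  · left
    simp [ed, P167.Q.ea, P167.Q.eb, h, Prod.ext_iff]
  · right
    simp [ed, P167.Q.ea, P167.Q.eb, h, Prod.ext_iff]

theorem even_ends (v : Sq) :
    Even ((Q.ea v).1 + (Q.ea v).2) ∧ Even ((Q.eb v).1 + (Q.eb v).2) := by
  unfold P167.Q.ea P167.Q.eb
  split_ifs with h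
  · refine ⟨h, ?_⟩
    simp only [Prod.fst_sub, Prod.snd_sub, Int.even_iff] at h ⊢
    omega
  · simp only [Prod.fst_sub, Prod.snd_sub, Int.even_iff] at h ⊢
    omega

theorem ops {ω : Cf} {v : Sq} (h : ω v = true) :
    Op ω (Q.ea v) (Q.eb v) ∧ Op ω (Q.eb v) (Q.ea v) := by
  rcases ends v with ⟨a, b⟩ | ⟨a, b⟩
  · exact ⟨⟨v, true, by rw [h, a], by rw [h]; exact b.symm⟩,
      ⟨v, false, by rw [h, b], by rw [h]; exact a.symm⟩⟩
  · exact ⟨⟨v, false, by rw [h, a], by rw [h]; exact b.symm⟩,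
      ⟨v, true, by rw [h, b], by rw [h]; exact a.symm⟩⟩

theorem of_tch {R : Finset Sq} {v : Sq} (h : v ∈ tch R) : Q.ea v ∈ R ∨ Q.eb v ∈ R := by
  obtain ⟨i, hi⟩ := (mem_filter.1 h).2
  rcases ends v with ⟨a, b⟩ | ⟨a, b⟩ <;> cases i
  exacts [.inr (b ▸ hi), .inl (a ▸ hi), .inl (a ▸ hi), .inr (b ▸ hi)]

theorem to_tch {R : Finset Sq} {v : Sq} (h : Q.ea v ∈ R) : v ∈ tch R := by
  refine mem_filter.2 ⟨mem_biUnion.2 ⟨_, h, ?_⟩, ?_⟩
  · rw [mem_bz]
    unfold P167.Q.ea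
    split_ifs <;> simp <;> omega
  · rcases ends v with ⟨a, -⟩ | ⟨a, -⟩
    exacts [⟨true, a ▸ h⟩, ⟨false, a ▸ h⟩]

theorem key {R : Finset Sq} {ω ω' : Cf} (hR : ∀ x ∈ R, Even (x.1 + x.2) → clus ω x ⊆ R)
    (h : ∀ v, ω v = true → v ∉ tch R → ω' v = true) {x y : Sq}
    (hc : P167.Q.Cn Q.ea Q.eb P167.Q.nil ω x y) :
    (x ∈ R ↔ y ∈ R) ∧ (x ∉ R → P167.Q.Cn Q.ea Q.eb P167.Q.nil ω' x y) := by
  induction hc with
  | rel x y hxy =>
    rcases hxy with ⟨v, hv, rfl, rfl⟩ | hn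
    · have k : Q.ea v ∈ R ↔ Q.eb v ∈ R :=
        ⟨fun a => hR _ a (even_ends v).1 (ReflTransGen.single (ops hv).1),
          fun a => hR _ a (even_ends v).2 (ReflTransGen.single (ops hv).2)⟩
      exact ⟨k, fun a => EqvGen.rel _ _ (.inl ⟨v, h v hv fun t =>
        (of_tch t).elim a fun b => a (k.2 b), rfl, rfl⟩)⟩
    · exact hn.elim
  | refl x => exact ⟨Iff.rfl, fun _ => EqvGen.refl x⟩
  | symm x y _ ih => exact ⟨ih.1.symm, fun a => EqvGen.symm _ _ (ih.2 fun b => a (ih.1.1 b))⟩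
  | trans x y z _ _ ih ih' =>
    exact ⟨ih.1.trans ih'.1, fun a => EqvGen.trans _ _ _ (ih.2 a) (ih'.2 fun b => a (ih.1.2 b))⟩

theorem cn_mono {ω ω' : Cf} (h : ∀ v, ω v = true → ω' v = true) {x y : Sq}
    (hc : P167.Q.Cn Q.ea Q.eb P167.Q.nil ω x y) : P167.Q.Cn Q.ea Q.eb P167.Q.nil ω' x y := by
  refine EqvGen.mono ?_ x y hc
  rintro a b (⟨v, hv, e⟩ | hn)
  exacts [.inl ⟨v, h v hv, e⟩, hn.elim]

theorem cut_le (R : Finset Sq) (ω : Cf) : cutR R ω ≤ ω := fun v => by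
  unfold cutR
  split_ifs
  exacts [Bool.false_le _, le_rfl]

theorem cut_mono (R : Finset Sq) : Monotone (cutR R) := fun ω ω' h v => by
  unfold cutR
  split_ifs
  exacts [le_rfl, h v]

theorem up {a b : Bool} (h : a ≤ b) (ha : a = true) : b = true := by
  subst ha
  exact top_le_iff.1 h

end WNegbx

open WNegbx in
theorem v_negb (_hb : Base) (hl : P167.Q.T_lin) (hd : P167.Q.T_dom) : V_negb := by
  intro r μ hr hμ S₀ R F H G mF lF _ hH hG
  obtain ⟨⟨V, lG, dV⟩, G0⟩ := hG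
  have r0 : 0 < r := by linarith
  have mF' : Monotone fun ω => F (cutR R ω) := mF.comp (cut_mono R)
  have dF' : P167.Q.Dep ((S₀ \ tch R : Finset Sq) : Set Sq) fun ω => F (cutR R ω) := by
    intro ω ω' e
    refine lF _ _ fun v hv => ?_
    unfold cutR
    split_ifs with h
    exacts [rfl, e v (mem_coe.2 (mem_sdiff.2 ⟨hv, h⟩))]
  have HG0 : ∀ ω, 0 ≤ H ω * G ω := fun ω => mul_nonneg (hH.2.1 ω) (G0 ω)
  have dHG : P167.Q.Dep (id '' ((S₀ \ tch R : Finset Sq) : Set Sq))ᶜ fun ω => H ω * G ω := by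
    intro ω ω' e
    rw [Set.image_id] at e
    show H ω * G ω = H ω' * G ω'
    rw [hH.1 ω ω' fun v hv => e v fun t => (mem_sdiff.1 (mem_coe.1 t)).2 hv,
      lG ω ω' fun v hv => e v fun t => disjoint_left.1 dV hv (mem_sdiff.1 (mem_coe.1 t)).1]
  have lHG : Pc.Loc fun ω => H ω * G ω := P167.Q.Qm.loc_mul ⟨_, hH.1⟩ ⟨_, lG⟩
  have s2 : Q.fx r (S₀ \ tch R) (fun v => decide (v ∉ S₀)) (fun ω => F (cutR R ω)) ≤
      Q.fx r S₀ (fun _ => true) F := by
    have l := hl Sq Sq r Q.ea Q.eb P167.Q.nil S₀ (fun _ => true) r0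
    have k := (hd Sq Sq Sq Sq r Q.ea Q.eb P167.Q.nil S₀ (fun _ => true) Q.ea Q.eb P167.Q.nil
      (S₀ \ tch R) (fun v => decide (v ∉ S₀)) id (fun ω => F (cutR R ω)) (fun _ => 1) hr
      (Set.injOn_id _) (fun e he => (mem_sdiff.1 he).1) mF' dF' (fun _ => zero_le_one)
      (fun _ _ _ => rfl)).2 fun ω ω' _ h1 h2 h3 e _ hc => cn_mono (fun v hv => by
        by_cases t : v ∈ S₀ \ tch R
        · exact up (h3 v t) hv
        · rw [h2 v t] at hv
          exact h1 v (of_decide_eq_true hv)) hc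
    rw [l.1, mul_one] at k
    exact k.trans (l.2.2.2.1 _ _ fun ω => (mul_one _).le.trans (mF (cut_le R ω)))
  refine le_of_tendsto_of_tendsto
    (P167.Q.Qm.tend hμ (P167.Q.Qm.loc_mul (P167.Q.Qm.loc_of dF') lHG))
    ((P167.Q.Qm.tend hμ lHG).const_mul _) ?_
  filter_upwards [eventually_ge_atTop S₀] with S hS
  have l := hl Sq Sq r Q.ea Q.eb P167.Q.nil S (fun _ => false) r0
  have k := (hd Sq Sq Sq Sq r Q.ea Q.eb P167.Q.nil S (fun _ => false) Q.ea Q.eb P167.Q.nil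
    (S₀ \ tch R) (fun v => decide (v ∉ S₀)) id (fun ω => F (cutR R ω)) (fun ω => H ω * G ω) hr
    (Set.injOn_id _) (fun e he => hS (mem_sdiff.1 he).1) mF' dF' HG0 dHG).1
    fun ω ω' h0 _ h2 h3 e he hc => (key (hH.2.2 ω (left_ne_zero_of_mul h0)) (fun v hv t => by
      by_cases s : v ∈ S₀
      · exact up (h3 v (mem_sdiff.2 ⟨s, t⟩)) hv
      · rw [h2 v fun a => s (mem_sdiff.1 a).1]
        exact decide_eq_true s) hc).2 fun a => (mem_sdiff.1 he).2 (to_tch a)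
  refine k.trans (mul_le_mul_of_nonneg_right s2 ?_)
  exact (l.1 0).ge.trans (l.2.2.2.1 _ _ HG0)

end Vale.Agent.P167Q.W
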