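import Vale.Agent.P167W.WStm

/-! P167W: the number of loops on the torus is invariant under translations and duality. -/

open Finset Relation Filter Topology MeasureTheory
open scoped Classical BigOperators

namespace Vale.Agent.P167Q.W

namespace WNlx

open Vale.Agent.P167.Pc (Cls nx hd rf Chk)

theorem conj {E : Type} [Fintype E] (φ : E ≃ E) {g g' : E → E} (h : ∀ e, g' (φ e) = φ (g e)) :
    P167.Q.nl g' = P167.Q.nl g := by
  have s : Function.Semiconj φ g g' := fun e => (h e).symm
  have k : ∀ e e', Cls g' (φ e) (φ e') ↔ Cls g e e' := fun e e' => by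
    unfold Cls
    simp only [← fun n => (s.iterate_right n).eq, φ.injective.eq_iff]
  unfold P167.Q.nl
  symm
  refine card_bij (fun s _ => φ '' s) ?_ (fun _ _ _ _ h => Set.image_injective.2 φ.injective h) ?_
  · intro s hs
    obtain ⟨e, -, rfl⟩ := mem_image.1 hs
    refine mem_image.2 ⟨φ e, mem_univ _, ?_⟩
    ext x
    obtain ⟨y, rfl⟩ := φ.surjective x
    rw [φ.injective.mem_set_image]
    exact k e y
  · intro s hs
    obtain ⟨e, -, rfl⟩ := mem_image.1 hs
    obtain ⟨e, rfl⟩ := φ.surjective e
    refine ⟨_, mem_image.2 ⟨e, mem_univ _, rfl⟩, ?_⟩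
    ext x
    obtain ⟨y, rfl⟩ := φ.surjective x
    rw [φ.injective.mem_set_image]
    exact (k e y).symm

theorem sub {E : Type} {g g' : E → E} (q : Equivalence (Cls g)) (h : ∀ e, Cls g e (g' e))
    {e e' : E} (k : Cls g' e e') : Cls g e e' := by
  have it : ∀ n e, Cls g e (g'^[n] e) := fun n e => by
    induction n with
    | zero => exact q.refl e
    | succ n ih =>
      rw [Function.iterate_succ_apply']
      exact q.trans ih (h _)
  obtain ⟨a, b, k⟩ := k
  exact q.trans (it a e) (k ▸ q.symm (it b e'))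

theorem inv (hs : P167.Pc.S_bas) {E : Type} [Fintype E] {g g' : E → E} (h : ∀ e, g' (g e) = e) :
    P167.Q.nl g' = P167.Q.nl g := by
  have su : Function.Surjective g :=
    Finite.injective_iff_surjective.1 (Function.LeftInverse.injective h)
  obtain ⟨q, c⟩ := hs.2.1 E g
  obtain ⟨q', c'⟩ := hs.2.1 E g'
  have k : ∀ e e', Cls g' e e' ↔ Cls g e e' := fun e e' =>
    ⟨sub q fun x => by
      obtain ⟨y, rfl⟩ := su x
      rw [h]
      exact q.symm (c y), sub q' fun x => by
      have := c' (g x)
      rw [h] at this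
      exact q'.symm this⟩
  unfold P167.Q.nl
  simp only [k]

/-- translation of edges -/
def tr {G : Type} [AddGroup G] (u : G) : G × Bool ≃ G × Bool :=
  (Equiv.addRight u).prodCongr (Equiv.refl _)

theorem gen {A B : Type} [Ring A] [Ring B] {par par' : A × B → Bool} (ω : A × B → Bool)
    {u : A × B} (h : ∀ x, par (x + u) = par' x) (e : (A × B) × Bool) :
    nx par ω (tr u e) = tr u (nx par' (fun v => ω (v + u)) e) := by
  have a : rf par (tr u e) = rf par' e := by simp [rf, tr, h]
  have b : hd par (tr u e) = hd par' e + u := by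
    rw [hd, hd, a]
    split_ifs <;> simp_all [tr, add_right_comm]
  rw [nx, nx, a, b, show (tr u e).2 = e.2 from rfl]
  split_ifs <;> simp [tr, add_sub_right_comm]

theorem key {A B : Type} [Ring A] [Ring B] {par : A × B → Bool} (hp : Chk par)
    (ω : A × B → Bool) (e : (A × B) × Bool) :
    nx (fun x => !par x) (fun x => !ω x) (nx par ω e) = e := by
  have p1 := fun x => (hp x).1
  have p2 := fun x => (hp x).2
  have m1 : ∀ x, par (x - (1, 0)) = !par x := fun x => by
    have := p1 (x - (1, 0))
    rw [sub_add_cancel] at this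
    rw [this, Bool.not_not]
  have m2 : ∀ x, par (x - (0, 1)) = !par x := fun x => by
    have := p2 (x - (0, 1))
    rw [sub_add_cancel] at this
    rw [this, Bool.not_not]
  obtain ⟨x, b⟩ := e
  cases b
  · cases hx : par x
    · cases hw : ω (x + (0, 1)) <;> simp [nx, hd, rf, hx, hw, p2, m1]
    · cases hw : ω x <;> simp [nx, hd, rf, hx, hw, m1]
  · cases hx : par x
    · cases hw : ω x <;> simp [nx, hd, rf, hx, hw, m2]
    · cases hw : ω (x + (1, 0)) <;> simp [nx, hd, rf, hx, hw, p1, m2]

end WNlx

open WNlx in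
theorem v_nl (hs : P167.Pc.S_bas) : V_nl := by
  intro M L _ _ hM hL ω
  obtain ⟨c, k, -⟩ := hs.2.2.2.2.2 M L hM hL
  refine ⟨fun t ht => ?_, ?_⟩
  · have p : ∀ x, P167.Pc.pt M L (x + P167.Pc.pv M L t) = P167.Pc.pt M L x := fun ⟨a, b⟩ => by
      obtain ⟨a, rfl⟩ := ZMod.intCast_surjective a
      obtain ⟨b, rfl⟩ := ZMod.intCast_surjective b
      have e : ((a : ZMod M), (b : ZMod L)) + P167.Pc.pv M L t = P167.Pc.pv M L ((a, b) + t) := by
        simp [P167.Pc.pv]
      rw [e, k, show ((a : ZMod M), (b : ZMod L)) = P167.Pc.pv M L (a, b) from rfl, k, P167.Pc.pz,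
        P167.Pc.pz, decide_eq_decide, Prod.fst_add, Prod.snd_add, add_add_add_comm, Int.even_add]
      simp [ht]
    exact (conj (tr _) (gen ω p)).symm
  · have p : ∀ x, (fun y => !P167.Pc.pt M L y) (x + (1, 0)) = P167.Pc.pt M L x := fun x => by
      simp only [(c x).1, Bool.not_not]
    exact (conj (tr _) (gen (fun v => !ω v) p)).symm.trans (inv hs (key c ω))

end Vale.Agent.P167Q.W
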