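import Vale.Agent.P167W.WStm

/-! A numerical choice of scales. -/

open Finset Relation Filter Topology MeasureTheory
open scoped Classical BigOperators

namespace Vale.Agent.P167Q.W

namespace WNumx

theorem six (k : ℕ) : ((k : ℝ) + 6) ^ 4 ≤ 1296 * 2 ^ k := by
  induction k with
  | zero => norm_num
  | succ k ih =>
    have h : (0 : ℝ) ≤ (k : ℝ) ^ 4 + 20 * k ^ 3 + 138 * k ^ 2 + 356 * k + 191 := by positivity
    have e : ((k : ℝ) + 1 + 6) ^ 4 =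
        2 * (k + 6) ^ 4 - ((k : ℝ) ^ 4 + 20 * k ^ 3 + 138 * k ^ 2 + 356 * k + 191) := by ring
    rw [Nat.cast_succ, e, pow_succ (2 : ℝ) k]
    linarith

theorem one (k : ℕ) : ((k : ℝ) + 1) ^ 4 ≤ 1296 * 2 ^ k :=
  (pow_le_pow_left₀ (by positivity) (by linarith) 4).trans (six k)

theorem root (l : ℕ) : ((l : ℝ) + 1) ^ 2 * Real.sqrt (2 * (1 / 2) ^ l) ≤ 51 := by
  refine (le_abs_self _).trans (abs_le_of_sq_le_sq ?_ (by norm_num))
  rw [mul_pow, Real.sq_sqrt (by positivity), ← pow_mul]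
  have h1 := mul_le_mul_of_nonneg_right (one l) (show (0 : ℝ) ≤ 2 * (1 / 2) ^ l by positivity)
  have h2 : (2 : ℝ) ^ l * (1 / 2) ^ l = 1 := by rw [← mul_pow]; norm_num
  have h3 : (1296 : ℝ) * 2 ^ l * (2 * (1 / 2) ^ l) = 2592 * (2 ^ l * (1 / 2) ^ l) := by ring
  rw [h3, h2] at h1
  exact h1.trans (by norm_num)

end WNumx

theorem c_num : C_num := by
  intro g hg
  refine ⟨1296 * (2 * (g : ℝ)) ^ 2, fun k => ⟨k / (2 * g), ?_, ?_⟩⟩
  · generalize hl : k / (2 * g) = l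
    have h1 : k < 2 * g * (l + 1) := hl ▸ Nat.lt_mul_div_succ k (by omega)
    have h2 : (k : ℝ) + 1 ≤ 2 * g * (l + 1) := by exact_mod_cast h1
    have h3 := pow_le_pow_left₀ (by positivity) h2 2
    have h4 := mul_le_mul_of_nonneg_right h3 (Real.sqrt_nonneg (2 * (1 / 2) ^ l))
    have h5 := mul_le_mul_of_nonneg_left (WNumx.root l) (sq_nonneg (2 * (g : ℝ)))
    rw [mul_pow (2 * (g : ℝ)), mul_assoc] at h4
    nlinarith [sq_nonneg (2 * (g : ℝ))]
  · generalize hl : k / (2 * g) = l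
    have h1 : 2 * g * l ≤ k := hl ▸ Nat.mul_div_le k (2 * g)
    have h2 : (g ^ l) ^ 2 ≤ 2 ^ k :=
      calc (g ^ l) ^ 2 ≤ ((2 ^ g) ^ l) ^ 2 :=
            Nat.pow_le_pow_left (Nat.pow_le_pow_left Nat.lt_two_pow_self.le l) 2
        _ = 2 ^ (2 * g * l) := by rw [← pow_mul, ← pow_mul]; congr 1; ring
        _ ≤ 2 ^ k := Nat.pow_le_pow_right (by norm_num) h1
    have h3 : ((g : ℝ) ^ l) ^ 2 ≤ 2 ^ k := by exact_mod_cast h2
    have h4 := mul_le_mul h3 (WNumx.one k) (by positivity) (by positivity)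
    have h5 : (2 : ℝ) ^ k * (1296 * 2 ^ k) = 1296 * 1 * 4 ^ k := by
      rw [show (4 : ℝ) = 2 * 2 by norm_num, mul_pow]; ring
    have h6 : (2 : ℝ) ≤ g := by exact_mod_cast hg
    have h7 : (1 : ℝ) ≤ (2 * (g : ℝ)) ^ 2 := one_le_pow₀ (by linarith)
    rw [h5] at h4
    exact h4.trans (by gcongr)

end Vale.Agent.P167Q.W
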