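import Vale.Agent.P167W.WStm

open Finset Relation Filter Topology MeasureTheory
open scoped Classical BigOperators

namespace Vale.Agent.P167Q.W

namespace WOnex

theorem exp_le (z : ℝ) : Real.exp z ≤ 1 + z + z ^ 2 * Real.exp |z| := by
  have h0 := Real.exp_pos z
  have h1 : Real.exp z - 1 ≤ z * Real.exp z := by
    have a1 := mul_le_mul_of_nonneg_right (Real.add_one_le_exp (-z)) h0.le
    rw [← Real.exp_add, neg_add_cancel, Real.exp_zero] at a1
    linarith
  rcases le_total 0 z with h | h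
  · rw [abs_of_nonneg h]
    nlinarith [mul_le_mul_of_nonneg_left h1 h]
  · have a1 := Real.add_one_le_exp z
    have a2 := Real.one_le_exp (abs_nonneg z)
    nlinarith [mul_le_mul_of_nonneg_left a2 (sq_nonneg z)]

theorem pt {z x ε T : ℝ} (hx : 0 ≤ x) (hε : 0 ≤ ε) (hT : ε ≤ T) (hz : |z| ≤ ε * x) :
    Real.exp z ≤ 1 + z + ε ^ 2 * Real.exp ((T + 2) * x) := by
  have h1 : z ^ 2 ≤ ε ^ 2 * Real.exp x ^ 2 := by
    rw [← sq_abs, ← mul_pow]
    refine pow_le_pow_left₀ (abs_nonneg _) (hz.trans (mul_le_mul_of_nonneg_left ?_ hε)) 2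
    linarith [Real.add_one_le_exp x]
  have h2 : Real.exp |z| ≤ Real.exp (T * x) :=
    Real.exp_le_exp.2 (hz.trans (mul_le_mul_of_nonneg_right hT hx))
  have h3 : Real.exp ((T + 2) * x) = Real.exp x ^ 2 * Real.exp (T * x) := by
    rw [← Real.exp_nat_mul, ← Real.exp_add]
    congr 1
    push_cast
    ring
  have h4 := mul_le_mul h1 h2 (Real.exp_pos _).le (by positivity)
  have h5 := exp_le z
  rw [h3, ← mul_assoc]
  linarith

noncomputable def ph (M y : ℝ) : ℝ := (max (-M) (min y M) + M) / (2 * M)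

theorem ph_cont (M : ℝ) : Continuous (ph M) := by
  unfold ph
  fun_prop

theorem ph_mem {M : ℝ} (hM : 0 < M) (y : ℝ) : 0 ≤ ph M y ∧ ph M y ≤ 1 := by
  unfold ph
  have h1 : -M ≤ max (-M) (min y M) := le_max_left _ _
  have h2 : max (-M) (min y M) ≤ M := max_le (by linarith) (min_le_right _ _)
  constructor
  · exact div_nonneg (by linarith) (by linarith)
  · rw [div_le_one (by linarith)]
    linarith

theorem ph_err {M : ℝ} (hM : 0 < M) (y : ℝ) : M * |y - (2 * M * ph M y - M)| ≤ y ^ 2 := by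
  have h0 : 2 * M * ph M y - M = max (-M) (min y M) := by
    unfold ph
    field_simp
    ring
  rw [h0]
  rcases le_total y M with h | h
  · rw [min_eq_left h]
    rcases le_total (-M) y with h' | h'
    · rw [max_eq_right h', sub_self, abs_zero, mul_zero]
      positivity
    · rw [max_eq_left h', abs_of_nonpos (by linarith)]
      nlinarith
  · rw [min_eq_right h, max_eq_right (by linarith), abs_of_nonneg (by linarith)]
    nlinarith

theorem err {y k ε s T : ℝ} (hε : 0 < ε) (hs : 0 < s) (hT : 0 ≤ T) (hk : 0 ≤ k)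
    (hy : |y| ≤ ε * k) :
    |y - (2 * (ε / s) * ph (ε / s) y - ε / s)| ≤ ε * s * Real.exp ((T + 2) * k) := by
  have hM : 0 < ε / s := by positivity
  have h1 := ph_err hM y
  have h2 : y ^ 2 ≤ (ε * k) ^ 2 := by
    rw [← sq_abs]
    exact pow_le_pow_left₀ (abs_nonneg _) hy 2
  have h3 : k ^ 2 ≤ Real.exp ((T + 2) * k) := by
    have a1 : k ≤ Real.exp k := by linarith [Real.add_one_le_exp k]
    have a2 : k ^ 2 ≤ Real.exp k ^ 2 := pow_le_pow_left₀ hk a1 2
    rw [← Real.exp_nat_mul] at a2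
    refine a2.trans (Real.exp_le_exp.2 ?_)
    push_cast
    nlinarith
  have h4 : (ε * k) ^ 2 ≤ ε / s * (ε * s * Real.exp ((T + 2) * k)) := by
    have : ε / s * (ε * s * Real.exp ((T + 2) * k)) = ε ^ 2 * Real.exp ((T + 2) * k) := by
      field_simp
    rw [this, mul_pow]
    exact mul_le_mul_of_nonneg_left h3 (sq_nonneg _)
  exact le_of_mul_le_mul_left (h1.trans (h2.trans h4)) hM

end WOnex

open WOnex in
theorem c_one {μ : Measure Cf} {a : ℝ} (hm : Mod μ) (hx : W_bd μ a) : C_oneq μ := by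
  intro T B hT
  have := hm.prob
  refine ⟨Real.exp ((T + 2) * |B|) * |B| + 2 + 2 * |B|, by positivity, ?_⟩
  intro W K G ε δ hW hK hG hG0 hε hεT hδ hWK hK0 hB hBG hφ
  have hE : Bdm μ fun ω => Real.exp ((T + 2) * K ω) :=
    hx.cont K (fun y => Real.exp ((T + 2) * y)) hK (by fun_prop)
  have iW := hx.int W hW
  have iG := hx.int G hG
  have iE := hx.int _ hE
  have iEG := hx.int _ (hx.mul _ _ hE hG)
  have iWG := hx.int _ (hx.mul _ _ hW hG)
  have iZ : Integrable (fun ω => Real.exp (W ω - exm μ W) * G ω) μ :=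
    hx.int _ (hx.mul _ _ (hx.cont W (fun y => Real.exp (y - exm μ W)) hW (by fun_prop)) hG)
  have hg : 0 ≤ exm μ G := integral_nonneg hG0
  have hB' : ∫ ω, Real.exp ((T + 2) * K ω) ∂μ ≤ |B| := hB.trans (le_abs_self B)
  have hBG' : ∫ ω, Real.exp ((T + 2) * K ω) * G ω ∂μ ≤ |B| * exm μ G :=
    hBG.trans (mul_le_mul_of_nonneg_right (le_abs_self B) hg)
  have hs : 0 < Real.sqrt δ := Real.sqrt_pos.2 hδ
  have hss : Real.sqrt δ * Real.sqrt δ = δ := Real.mul_self_sqrt hδ.le
  set s := Real.sqrt δ with hsdef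
  have h1 : |exm μ W| ≤ ε * |B| := by
    refine (norm_integral_le_of_norm_le (f := W) (iE.const_mul ε)
      (ae_of_all _ fun ω => ?_)).trans ?_
    · refine (hWK ω).trans (mul_le_mul_of_nonneg_left ?_ hε)
      nlinarith [Real.add_one_le_exp ((T + 2) * K ω), hK0 ω, mul_nonneg hT (hK0 ω)]
    · rw [integral_const_mul]
      exact mul_le_mul_of_nonneg_left hB' hε
  have hfo : (∫ ω, W ω * G ω ∂μ) - exm μ W * exm μ G ≤ (2 + 2 * |B|) * (ε * s) * exm μ G := by
    rcases hε.eq_or_lt with h0 | h0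
    · have hW0 : ∀ ω, W ω = 0 := fun ω => by
        have := hWK ω
        rw [← h0, zero_mul] at this
        exact abs_nonpos_iff.1 this
      have e1 : exm μ W = 0 := by simp [exm, hW0]
      simp [hW0, e1, ← h0]
    · have hM : 0 < ε / s := by positivity
      have hP : Bdm μ fun ω => ph (ε / s) (W ω) := hx.cont W _ hW (ph_cont _)
      have iP := hx.int _ hP
      have iPG := hx.int _ (hx.mul _ _ hP hG)
      have hk := (abs_le.1 (hφ _ (ph_cont (ε / s)) (ph_mem hM))).2
      have a1 : ∫ ω, W ω * G ω ∂μ ≤ ∫ ω, (2 * (ε / s) * (ph (ε / s) (W ω) * G ω) -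
          ε / s * G ω + ε * s * (Real.exp ((T + 2) * K ω) * G ω)) ∂μ := by
        refine integral_mono iWG (((iPG.const_mul _).sub (iG.const_mul _)).add
          (iEG.const_mul _)) fun ω => ?_
        have b1 := (abs_le.1 (err h0 hs hT (hK0 ω) (hWK ω))).2
        have b2 := mul_le_mul_of_nonneg_right b1 (hG0 ω)
        simp only
        linarith
      have a2 : ∫ ω, (2 * (ε / s) * ph (ε / s) (W ω) - ε / s -
          ε * s * Real.exp ((T + 2) * K ω)) ∂μ ≤ ∫ ω, W ω ∂μ := by
        refine integral_mono (((iP.const_mul _).sub (integrable_const _)).sub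
          (iE.const_mul _)) iW fun ω => ?_
        have b1 := (abs_le.1 (err h0 hs hT (hK0 ω) (hWK ω))).1
        simp only
        linarith
      have j1 : Integrable (fun ω => 2 * (ε / s) * (ph (ε / s) (W ω) * G ω) - ε / s * G ω) μ :=
        (iPG.const_mul _).sub (iG.const_mul _)
      have j2 : Integrable (fun ω => 2 * (ε / s) * ph (ε / s) (W ω) - ε / s) μ :=
        (iP.const_mul _).sub (integrable_const _)
      rw [integral_add j1 (iEG.const_mul _), integral_sub (iPG.const_mul _) (iG.const_mul _),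
        integral_const_mul, integral_const_mul, integral_const_mul] at a1
      rw [integral_sub j2 (iE.const_mul _), integral_sub (iP.const_mul _) (integrable_const _),
        integral_const_mul, integral_const_mul] at a2
      simp only [integral_const, probReal_univ, one_smul] at a2
      have hes : 0 ≤ ε * s := by positivity
      have a3 := mul_le_mul_of_nonneg_left hBG' hes
      have a4 := mul_le_mul_of_nonneg_left hB' hes
      have a5 : (2 * (ε / s) * (∫ ω, ph (ε / s) (W ω) ∂μ) - ε / s - ε * s * |B|) * exm μ G ≤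
          exm μ W * exm μ G :=
        mul_le_mul_of_nonneg_right (by unfold exm; linarith) hg
      have a6 := mul_le_mul_of_nonneg_left hk (show 0 ≤ 2 * (ε / s) by positivity)
      have a7 : 2 * (ε / s) * (δ * exm μ G) = 2 * (ε * s) * exm μ G := by
        rw [← hss]
        field_simp
      rw [a7] at a6
      unfold exm at a3 a5 a6 ⊢
      linarith
  have i1 : Integrable (fun ω => G ω + W ω * G ω) μ := iG.add iWG
  have i2 : Integrable (fun ω => G ω + W ω * G ω - exm μ W * G ω) μ := i1.sub (iG.const_mul _)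
  have i3 := iEG.const_mul (ε ^ 2 * Real.exp ((T + 2) * |B|))
  have h2 : ∫ ω, Real.exp (W ω - exm μ W) * G ω ∂μ ≤ ∫ ω, (G ω + W ω * G ω - exm μ W * G ω +
      ε ^ 2 * Real.exp ((T + 2) * |B|) * (Real.exp ((T + 2) * K ω) * G ω)) ∂μ := by
    refine integral_mono iZ (i2.add i3) fun ω => ?_
    have a1 := pt (z := W ω - exm μ W) (add_nonneg (abs_nonneg B) (hK0 ω)) hε hεT
      ((abs_sub _ _).trans (by linarith [hWK ω]))
    rw [mul_add, Real.exp_add, ← mul_assoc] at a1
    have a2 := mul_le_mul_of_nonneg_right a1 (hG0 ω)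
    simp only
    linarith
  rw [integral_add i2 i3, integral_sub i1 (iG.const_mul _), integral_add iG iWG,
    integral_const_mul, integral_const_mul] at h2
  have h3 := mul_le_mul_of_nonneg_left hBG'
    (show 0 ≤ ε ^ 2 * Real.exp ((T + 2) * |B|) by positivity)
  have h4 := mul_le_mul_of_nonneg_right (Real.add_one_le_exp
    ((Real.exp ((T + 2) * |B|) * |B| + 2 + 2 * |B|) * (ε * s + ε ^ 2))) hg
  have h5 : 0 ≤ Real.exp ((T + 2) * |B|) * |B| * (ε * s) * exm μ G := by positivity
  have h6 : 0 ≤ (2 + 2 * |B|) * ε ^ 2 * exm μ G := by positivity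
  have e0 : ∫ ω, G ω ∂μ = exm μ G := rfl
  rw [e0] at h2
  show ∫ ω, Real.exp (W ω - exm μ W) * G ω ∂μ ≤ _
  linarith

end Vale.Agent.P167Q.W
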