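import Vale.Agent.P167W.WStm
import Vale.Agent.P167.PcInt

/-! P167W: polynomial decay of arms, conditionally on the outside. -/

open Finset Relation Filter Topology MeasureTheory
open scoped Classical BigOperators

namespace Vale.Agent.P167Q.W

open Vale.Agent.P152 (IsTest gcov Vx Site v6)
open Vale.Agent.P167 (Q.ea Q.eb Q.fx Q.f0 Q.FKm Pc.chi Pc.Loc Pc.ins Pc.loop)
open Vale.Agent.P153.RSW (Ev)

namespace WPolx

theorem int_lc {μ : Measure Cf} [IsFiniteMeasure μ] {W : Finset Sq} {G : Cf → ℝ} (h : Lc W G) :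
    Integrable G μ := by
  obtain ⟨h1, ⟨b, h2⟩, -⟩ := P167.Pc.s_int W G h
  exact Integrable.of_bound h1.aestronglyMeasurable b (ae_of_all _ h2)

theorem lc_ind {W : Finset Sq} {A : Set Cf} (h : Le W A) :
    Lc W fun ω => A.indicator (1 : Cf → ℝ) ω := by
  intro ω ω' hω
  have e : (ω ∈ A) = (ω' ∈ A) := h ω ω' hω
  by_cases h1 : ω ∈ A
  · have h2 : ω' ∈ A := e ▸ h1
    simp only [Set.indicator_of_mem h1, Set.indicator_of_mem h2, Pi.one_apply]
  · have h2 : ω' ∉ A := fun h2 => h1 (e ▸ h2)
    simp only [Set.indicator_of_notMem h1, Set.indicator_of_notMem h2]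

theorem lc_mul {V W : Finset Sq} {F G : Cf → ℝ} (hF : Lc V F) (hG : Lc W G) :
    Lc (V ∪ W) fun ω => F ω * G ω := by
  intro ω ω' hω
  have h1 := hF ω ω' fun i hi => hω i (mem_union_left _ hi)
  have h2 := hG ω ω' fun i hi => hω i (mem_union_right _ hi)
  simp only [h1, h2]

theorem bz_mono (z : Sq) {s t : ℕ} (h : s ≤ t) : bz z s ⊆ bz z t := by
  intro x hx
  rw [mem_bz] at hx ⊢
  omega

theorem ind01 (A : Set Cf) (ω : Cf) :
    0 ≤ A.indicator (1 : Cf → ℝ) ω ∧ A.indicator (1 : Cf → ℝ) ω ≤ 1 := by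
  by_cases h : ω ∈ A
  · simp [Set.indicator_of_mem h]
  · simp [Set.indicator_of_notMem h]

end WPolx

open WPolx in
theorem s_pol {μ : Measure Cf} (hb : Base) (hm : Mod μ) (hz : W_az) (h : S_rsw μ) : S_pol μ := by
  have _ := hb
  have := hm.prob
  obtain ⟨g1, hg1, H⟩ := h (1 / 4) (by norm_num)
  refine ⟨g1 + 2, by omega, fun k => ?_⟩
  induction k with
  | zero =>
    intro z u G _ hG
    obtain ⟨⟨V, hV, -⟩, hG0⟩ := hG
    rw [pow_zero (1 / 2 : ℝ), one_mul]
    refine integral_mono_of_nonneg (ae_of_all _ fun ω => mul_nonneg (ind01 _ ω).1 (hG0 ω))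
      (int_lc hV) (ae_of_all _ fun ω => ?_)
    exact mul_le_of_le_one_left (hG0 ω) (ind01 _ ω).2
  | succ k ih =>
    intro z u G hu hG
    have e : (g1 + 2) ^ (k + 1) * u = (g1 + 2) ^ k * ((g1 + 2) * u) := by ring
    rw [e] at hG ⊢
    have hgu : (g1 + 2) * u = g1 * u + 2 * u := by ring
    have hN : (g1 + 2) * u ≤ (g1 + 2) ^ k * ((g1 + 2) * u) :=
      Nat.le_mul_of_pos_left _ (by positivity)
    have h1 := ih z ((g1 + 2) * u) G (by omega) hG
    generalize (g1 + 2) ^ k * ((g1 + 2) * u) = N at hG hN h1 ⊢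
    obtain ⟨⟨V, hV, hVd⟩, hG0⟩ := hG
    have hl := lc_mul (lc_ind (hz.la z ((g1 + 2) * u) N (by omega) hN)) hV
    have hoff : Off (bz z (g1 * u + 1))
        fun ω => (AA z ((g1 + 2) * u) N).indicator (1 : Cf → ℝ) ω * G ω := by
      refine ⟨⟨_, hl, ?_⟩, fun ω => mul_nonneg (ind01 _ ω).1 (hG0 ω)⟩
      rw [Finset.disjoint_union_left]
      exact ⟨Finset.disjoint_of_subset_right (bz_mono z (by omega)) Finset.sdiff_disjoint,
        Finset.disjoint_of_subset_right (bz_mono z (by omega)) hVd⟩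
    have h2 := H true z u _ hu hoff
    have h3 := H false z u _ hu hoff
    have i2 : Integrable _ μ := int_lc (lc_mul (lc_ind (hz.lc true z u (g1 * u))) hl)
    have i3 : Integrable _ μ := int_lc (lc_mul (lc_ind (hz.lc false z u (g1 * u))) hl)
    have h4 : (exm μ fun ω => (AA z u N).indicator 1 ω * G ω) ≤
        (exm μ fun ω => (AZ true z u (g1 * u)).indicator 1 ω *
          ((AA z ((g1 + 2) * u) N).indicator (1 : Cf → ℝ) ω * G ω)) +
        exm μ fun ω => (AZ false z u (g1 * u)).indicator 1 ω *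
          ((AA z ((g1 + 2) * u) N).indicator (1 : Cf → ℝ) ω * G ω) := by
      unfold exm
      rw [← integral_add i2 i3]
      refine integral_mono_of_nonneg (ae_of_all _ fun ω => mul_nonneg (ind01 _ ω).1 (hG0 ω))
        (i2.add i3) (ae_of_all _ fun ω => ?_)
      have p2 := mul_nonneg (ind01 (AZ true z u (g1 * u)) ω).1 (hoff.2 ω)
      have p3 := mul_nonneg (ind01 (AZ false z u (g1 * u)) ω).1 (hoff.2 ω)
      beta_reduce at p2 p3 ⊢
      by_cases hω : ω ∈ AA z u N
      · have hω' := hω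
        rw [hz.un] at hω'
        have key : ∀ c, ω ∈ AZ c z u N → (AZ c z u (g1 * u)).indicator (1 : Cf → ℝ) ω *
            ((AA z ((g1 + 2) * u) N).indicator (1 : Cf → ℝ) ω * G ω) = G ω := by
          intro c hc
          have a1 : ω ∈ AZ c z u (g1 * u) := hz.mono c z u u N _ le_rfl (by omega) hc
          have a2 : ω ∈ AZ c z ((g1 + 2) * u) N := hz.mono c z u _ N N (by omega) le_rfl hc
          have a3 : ω ∈ AA z ((g1 + 2) * u) N := by
            rw [hz.un]
            cases c
            · exact Or.inr a2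
            · exact Or.inl a2
          rw [Set.indicator_of_mem a1, Set.indicator_of_mem a3]
          simp
        rw [Set.indicator_of_mem hω, Pi.one_apply, one_mul]
        rcases hω' with hc | hc
        · have := key true hc
          linarith
        · have := key false hc
          linarith
      · rw [Set.indicator_of_notMem hω, zero_mul]
        exact add_nonneg p2 p3
    rw [pow_succ]
    linarith

end Vale.Agent.P167Q.W
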