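import Vale.Agent.P167W.WStm

/-! P167W: deterministic facts on the exploration of large clusters. -/

open Finset Relation Filter Topology MeasureTheory
open scoped Classical BigOperators

namespace Vale.Agent.P167Q.W

open Vale.Agent.P152 (IsTest gcov Vx Site v6)
open Vale.Agent.P167 (Q.ea Q.eb Q.fx Q.f0 Q.FKm Pc.chi Pc.Loc Pc.ins Pc.loop)
open Vale.Agent.P153.RSW (Ev)

namespace WPtx

theorem ed_par (v : Sq) (b i : Bool) : Even ((ed v b i).1 + (ed v b i).2) ↔ b = true := by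
  unfold ed
  by_cases h : Even (v.1 + v.2) <;> cases b <;> cases i <;> simp [h] <;>
    simp only [Int.even_iff, Int.odd_iff] at * <;> omega

theorem ed_near (v : Sq) (b i : Bool) : v ∈ bz (ed v b i) 1 := by
  rw [mem_bz]
  unfold ed
  split_ifs <;> (try dsimp only) <;> omega

theorem par {ω : Cf} {x y : Sq} (h : y ∈ clus ω x) : Even (y.1 + y.2) ↔ Even (x.1 + x.2) := by
  induction h with
  | refl => exact Iff.rfl
  | tail _ h2 ih =>
    obtain ⟨v, i, rfl, rfl⟩ := h2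
    rw [← ih, ed_par, ed_par]

theorem mem_tch {R : Finset Sq} {v : Sq} : v ∈ tch R ↔ ∃ i, ed v true i ∈ R := by
  unfold tch
  rw [mem_filter, mem_biUnion]
  exact ⟨fun h => h.2, fun ⟨i, h⟩ => ⟨⟨_, h, ed_near v true i⟩, i, h⟩⟩

theorem dd_loc (hg : X_geo) {s : ℕ} {W R R' : Finset Sq} {y : Sq} {ω ω' : Cf}
    (h : ∀ v ∈ tch (R ∪ R'), ω v = ω' v) (hd : DD s W R y R' ω) : DD s W R y R' ω' := by
  obtain ⟨h1, h2, h3, h4, h5, h6⟩ := hd
  have key : ∀ x ∈ W, Even (x.1 + x.2) → Encodable.encode x ≤ Encodable.encode y →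
      clus ω' x = clus ω x := fun x hx he hl => (hg.loc ω ω' x fun v b i hv => by
    have hb : b = true := (ed_par v b i).1 ((par hv).2 he)
    subst hb
    exact h v (mem_tch.2 ⟨i, mem_union_right _ ((h6 _).2 ⟨x, hx, he, hl, hv⟩)⟩)).1
  refine ⟨h1, h2, h3, ?_, fun x hx he hl hr => ?_, fun v => (h6 v).trans ?_⟩
  · rwa [key y h1 h2 le_rfl]
  · rw [key x hx he hl.le]
    exact h5 x hx he hl hr
  · exact ⟨fun ⟨x, a, b, c, d⟩ => ⟨x, a, b, c, (key x a b c).symm ▸ d⟩,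
      fun ⟨x, a, b, c, d⟩ => ⟨x, a, b, c, key x a b c ▸ d⟩⟩

theorem adm (hb : Base) (hg : X_geo) (s : ℕ) (W R : Finset Sq) (y : Sq) (R' : Finset Sq)
    (H : Cf → ℝ) (hH : Adm R H) : Adm (R ∪ R') fun ω => H ω * Pc.chi (DD s W R y R' ω) := by
  refine ⟨fun ω ω' h => ?_, fun ω => mul_nonneg (hH.2.1 ω) ?_, fun ω h x hx he => ?_⟩
  · have e : DD s W R y R' ω ↔ DD s W R y R' ω' :=
      ⟨dd_loc hg h, dd_loc hg fun v hv => (h v hv).symm⟩
    show H ω * Pc.chi (DD s W R y R' ω) = H ω' * Pc.chi (DD s W R y R' ω')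
    rw [e, hH.1 ω ω' fun v hv => h v (mem_tch.2
      ((mem_tch.1 hv).imp fun _ k => mem_union_left _ k))]
  · unfold Pc.chi
    split_ifs <;> norm_num
  · have hd : DD s W R y R' ω := by
      by_contra k
      simp [Pc.chi, k] at h
    rcases mem_union.1 hx with k | k
    · exact fun v hv => mem_coe.2 (mem_union_left _
        (hH.2.2 ω (left_ne_zero_of_mul h) x k he hv))
    · obtain ⟨x₀, a, b, c, d⟩ := (hd.2.2.2.2.2 x).1 k
      exact fun v hv => mem_coe.2 (mem_union_right _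
        ((hd.2.2.2.2.2 v).2 ⟨x₀, a, b, c, hb.bas.cleq ω x₀ x d ▸ hv⟩))

theorem uni {s : ℕ} {W R R' R₂ : Finset Sq} {y y₂ : Sq} {ω : Cf} (h : DD s W R y R' ω)
    (k : DD s W R y₂ R₂ ω) : y = y₂ ∧ R' = R₂ := by
  have e : y = y₂ := by
    rcases lt_trichotomy (Encodable.encode y) (Encodable.encode y₂) with l | l | l
    · exact absurd (k.2.2.2.2.1 y h.1 h.2.1 l h.2.2.1) h.2.2.2.1
    · exact Encodable.encode_injective l
    · exact absurd (h.2.2.2.2.1 y₂ k.1 k.2.1 l k.2.2.1) k.2.2.2.1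
  subst e
  exact ⟨rfl, Finset.ext fun v => (h.2.2.2.2.2 v).trans (k.2.2.2.2.2 v).symm⟩

theorem arm {s u N : ℕ} {z y : Sq} {R R' : Finset Sq} {ω : Cf} (hs : 2 * N < s)
    (h : DD s (bz z u) R y R' ω) : ω ∈ AR R z u N := by
  refine ⟨y, h.1, h.2.1, h.2.2.1, fun k => h.2.2.2.1 fun a ha b hb => ?_⟩
  have h1 := mem_bz.1 (mem_coe.1 (k ha))
  have h2 := mem_bz.1 (mem_coe.1 (k hb))
  omega

theorem cnt (hb : Base) (s : ℕ) (i : Sq × ℕ) (I : Finset (Sq × ℕ)) (R : Finset Sq) (K : ℕ)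
    (ω : Cf) (hK : ∀ x ∈ bz i.1 i.2, clus ω x ⊆ box K) :
    kE s (insert i I) R ω ≤ kE s I R ω ∨ ∃ y ∈ bz i.1 i.2, ∃ R' ∈ (box K).powerset,
      DD s (bz i.1 i.2) R y R' ω ∧ kE s (insert i I) R ω ≤ kE s (insert i I) (R ∪ R') ω + 1 := by
  rcases ((bz i.1 i.2).filter fun y : Sq =>
    Even (y.1 + y.2) ∧ y ∉ R ∧ ¬Sml (clus ω y) s).eq_empty_or_nonempty with h | h
  · refine Or.inl (card_le_card fun C hC => ?_)
    obtain ⟨h1, h2, h3, h4⟩ := mem_filter.1 hC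
    obtain ⟨x, hx, rfl⟩ := mem_image.1 h1
    refine mem_filter.2 ⟨mem_image_of_mem _ ?_, h2, h3, h4⟩
    unfold til at hx
    rw [biUnion_insert] at hx
    refine (mem_union.1 hx).resolve_left fun k => ?_
    exact filter_eq_empty_iff.1 h k
      ⟨h2 x (hb.bas.self ω x), fun l => h4 x l (hb.bas.self ω x), h3⟩
  obtain ⟨y, hy, hm⟩ := exists_min_image _ (fun x : Sq => Encodable.encode x) h
  obtain ⟨y1, y2, y3, y4⟩ := mem_filter.1 hy
  have h5 : ∀ x ∈ bz i.1 i.2, Even (x.1 + x.2) → Encodable.encode x < Encodable.encode y →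
      x ∉ R → Sml (clus ω x) s := fun x a b c d => by
    by_contra k
    exact absurd (hm x (mem_filter.2 ⟨a, b, d, k⟩)) (not_le.2 c)
  refine Or.inr ⟨y, y1, (box K).filter fun v => ∃ x ∈ bz i.1 i.2, Even (x.1 + x.2) ∧
    Encodable.encode x ≤ Encodable.encode y ∧ v ∈ clus ω x, mem_powerset.2 (filter_subset _ _),
    ⟨y1, y2, y3, y4, h5, fun v => ?_⟩, ?_⟩
  · rw [mem_filter]
    exact ⟨fun k => k.2, fun ⟨x, a, b, c, d⟩ => ⟨hK x a d, x, a, b, c, d⟩⟩
  refine le_trans (card_le_card fun C hC => ?_) (card_insert_le (clus ω y) _)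
  obtain ⟨h1, h2, h3, h4⟩ := mem_filter.1 hC
  refine mem_insert.2 (or_iff_not_imp_left.2 fun hne => mem_filter.2 ⟨h1, h2, h3, fun v hv => ?_⟩)
  refine (mem_union.1 hv).elim (h4 v) fun k hvC => ?_
  obtain ⟨x, a, b, c, d⟩ := (mem_filter.1 k).2
  obtain ⟨x₀, -, rfl⟩ := mem_image.1 h1
  have e : clus ω x₀ = clus ω x := (hb.bas.cleq ω x₀ v hvC).symm.trans (hb.bas.cleq ω x v d)
  rcases c.lt_or_eq with l | l
  · exact h3 (e ▸ h5 x a b l fun r => h4 x r (e ▸ hb.bas.self ω x))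
  · exact hne (Encodable.encode_injective l ▸ e)

theorem kb_le (hs : X_sh) (s : ℕ) (z : Sq) (I I' : Finset (Sq × ℕ)) (ω : Cf)
    (h : bz z (3 * s) ⊆ til I) (h' : bz (z - (1, 0)) (3 * s) ⊆ til I') :
    kb s z ω ≤ kE (s / 2) I ∅ ω + kE (s / 2) I' ∅ (sh (1, 0) ω) := by
  unfold kb
  rw [← card_filter_add_card_filter_not (fun C : Set Sq => ∀ x ∈ C, Even (x.1 + x.2))]
  refine add_le_add (card_le_card fun C hC => ?_)
    (card_le_card_of_injOn (fun C : Set Sq => {y | y + (1, 0) ∈ C}) (fun C hC => ?_) ?_)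
  · obtain ⟨h1, h2⟩ := mem_filter.1 hC
    obtain ⟨h3, h4⟩ := mem_filter.1 h1
    exact mem_filter.2 ⟨image_subset_image h h3, h2, h4, fun x hx => absurd hx (notMem_empty x)⟩
  · obtain ⟨h1, h2⟩ := mem_filter.1 (mem_coe.1 hC)
    obtain ⟨h3, h4⟩ := mem_filter.1 h1
    obtain ⟨x, hx, rfl⟩ := mem_image.1 h3
    have ho : ¬Even (x.1 + x.2) := fun k => h2 fun v hv => (par hv).2 k
    refine mem_coe.2 (mem_filter.2 ⟨mem_image.2 ⟨x - (1, 0), h' ?_, ?_⟩, fun v hv => ?_,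
      fun k => h4 fun a ha b hb => ?_, fun x hx => absurd hx (notMem_empty x)⟩)
    · rw [mem_bz] at hx ⊢
      simp only [Prod.fst_sub, Prod.snd_sub]
      omega
    · ext v
      rw [hs.cl, sub_add_cancel]
      rfl
    · have k := mt (par hv).1 ho
      simp only [Prod.fst_add, Prod.snd_add, Int.even_iff] at k ⊢
      omega
    · have l := k (a - (1, 0)) (by simpa using ha) (b - (1, 0)) (by simpa using hb)
      simp only [Prod.fst_sub, Prod.snd_sub] at l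
      omega
  · intro C _ D _ e
    ext v
    have k := Set.ext_iff.1 e (v - (1, 0))
    simpa using k

end WPtx

theorem k_pt (hb : Base) (hg : X_geo) (hs : X_sh) : K_pt where
  adm := WPtx.adm hb hg
  uni := fun _ _ _ _ _ _ _ _ => WPtx.uni
  arm := fun _ _ _ _ _ _ _ _ => WPtx.arm
  cnt := fun s i I R K ω _ => WPtx.cnt hb s i I R K ω
  kb := WPtx.kb_le hs

end Vale.Agent.P167Q.W
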