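import Vale.Agent.P167W.WStm
import Vale.Agent.P167Q.HFk

/-! P167W: the finitely additive extension. -/

open Finset Relation Filter Topology MeasureTheory
open scoped Classical BigOperators

namespace Vale.Agent.P167Q.W

open Vale.Agent.P152 (IsTest gcov Vx Site v6)
open Vale.Agent.P167 (Q.ea Q.eb Q.fx Q.f0 Q.FKm Pc.chi Pc.Loc Pc.ins Pc.loop)
open Vale.Agent.P153.RSW (Ev)
open Vale.Agent.P167Q.HFkx (cut cut_mono le_cut cut_eq uf)

namespace WPux

/-- pull back to the bonds -/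
def pull (A : Set (Vx → Bool)) : Set Cf := {ω | (fun m => ω (v6 m)) ∈ A}

theorem nr_eq (μ : Measure Cf) (A : Set (Vx → Bool)) : nr μ A = μ.real (pull A) := rfl

theorem le_pb {W : Finset Vx} {A : Set (Vx → Bool)} (h : Le W A) : Le (W.image v6) (pull A) :=
  fun _ _ k => h _ _ fun i hi => k _ (mem_image_of_mem v6 hi)

theorem up_pb {A : Set (Vx → Bool)} (h : IsUpperSet A) : IsUpperSet (pull A) :=
  fun _ _ k ha => h (fun m => k (v6 m)) ha

/-- the extension -/
noncomputable def PM (μ : Measure Cf) (A : Set (Vx → Bool)) : ℝ :=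
  limUnder (uf Vx : Filter (Finset Vx)) fun W => nr μ (cut W ⁻¹' A)

theorem lim (μ : Measure Cf) [IsProbabilityMeasure μ] (A : Set (Vx → Bool)) :
    Tendsto (fun W => nr μ (cut W ⁻¹' A)) (uf Vx) (𝓝 (PM μ A)) := by
  obtain ⟨x, -, hx⟩ := (isCompact_Icc (a := (0 : ℝ)) (b := 1)).ultrafilter_le_nhds
    ((uf Vx).map fun W => nr μ (cut W ⁻¹' A))
    (le_principal_iff.2 (mem_map.2 (Eventually.of_forall fun W =>
      ⟨measureReal_nonneg, measureReal_le_one⟩)))
  exact tendsto_nhds_limUnder ⟨x, hx⟩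

end WPux

open WPux in
theorem w_pu {μ : Measure Cf} (hb : Base) (hm : Mod μ) : W_pu μ := by
  have := hm.prob
  refine ⟨PM μ, fun A => ge_of_tendsto' (lim μ A) fun W => measureReal_nonneg, ?_,
    fun A B hAB => ?_, fun A B hA hB => ?_, fun W A hA => ?_⟩
  · refine tendsto_nhds_unique (lim μ _) (tendsto_const_nhds.congr fun W => ?_)
    simp [nr]
  · refine tendsto_nhds_unique (lim μ _) (((lim μ A).add (lim μ B)).congr fun W => ?_)
    have h1 : pull (cut W ⁻¹' (A ∪ B)) = pull (cut W ⁻¹' A) ∪ pull (cut W ⁻¹' B) := rfl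
    have h2 : Disjoint (pull (cut W ⁻¹' A)) (pull (cut W ⁻¹' B)) :=
      Set.disjoint_left.2 fun ω ha hb => Set.disjoint_left.1 hAB ha hb
    rw [nr_eq, nr_eq, nr_eq, h1,
      measureReal_union h2 ((hb.loc _ (W.image v6)).2 _ (le_pb (le_cut W B))).1]
  · refine le_of_tendsto_of_tendsto' ((lim μ A).mul (lim μ B)) (lim μ _) fun W => ?_
    exact hm.fkg _ _ _ _ (le_pb (le_cut W A)) (le_pb (le_cut W B))
      (up_pb (hA.preimage (cut_mono W))) (up_pb (hB.preimage (cut_mono W)))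
  · refine tendsto_nhds_unique (lim μ _) (tendsto_const_nhds.congr' ?_)
    have k : ∀ᶠ W' in (uf Vx : Filter (Finset Vx)), W ≤ W' :=
      (Ultrafilter.of_le atTop) (eventually_ge_atTop W)
    exact k.mono fun W' hW => congrArg (nr μ) (cut_eq hA hW).symm

end Vale.Agent.P167Q.W
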