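import Vale.Agent.P167W.WStm

/-! P167W: lower bound for the mean number of loops. -/

open Finset Relation Filter Topology MeasureTheory
open scoped Classical BigOperators

namespace Vale.Agent.P167Q.W

namespace WR2x

theorem ev_p {u v : ℝ} (hu : 0 < u) (huv : u < v) :
    ∀ᶠ p in 𝓝[>] (1 : ℝ), u ^ p ≤ v ^ (1 / p) := by
  have c1 : ContinuousAt (fun p : ℝ => u ^ p) 1 := Real.continuousAt_const_rpow hu.ne'
  have c2 : ContinuousAt (fun p : ℝ => v ^ (1 / p)) 1 :=
    ContinuousAt.comp (g := fun q : ℝ => v ^ q) (f := fun p : ℝ => 1 / p)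
      (Real.continuousAt_const_rpow (hu.trans huv).ne')
      (continuousAt_const.div continuousAt_id one_ne_zero)
  have := c1.eventually_lt c2 (by simpa using huv)
  exact (this.mono fun p hp => hp.le).filter_mono nhdsWithin_le_nhds

theorem one_le {μ : Measure Cf} {a : ℝ} (h0 : R_0q μ a) {t : ℝ} (ht : 1 ≤ t) (J m : ℕ) :
    1 ≤ FFm μ t J m := by
  have := (h0.mono 1 t J m zero_le_one ht).2
  rwa [h0.one] at this

theorem low {μ : Measure Cf} {a : ℝ} (h0 : R_0q μ a) {u v p x y : ℝ} {J m : ℕ} (hu : 1 ≤ u)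
    (hp : 1 < p) (huv : u ^ p ≤ v) (hx : Real.exp x ≤ FFm μ (|u| ^ p) J m ^ (1 / p))
    (hy : FFm μ v J m ^ p ≤ Real.exp y) : x ≤ y := by
  rw [abs_of_pos (by linarith)] at hx
  have h1 : 1 ≤ u ^ p := Real.one_le_rpow hu (by linarith)
  have h2 := one_le h0 h1 J m
  have h3 : FFm μ (u ^ p) J m ^ (1 / p) ≤ FFm μ (u ^ p) J m ^ (1 : ℝ) :=
    Real.rpow_le_rpow_of_exponent_le h2 ((div_le_one (by linarith)).2 hp.le)
  rw [Real.rpow_one] at h3
  have h4 := (h0.mono _ _ J m (by linarith) huv).2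
  have h5 : FFm μ v J m ^ (1 : ℝ) ≤ FFm μ v J m ^ p :=
    Real.rpow_le_rpow_of_exponent_le (h2.trans h4) hp.le
  rw [Real.rpow_one] at h5
  exact Real.exp_le_exp.1 (hx.trans (h3.trans (h4.trans (h5.trans hy))))

end WR2x

open WR2x in
theorem r_two {μ : Measure Cf} {a : ℝ} (ha : Ang a) (h0 : R_0q μ a) (hu : I_u1q μ a)
    (hl : I_l1q μ a) : R_2q μ a := by
  intro ε hε
  obtain ⟨a0, a1⟩ := ha
  have pi0 := Real.pi_pos
  rcases a0.eq_or_lt with hz | a0
  · refine ⟨0, fun m _ => Eventually.of_forall fun J => ?_⟩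
    have h1 := h0.be J m
    have h2 : 0 ≤ ε * m := mul_nonneg hε.le (Nat.cast_nonneg m)
    have h3 : (2 * a * aq a - ε) * m = -(ε * m) := by rw [← hz]; ring
    linarith
  have q0 : 0 < aq a := by
    have := Real.log_pos (show (1 : ℝ) < 2 by norm_num)
    have : 0 < Real.pi - a := by linarith
    unfold aq
    positivity
  obtain ⟨k, k0, k1, k2⟩ : ∃ k : ℝ, 0 < k ∧ k ≤ a ∧ aq a * k ≤ ε / 2 := by
    refine ⟨min a (ε / (2 * aq a)), by positivity, min_le_left _ _, ?_⟩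
    have := mul_le_mul_of_nonneg_left (min_le_right a (ε / (2 * aq a))) q0.le
    refine this.trans_eq ?_
    field_simp
  have ca : 0 < Real.cos a := Real.cos_pos_of_mem_Ioo ⟨by linarith, by linarith⟩
  have ck : Real.cos k < 1 := by
    have := Real.cos_lt_cos_of_nonneg_of_le_pi (x := 0) (y := k) le_rfl (by linarith) k0
    rwa [Real.cos_zero] at this
  have ck2 : Real.cos a ≤ Real.cos k :=
    Real.cos_le_cos_of_nonneg_of_le_pi k0.le (by linarith) k1
  have e1 : wq a (-a) = 1 / Real.cos a := by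
    rw [wq, add_neg_cancel, Real.cos_zero]
  have e2 : wq a (-a + k) = Real.cos k / Real.cos a := by
    rw [wq, add_neg_cancel_left]
  have w1 : wq a (-a + k) < wq a (-a) := by
    rw [e1, e2]
    exact div_lt_div_of_pos_right ck ca
  have w2 : 1 ≤ wq a (-a + k) := by
    rw [e2]
    exact (one_le_div ca).2 ck2
  obtain ⟨p, p1, p3⟩ := ((ev_p (by linarith) w1).and self_mem_nhdsWithin).exists
  have p4 : 1 < p := p3
  obtain ⟨C1, hC1⟩ := hu (-a + k) p p4
  obtain ⟨C2, hC2⟩ := hl (-a) p (by rw [abs_neg, abs_of_pos a0]; linarith) p4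
  obtain ⟨m2, hm2⟩ := exists_nat_ge ((C1 + C2) / (k * ε / 2))
  rw [div_le_iff₀ (by positivity)] at hm2
  refine ⟨max 4 m2, fun m hm => ?_⟩
  have q4 : 4 ≤ m := (le_max_left _ _).trans hm
  have q2 : (m2 : ℝ) ≤ m := Nat.cast_le.2 ((le_max_right _ _).trans hm)
  have m0 : (0 : ℝ) ≤ m := Nat.cast_nonneg m
  filter_upwards [hC1 m q4, hC2 m q4] with J A1 A2
  have key := low h0 w2 p4 p1 A1 A2
  have s1 : C1 + C2 ≤ m * (k * ε / 2) :=
    hm2.trans (mul_le_mul_of_nonneg_right q2 (by positivity))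
  have s2 : k * (aq a * k * m) ≤ k * (ε / 2 * m) :=
    mul_le_mul_of_nonneg_left (mul_le_mul_of_nonneg_right k2 m0) k0.le
  refine le_of_mul_le_mul_left ?_ k0
  nlinarith

end Vale.Agent.P167Q.W
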