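import Vale.Agent.P167W.WStm

open Finset Relation Filter Topology MeasureTheory
open scoped Classical BigOperators

namespace Vale.Agent.P167Q.W

open Vale.Agent.P152 (IsTest gcov Vx Site v6)
open Vale.Agent.P167 (Q.ea Q.eb Q.fx Q.f0 Q.FKm Pc.chi Pc.Loc Pc.ins Pc.loop)
open Vale.Agent.P153.RSW (Ev)

namespace WRepx

theorem fx_congr (r : ℝ) (S : Finset Sq) (ξ : Cf) (F G : Cf → ℝ)
    (h : ∀ ω, (∀ v ∉ S, ω v = ξ v) → F ω = G ω) : Q.fx r S ξ F = Q.fx r S ξ G := by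
  unfold P167.Q.fx P167.Q.ex P167.Q.sm
  congr 1
  refine sum_congr rfl fun A _ => ?_
  show _ * F _ = _ * G _
  rw [h _ fun v hv => by simp [P167.Q.cf, hv]]

theorem op_mono (e : Sq) : Monotone (P167.Q.op e) := fun ω ω' h => by
  have k := Bool.le_iff_imp.1 (h e)
  unfold P167.Q.op
  cases e1 : ω e <;> cases e2 : ω' e <;> simp_all

theorem op_bd (e : Sq) (ω : Cf) : 0 ≤ P167.Q.op e ω ∧ P167.Q.op e ω ≤ 1 := by
  unfold P167.Q.op
  cases ω e <;> simp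

theorem upd_le {S : Finset Sq} {ξ ξ' : Cf} (h : ∀ v ∉ S, ξ v ≤ ξ' v) (e : Sq) {b b' : Bool}
    (hb : b ≤ b') : ∀ v ∉ S.erase e, Function.update ξ e b v ≤ Function.update ξ' e b' v := by
  intro v hv
  by_cases q : v = e
  · subst q
    simpa using hb
  · rw [Function.update_of_ne q, Function.update_of_ne q]
    exact h v fun k => hv (mem_erase.2 ⟨q, k⟩)

/-- the conclusion in the volume `S` -/
def Con (r : ℝ) (S₀ T S : Finset Sq) (ξ ξ' : Cf) : Prop :=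
  ∃ w : Finset Sq → ℝ, (∀ S', 0 ≤ w S') ∧ (∀ S', w S' ≠ 0 → T ⊆ S') ∧
    ∀ F : Cf → ℝ, Lc T F →
      (Q.fx r S ξ' fun ω => F ω * Pc.chi (Cut S₀ T ω)) = ∑ S' ∈ S₀.powerset, w S' * Q.f0 r S' F ∧
      ((∀ ω, 0 ≤ F ω) → ∑ S' ∈ S₀.powerset, w S' * Q.f0 r S' F ≤ Q.fx r S ξ F)

theorem step (hl : P167.Q.T_lin) (h1 : V_step) (h2 : V_mon) (r : ℝ) (hr : 1 ≤ r)
    (S₀ T S : Finset Sq) (ξ ξ' : Cf) (hξ : ∀ v ∉ S, ξ v ≤ ξ' v) (e : Sq) (he : e ∈ S)
    (c11 : Con r S₀ T (S.erase e) (Function.update ξ e true) (Function.update ξ' e true))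
    (c01 : Con r S₀ T (S.erase e) (Function.update ξ e false) (Function.update ξ' e true))
    (c00 : Con r S₀ T (S.erase e) (Function.update ξ e false) (Function.update ξ' e false)) :
    Con r S₀ T S ξ ξ' := by
  have r0 : 0 < r := by linarith
  obtain ⟨w1, a1, b1, d1⟩ := c11
  obtain ⟨w2, a2, b2, d2⟩ := c01
  obtain ⟨w3, a3, b3, d3⟩ := c00
  have pp : Q.fx r S ξ (P167.Q.op e) ≤ Q.fx r S ξ' (P167.Q.op e) :=
    h2 r S ξ ξ' _ hr hξ (op_mono e) fun ω ω' h => by unfold P167.Q.op; rw [h e he]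
  have p0 : 0 ≤ Q.fx r S ξ (P167.Q.op e) := by
    obtain ⟨l1, -, -, l4, -⟩ := hl _ _ r Q.ea Q.eb P167.Q.nil S ξ r0
    exact (l1 0).ge.trans (l4 _ _ fun ω => (op_bd e ω).1)
  have p1 : Q.fx r S ξ' (P167.Q.op e) ≤ 1 := by
    obtain ⟨l1, -, -, l4, -⟩ := hl _ _ r Q.ea Q.eb P167.Q.nil S ξ' r0
    exact (l4 _ _ fun ω => (op_bd e ω).2).trans (l1 1).le
  have s1 := fun F => h1 r S ξ e F r0 he
  have s2 := fun F => h1 r S ξ' e F r0 he
  generalize Q.fx r S ξ (P167.Q.op e) = p at pp p0 s1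
  generalize Q.fx r S ξ' (P167.Q.op e) = p' at pp p1 s2
  have q1 : 0 ≤ p' - p := sub_nonneg.2 pp
  have q2 : 0 ≤ 1 - p' := sub_nonneg.2 p1
  refine ⟨fun S' => p * w1 S' + (p' - p) * w2 S' + (1 - p') * w3 S', fun S' =>
    add_nonneg (add_nonneg (mul_nonneg p0 (a1 _)) (mul_nonneg q1 (a2 _))) (mul_nonneg q2 (a3 _)),
    fun S' hS' => ?_, fun F hF => ?_⟩
  · by_contra k
    apply hS'
    have z1 : w1 S' = 0 := by_contra fun z => k (b1 _ z)
    have z2 : w2 S' = 0 := by_contra fun z => k (b2 _ z)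
    have z3 : w3 S' = 0 := by_contra fun z => k (b3 _ z)
    simp only [z1, z2, z3, mul_zero, add_zero]
  · have es : ∑ S' ∈ S₀.powerset, (p * w1 S' + (p' - p) * w2 S' + (1 - p') * w3 S') *
        Q.f0 r S' F = p * ∑ S' ∈ S₀.powerset, w1 S' * Q.f0 r S' F +
        (p' - p) * ∑ S' ∈ S₀.powerset, w2 S' * Q.f0 r S' F +
        (1 - p') * ∑ S' ∈ S₀.powerset, w3 S' * Q.f0 r S' F := by
      rw [mul_sum, mul_sum, mul_sum, ← sum_add_distrib, ← sum_add_distrib]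
      exact sum_congr rfl fun S' _ => by ring
    obtain ⟨e1, f1⟩ := d1 F hF
    obtain ⟨e2, f2⟩ := d2 F hF
    obtain ⟨e3, f3⟩ := d3 F hF
    rw [es]
    refine ⟨?_, fun h0 => ?_⟩
    · rw [s2, ← e1, ← e2, ← e3]
      ring
    · have g1 := mul_le_mul_of_nonneg_left (f1 h0) p0
      have g2 := mul_le_mul_of_nonneg_left (f2 h0) q1
      have g3 := mul_le_mul_of_nonneg_left (f3 h0) q2
      rw [s1]
      linarith

theorem base (hl : P167.Q.T_lin) (h3 : V_base) (h4 : V_det) (r : ℝ) (hr : 1 ≤ r)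
    (S₀ T S : Finset Sq) (ξ ξ' : Cf) (hT : T ⊆ S₀) (hS : S ⊆ S₀) (hξ : ∀ v ∉ S, ξ v ≤ ξ' v)
    (hI : Inv S₀ S ξ')
    (hn : ∀ e ∈ S, ¬Jn S₀ (S₀ \ S) ξ' (Q.ea e) ∧ ¬Jn S₀ (S₀ \ S) ξ' (Q.eb e)) :
    Con r S₀ T S ξ ξ' := by
  have r0 : 0 < r := by linarith
  by_cases k : T ⊆ S
  · obtain ⟨y1, y2⟩ := h4.yes S₀ S ξ' hS hI hn
    refine ⟨fun S' => if S' = S then 1 else 0, fun S' => ite_nonneg zero_le_one le_rfl,
      fun S' h => ?_, fun F hF => ?_⟩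
    · by_cases q : S' = S
      · rw [q]; exact k
      · exact absurd (if_neg q) h
    · have hF' : Lc S F := fun ω ω' h => hF ω ω' fun i hi => h i (k hi)
      have es : ∑ S' ∈ S₀.powerset, (if S' = S then (1 : ℝ) else 0) * Q.f0 r S' F =
          Q.f0 r S F := by
        rw [sum_eq_single S (fun S' _ q => by rw [if_neg q, zero_mul])
          fun q => absurd (mem_powerset.2 hS) q, if_pos rfl, one_mul]
      rw [es]
      refine ⟨?_, fun _ => (h3 r S ξ F hF' fun v hv q =>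
        y2 v hv (Bool.le_iff_imp.1 (hξ v hv) q)).ge⟩
      rw [← h3 r S ξ' F hF' y2]
      refine fx_congr _ _ _ _ _ fun ω hω => ?_
      have c : Cut S₀ T ω := fun e he => y1 ω hω e (k he)
      simp [P167.Pc.chi, c]
  · refine ⟨fun _ => 0, fun _ => le_rfl, fun _ h => absurd rfl h, fun F _ => ?_⟩
    simp only [zero_mul, sum_const_zero]
    refine ⟨?_, fun h0 => ?_⟩
    · obtain ⟨l1, -⟩ := hl _ _ r Q.ea Q.eb P167.Q.nil S ξ' r0
      refine (fx_congr _ _ _ _ (fun _ => 0) fun ω hω => ?_).trans (l1 0)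
      simp [P167.Pc.chi, h4.no S₀ S T ξ' hS hT hI k ω hω]
    · obtain ⟨l1, -, -, l4, -⟩ := hl _ _ r Q.ea Q.eb P167.Q.nil S ξ r0
      exact (l1 0).ge.trans (l4 _ _ h0)

end WRepx

theorem v_rep (hl : P167.Q.T_lin) (h1 : V_step) (h2 : V_mon) (h3 : V_base) (h4 : V_det) :
    V_rep := by
  intro r S₀ T ξ₀ ξ₁ hr hT h0
  have gen : ∀ S : Finset Sq, S ⊆ S₀ → ∀ ξ ξ' : Cf, (∀ v ∉ S, ξ v ≤ ξ' v) → Inv S₀ S ξ' →
      WRepx.Con r S₀ T S ξ ξ' := by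
    intro S
    induction S using Finset.strongInduction with
    | H S ih =>
    intro hS ξ ξ' hξ hI
    by_cases k : ∃ e ∈ S, Jn S₀ (S₀ \ S) ξ' (Q.ea e) ∨ Jn S₀ (S₀ \ S) ξ' (Q.eb e)
    · obtain ⟨e, he, hj⟩ := k
      have t := fun (b b' : Bool) (hb : b ≤ b') => ih (S.erase e) (erase_ssubset he)
        ((erase_subset e S).trans hS) _ _ (WRepx.upd_le hξ e hb) (h4.stp S₀ S ξ' e b' hS he hI hj)
      exact WRepx.step hl h1 h2 r hr S₀ T S ξ ξ' hξ e he (t true true le_rfl)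
        (t false true (Bool.false_le _)) (t false false le_rfl)
    · exact WRepx.base hl h3 h4 r hr S₀ T S ξ ξ' hT hS hξ hI fun e he =>
        ⟨fun q => k ⟨e, he, Or.inl q⟩, fun q => k ⟨e, he, Or.inr q⟩⟩
  exact gen S₀ Subset.rfl ξ₀ ξ₁ h0 fun e he => by simp at he

end Vale.Agent.P167Q.W
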