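import Vale.Agent.P167W.WStm
import Vale.Agent.P167Q.XRing

/-! P167W: a ring of crossings glues two open arms. -/

open Finset Relation Filter Topology MeasureTheory
open scoped Classical BigOperators

namespace Vale.Agent.P167Q.W

open Vale.Agent.P152 (Vx Site v6 src tgt dir)

theorem q_ring {μ : Measure Cf} (hb : Base) (hd : X_dep) (hm : Mod μ) (hc : W_cir μ) :
    Q_ringq μ := by
  have := hm.prob
  obtain ⟨c, c0, hc⟩ := hc.1
  refine ⟨c, c0, fun a u d hu ha h6 => ?_⟩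
  have l0 : Le (box (3 * u) ×ˢ Finset.univ) (Ci u (3 * u)) := hb.ev.2.2 _ _ _ fun m hm _ => by
    simp only [P145.Rs.mem_sq, Prod.fst_zero, Prod.snd_zero, src] at hm
    simp only [Finset.mem_product, mem_box, Finset.mem_univ, and_true]
    omega
  have l1 : Le ((box (3 * u) ×ˢ Finset.univ).image v6)
      ((fun (ω : Cf) (m : Vx) => ω (v6 m)) ⁻¹' Ci u (3 * u)) := fun ω ω' k =>
    l0 _ _ fun m hm => k _ (Finset.mem_image_of_mem _ hm)
  have u1 : IsUpperSet ((fun (ω : Cf) (m : Vx) => ω (v6 m)) ⁻¹' Ci u (3 * u)) :=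
    (hb.ev.2.1 _ P145.Rs.up_cir).preimage fun ω ω' h m => h (v6 m)
  have l2 := HFkx.le_inter (HFkx.le_mono (hd.ba true a (6 * u)) Finset.subset_union_left)
    (HFkx.le_mono (hd.ba true (u - 1) d) Finset.subset_union_right)
  have f1 := hm.fkg _ _ _ _ (hd.ba true a (6 * u)) (hd.ba true (u - 1) d) (hd.up _ _) (hd.up _ _)
  have f2 := hm.fkg _ _ _ _ l1 l2 u1 ((hd.up _ _).inter (hd.up _ _))
  have f3 : c ≤ μ.real ((fun (ω : Cf) (m : Vx) => ω (v6 m)) ⁻¹' Ci u (3 * u)) := hc u hu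
  refine ((mul_le_mul f3 f1 (mul_nonneg measureReal_nonneg measureReal_nonneg)
    measureReal_nonneg).trans f2).trans (measureReal_mono fun ω h => ?_)
  exact XRingx.det hb.bas hu ha h6 h.1 h.2.1 h.2.2

end Vale.Agent.P167Q.W
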