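import Vale.Agent.P167W.WStm

/-! P167W: arms are unlikely, whatever happens far away. -/

open Finset Relation Filter Topology MeasureTheory
open scoped Classical BigOperators

namespace Vale.Agent.P167Q.W

open Vale.Agent.P152 (IsTest gcov Vx Site v6)
open Vale.Agent.P167 (Q.ea Q.eb Q.fx Q.f0 Q.FKm Pc.chi Pc.Loc Pc.ins Pc.loop)
open Vale.Agent.P153.RSW (Ev)

namespace WRswx

theorem int {μ : Measure Cf} (hb : Base) (hm : Mod μ) {V : Finset Sq} {G : Cf → ℝ} (h : Lc V G) :
    Integrable G μ := by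
  have := hm.prob
  refine Integrable.of_bound ((hb.loc Sq V).1 G h).1.aestronglyMeasurable
    (∑ η : V → Bool, |G (xt V η)|) (Eventually.of_forall fun ω => ?_)
  rw [h ω (xt V fun i => ω i) fun i hi => by simp [xt, hi]]
  exact single_le_sum (f := fun η : V → Bool => |G (xt V η)|) (fun _ _ => abs_nonneg _)
    (mem_univ _)

theorem pam_mono {μ : Measure Cf} (hm : Mod μ) (hz : W_az) (n : ℕ) {N N' : ℕ} (h : N' ≤ N) :
    pam μ n N ≤ pam μ n N' := by
  have := hm.prob
  rw [pam, pam, ← (hz.zero true n N).2, ← (hz.zero true n N').2, hz.un, hz.un]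
  exact measureReal_mono (Set.union_subset_union (hz.mono _ _ _ _ _ _ le_rfl h)
    (hz.mono _ _ _ _ _ _ le_rfl h))

end WRswx

theorem s_rsw {μ : Measure Cf} (hb : Base) (hm : Mod μ) (hz : W_az) (h1 : M_mix μ)
    (h2 : K_armq μ) : S_rsw μ := by
  intro ε hε
  obtain ⟨g, g1, hg⟩ := h2 (min (ε / 2) (1 / 2)) (by positivity)
  refine ⟨g * (g + 2), Nat.mul_pos g1 (by omega), fun c z u G hu hG => ?_⟩
  have n1 : g * (g * u + 2) ≤ g * (g + 2) * u := by
    rw [mul_assoc]
    exact Nat.mul_le_mul_left g (by nlinarith)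
  have n2 : g * u + 1 ≤ g * (g + 2) * u :=
    le_trans (by nlinarith [Nat.zero_le (g * u)]) n1
  have k1 := h1 c z u (g * u) (g * (g + 2) * u) G n2 hG
  have k2 : pam μ (g * u + 2) (g * (g + 2) * u) ≤ 1 / 2 :=
    (WRswx.pam_mono hm hz _ n1).trans ((hg _ (by omega)).trans (min_le_right _ _))
  have k3 : μ.real (AZ c z u (g * u)) ≤ ε / 2 :=
    (hz.le μ hm c z u _).trans ((hg u hu).trans (min_le_left _ _))
  obtain ⟨⟨V, hV, -⟩, G0⟩ := hG
  have i0 := WRswx.int hb hm hV
  have e0 : 0 ≤ exm μ G := integral_nonneg G0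
  have i1 : Integrable (fun ω => (AZ c z u (g * u)).indicator 1 ω * G ω) μ := by
    refine (i0.indicator ((hb.loc Sq _).2 _ (hz.lc c z u (g * u))).1).congr
      (Eventually.of_forall fun ω => ?_)
    by_cases k : ω ∈ AZ c z u (g * u) <;> simp [k]
  have p0 : ∀ N ω, 0 ≤ (AZ c z u N).indicator (1 : Cf → ℝ) ω * G ω := fun N ω =>
    mul_nonneg (Set.indicator_nonneg (fun _ _ => zero_le_one) ω) (G0 ω)
  have k4 : (exm μ fun ω => (AZ c z u (g * (g + 2) * u)).indicator 1 ω * G ω) ≤
      exm μ fun ω => (AZ c z u (g * u)).indicator 1 ω * G ω :=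
    integral_mono_of_nonneg (Eventually.of_forall (p0 _)) i1 (Eventually.of_forall fun ω =>
      mul_le_mul_of_nonneg_right (Set.indicator_le_indicator_of_subset
        (hz.mono c z u u _ _ le_rfl (by omega)) (fun _ => zero_le_one) ω) (G0 ω))
  have e1 : 0 ≤ exm μ fun ω => (AZ c z u (g * u)).indicator 1 ω * G ω := integral_nonneg (p0 _)
  have k5 := mul_le_mul_of_nonneg_right k3 e0
  have k6 := mul_le_mul_of_nonneg_right k2 e1
  linarith

end Vale.Agent.P167Q.W
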