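import Vale.Agent.P167W.WStm
import Vale.Agent.P167Q.XScl

open Finset Relation Filter Topology MeasureTheory
open scoped Classical BigOperators

namespace Vale.Agent.P167Q.W

namespace WSclx

theorem ex_ns {μ : Measure Cf} {a : ℝ} (hs : X_sh) (hm : Mod μ) (hx : W_bd μ a) (s : ℕ) (x : Sq) :
    (exm μ fun ω => ns s x ω) = enm μ s := by
  have m : AEStronglyMeasurable (fun ω => (ns s 0 ω : ℝ)) (μ.map (sh x)) := by
    rw [(hm.inv x).map_eq]
    exact (hx.ns s 0 Nat.cast).1.aestronglyMeasurable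
  have := integral_map (hm.inv x).measurable.aemeasurable m
  rw [(hm.inv x).map_eq] at this
  simp only [enm, exm, this, ← hs.ns]

theorem ex_sum {μ : Measure Cf} {a : ℝ} (hx : W_bd μ a) (W : Finset Sq) (ψ : Sq → ℝ)
    (G : Sq → Cf → ℝ) (h : ∀ x, Bdm μ (G x)) :
    (exm μ fun ω => ∑ x ∈ W, ψ x * G x ω) = ∑ x ∈ W, ψ x * exm μ (G x) := by
  unfold exm
  rw [integral_finsetSum _ fun x _ => (hx.int _ (h x)).const_mul _]
  exact sum_congr rfl fun x _ => integral_const_mul _ _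

theorem sq_sum (n : ℕ) : ∑ k ∈ range n, 1 / ((k : ℝ) + 1) ^ 2 ≤ 2 - 2 / ((n : ℝ) + 1) := by
  induction n with
  | zero => simp
  | succ n ih =>
    rw [sum_range_succ]
    have h : 1 / ((n : ℝ) + 1) ^ 2 ≤ 2 / ((n : ℝ) + 1) - 2 / ((n : ℝ) + 1 + 1) := by
      have : (0 : ℝ) ≤ n := n.cast_nonneg
      rw [div_sub_div _ _ (by positivity) (by positivity),
        div_le_div_iff₀ (by positivity) (by positivity)]
      nlinarith [mul_nonneg this this]
    push_cast
    linarith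

end WSclx

theorem c_scl {μ : Measure Cf} {a : ℝ} (hs : X_sh) (hg : X_geo) (hm : Mod μ) (hx : W_bd μ a)
    (hk : K_momq μ) (hl : C_levq μ) : C_sclq μ := by
  intro A t ht
  have pm : IsProbabilityMeasure μ := hm.prob
  obtain ⟨C1, h1⟩ := hk 1
  obtain ⟨C3, h3⟩ := hk (2 * t)
  obtain ⟨C2, h2⟩ := hl A (8 * t) (by positivity)
  have c1 : 0 ≤ C1 := le_trans (integral_nonneg fun ω => (Real.exp_pos _).le) (h1 0 0)
  refine ⟨Real.exp (t * (2 * C1)) * (1 + 1 / 2 * |C2| + 1 / 2 * C3), fun J ψ σ ha hσ => ?_⟩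
  have bn : ∀ j x, Bdm μ (nl j x) := fun j x =>
    hx.sub _ _ (hx.ns _ _ Nat.cast) (hx.ns _ _ Nat.cast)
  have bL : ∀ j, Bdm μ (LL ψ J j) := fun j =>
    hx.sum _ _ _ fun x _ => hx.mul _ _ (hx.const _) (bn j x)
  have e1 : enm μ (2 ^ J) = ∑ j ∈ range (J + 1), exm μ (LL ψ J j) := by
    have a0 : exm μ (SS ψ J) = enm μ (2 ^ J) := by
      refine (WSclx.ex_sum hx _ ψ _ fun x => hx.ns _ x Nat.cast).trans ?_
      simp only [WSclx.ex_ns hs hm hx]
      rw [← sum_mul, ha.one, one_mul]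
    rw [← a0, funext (XSclx.ss_eq ψ J)]
    exact integral_finsetSum _ fun j _ => hx.int _ (bL j)
  have e2 : ∀ j, exm μ (LL ψ J j) ≤ C1 := fun j => by
    refine (WSclx.ex_sum hx _ ψ _ (bn j)).trans_le ?_
    rw [← one_mul C1, ← ha.one, sum_mul]
    refine sum_le_sum fun x _ => mul_le_mul_of_nonneg_left (le_trans ?_ (h1 (2 ^ j) x)) (ha.nn x)
    refine integral_mono (hx.int _ (bn j x))
      (hx.int _ (hx.kb _ _ fun n => Real.exp (1 * n))) fun ω => ?_
    have := (hg.nlk j x ω x (mem_bz.2 (by generalize 2 ^ j = s; omega))).2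
    have := Real.add_one_le_exp (1 * (kb (2 ^ j) x ω : ℝ))
    linarith
  have r1 : ∑ j ∈ range (J + 1), ((1 : ℝ) / 2) ^ (J - j) ≤ 2 :=
    (sum_range_reflect (fun j => ((1 : ℝ) / 2) ^ j) (J + 1)).trans_le (sum_geometric_two_le _)
  have w1 : ∀ j ∈ range (J + 1), (4 : ℝ) ^ j / 4 ^ J ≤ (1 / 2) ^ (J - j) := fun j hj => by
    obtain ⟨k, rfl⟩ := Nat.exists_eq_add_of_le (mem_range_succ_iff.1 hj)
    rw [Nat.add_sub_cancel_left, pow_add, div_mul_cancel_left₀ (by positivity), ← inv_pow]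
    exact pow_le_pow_left₀ (by norm_num) (by norm_num) k
  have l1 : ∑ j ∈ range (J + 1), 1 / (((J - j : ℕ) : ℝ) + 1) ^ 2 / 4 ≤ 1 / 2 := by
    have a0 := (sum_range_reflect (fun k => 1 / ((k : ℝ) + 1) ^ 2) (J + 1)).trans_le
      ((WSclx.sq_sum _).trans (sub_le_self _ (by positivity)))
    simp only [Nat.add_sub_cancel] at a0
    rw [← sum_div]
    linarith
  obtain ⟨τ, hτ⟩ : ∃ τ : ℕ → ℝ, ∀ j, τ j =
      (σ + t * (4 ^ j / 4 ^ J)) / (1 / (((J - j : ℕ) : ℝ) + 1) ^ 2 / 4) :=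
    ⟨_, fun _ => rfl⟩
  have t1 : ∀ j ∈ range (J + 1), |τ j| ≤ 8 * t * (((J - j : ℕ) : ℝ) + 1) ^ 2 := fun j hj => by
    have a0 : (0 : ℝ) ≤ 4 ^ j / 4 ^ J := by positivity
    have a1 := (w1 j hj).trans (pow_le_one₀ (by norm_num) (by norm_num))
    have a2 : |σ + t * (4 ^ j / 4 ^ J)| ≤ 2 * t := by
      refine (abs_add_le _ _).trans ?_
      rw [abs_of_nonneg (mul_nonneg ht a0)]
      linarith [mul_le_of_le_one_right ht a1]
    rw [hτ, abs_div, abs_of_pos (a := 1 / (((J - j : ℕ) : ℝ) + 1) ^ 2 / 4) (by positivity),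
      div_le_iff₀ (by positivity)]
    refine a2.trans_eq ?_
    field_simp
    ring
  have bE : ∀ j, Integrable (fun ω => Real.exp (τ j * (LL ψ J j ω - exm μ (LL ψ J j)))) μ :=
    fun j => hx.int _ (hx.cont _ (fun u => Real.exp (τ j * (u - exm μ (LL ψ J j)))) (bL j)
      (by fun_prop))
  have bS := integrable_finsetSum (range (J + 1)) fun j _ =>
    (bE j).const_mul (1 / (((J - j : ℕ) : ℝ) + 1) ^ 2 / 4)
  have bK := (hx.int _ (hx.kb (2 ^ J) 0 fun n => Real.exp (2 * t * n))).const_mul (1 / 2)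
  refine (integral_mono_of_nonneg (ae_of_all _ fun ω => (Real.exp_pos _).le)
    ((((integrable_const (1 : ℝ)).add bS).add bK).const_mul (Real.exp (t * (2 * C1))))
    (ae_of_all _ fun ω => ?_)).trans ?_
  · have k := XSclx.conv (range (J + 1)) (fun j => 1 / (((J - j : ℕ) : ℝ) + 1) ^ 2 / 4)
      (fun j => (σ + t * (4 ^ j / 4 ^ J)) * (LL ψ J j ω - exm μ (LL ψ J j))) (t * kb (2 ^ J) 0 ω)
      (fun j _ => by positivity) l1
    simp only [← div_mul_eq_mul_div, ← hτ, ← mul_assoc 2 t] at k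
    refine le_trans ?_ (mul_le_mul_of_nonneg_left k (Real.exp_pos _).le)
    rw [← Real.exp_add]
    refine Real.exp_le_exp.2 ?_
    have a : ∑ j ∈ range (J + 1), 4 ^ j / 4 ^ J * exm μ (LL ψ J j) ≤ 2 * C1 := by
      refine le_trans (sum_le_sum fun j hj => ?_)
        ((sum_mul _ _ C1).symm.trans_le (mul_le_mul_of_nonneg_right r1 c1))
      exact (mul_le_mul_of_nonneg_left (e2 j) (by positivity)).trans
        (mul_le_mul_of_nonneg_right (w1 j hj) c1)
    have b : ∑ j ∈ range (J + 1), (σ + t * (4 ^ j / 4 ^ J)) * (LL ψ J j ω - exm μ (LL ψ J j)) =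
        σ * (SS ψ J ω - enm μ (2 ^ J)) +
          t * (QQ ψ J ω - ∑ j ∈ range (J + 1), 4 ^ j / 4 ^ J * exm μ (LL ψ J j)) := by
      rw [XSclx.ss_eq, e1, QQ, ← sum_sub_distrib, ← sum_sub_distrib, mul_sum, mul_sum,
        ← sum_add_distrib]
      exact sum_congr rfl fun j _ => by ring
    rw [b]
    linarith [mul_le_mul_of_nonneg_left a ht]
  · rw [integral_const_mul, integral_add' ((integrable_const _).add bS) bK,
      integral_add' (integrable_const _) bS, integral_const_mul,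
      integral_finsetSum _ fun j _ => (bE j).const_mul _]
    refine mul_le_mul_of_nonneg_left (add_le_add (add_le_add (by simp) ?_)
      (mul_le_mul_of_nonneg_left (h3 _ _) (by norm_num))) (Real.exp_pos _).le
    refine le_trans (sum_le_sum fun j hj => ?_)
      ((sum_mul _ _ |C2|).symm.trans_le (mul_le_mul_of_nonneg_right l1 (abs_nonneg _)))
    rw [integral_const_mul]
    exact mul_le_mul_of_nonneg_left
      ((h2 J j ψ _ ha (mem_range_succ_iff.1 hj) (t1 j hj)).trans (le_abs_self _)) (by positivity)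

end Vale.Agent.P167Q.W
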