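import Vale.Agent.P167W.WStm

/-! P167W: splitting a sum of local terms into classes. -/

open Finset Relation Filter Topology MeasureTheory
open scoped Classical BigOperators

namespace Vale.Agent.P167Q.W

open Vale.Agent.P152 (IsTest gcov Vx Site v6)
open Vale.Agent.P167 (Q.ea Q.eb Q.fx Q.f0 Q.FKm Pc.chi Pc.Loc Pc.ins Pc.loop)
open Vale.Agent.P153.RSW (Ev)

namespace WSplx

theorem one {μ : Measure Cf} (hm : Mod μ) (Tl : Finset Sq) (cl : Sq → Sq)
    (Wd Ud : Sq → Finset Sq) (G : Sq → Cf → ℝ) (c N : ℝ) (hL : ∀ b ∈ Tl, Lc (Wd b) (G b))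
    (hd : ∀ b ∈ Tl, ∀ b' ∈ Tl, b ≠ b' → cl b = cl b' → Disjoint (Wd b') (Ud b))
    (h1 : ∀ b ∈ Tl, ∀ H, Off (Ud b) H →
      (exm μ fun ω => Real.exp (N * G b ω) * H ω) ≤ Real.exp c * exm μ H) (r : Sq)
    (s : Finset Sq) : (∀ b ∈ s, b ∈ Tl ∧ cl b = r) →
      (exm μ fun ω => Real.exp (N * ∑ b ∈ s, G b ω)) ≤ Real.exp (c * s.card) := by
  have := hm.prob
  induction s using Finset.induction_on with
  | empty => intro _; simp [exm]
  | insert b s hb ih =>
    intro h
    have hs : ∀ b' ∈ s, b' ∈ Tl ∧ cl b' = r := fun b' hb' => h b' (mem_insert_of_mem hb')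
    have hb0 := h b (mem_insert_self _ _)
    have hoff : Off (Ud b) fun ω => Real.exp (N * ∑ b' ∈ s, G b' ω) := by
      refine ⟨⟨s.biUnion Wd, fun ω ω' hw => ?_, ?_⟩, fun ω => (Real.exp_pos _).le⟩
      · show Real.exp _ = Real.exp _
        rw [sum_congr rfl fun b' hb' => hL b' (hs b' hb').1 ω ω' fun i hi =>
          hw i (mem_biUnion.2 ⟨b', hb', hi⟩)]
      · rw [disjoint_biUnion_left]
        intro b' hb'
        exact hd b hb0.1 b' (hs b' hb').1 (fun e => hb (e ▸ hb')) (hb0.2.trans (hs b' hb').2.symm)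
    have e : (fun ω => Real.exp (N * ∑ b' ∈ insert b s, G b' ω)) =
        fun ω => Real.exp (N * G b ω) * Real.exp (N * ∑ b' ∈ s, G b' ω) := by
      funext ω
      rw [sum_insert hb, mul_add, Real.exp_add]
    rw [e]
    refine (h1 b hb0.1 _ hoff).trans ?_
    refine (mul_le_mul_of_nonneg_left (ih hs) (Real.exp_pos _).le).trans (le_of_eq ?_)
    rw [card_insert_of_notMem hb, ← Real.exp_add]
    push_cast
    ring_nf

theorem jen (R : Finset Sq) (hR : R.Nonempty) (y n : Sq → ℝ) (c : ℝ) :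
    Real.exp (∑ r ∈ R, y r) ≤ ∑ r ∈ R, (Real.exp (c * (∑ r ∈ R, n r) / R.card) *
      (1 / R.card) * Real.exp (-(c * n r))) * Real.exp (R.card * y r) := by
  have hN : (0 : ℝ) < R.card := by exact_mod_cast card_pos.2 hR
  have h := convexOn_exp.map_sum_le (t := R) (w := fun _ => 1 / (R.card : ℝ))
    (p := fun r => R.card * y r - c * n r) (fun _ _ => by positivity)
    (by rw [sum_const, nsmul_eq_mul]; field_simp) (fun _ _ => Set.mem_univ _)
  have e : ∑ r ∈ R, y r = c * (∑ r ∈ R, n r) / R.card +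
      ∑ r ∈ R, (1 / (R.card : ℝ)) • (R.card * y r - c * n r) := by
    rw [mul_sum, sum_div, ← sum_add_distrib]
    refine sum_congr rfl fun r _ => ?_
    rw [smul_eq_mul]
    field_simp
    ring
  rw [e, Real.exp_add]
  refine (mul_le_mul_of_nonneg_left h (Real.exp_pos _).le).trans (le_of_eq ?_)
  rw [mul_sum]
  refine sum_congr rfl fun r _ => ?_
  rw [smul_eq_mul, sub_eq_add_neg, Real.exp_add]
  ring

end WSplx

theorem c_spl {μ : Measure Cf} {a : ℝ} (hm : Mod μ) (hx : W_bd μ a) : C_spl μ := by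
  intro Tl R cl Wd Ud G c hR hL hcl hd h1
  have hN : (0 : ℝ) < R.card := by exact_mod_cast card_pos.2 hR
  let Y : Sq → Cf → ℝ := fun r ω => ∑ b ∈ Tl.filter (fun b => cl b = r), G b ω
  let n : Sq → ℝ := fun r => ((Tl.filter fun b => cl b = r).card : ℝ)
  have hb : ∀ b ∈ Tl, Bdm μ (G b) := fun b hb => hx.loc _ _ (hL b hb)
  have hY : ∀ r, Integrable (fun ω => Real.exp (R.card * Y r ω)) μ := fun r =>
    hx.int _ (hx.cont (Y r) (fun y => Real.exp (R.card * y))
      (hx.sum _ _ _ fun b h => hb b (mem_filter.1 h).1) (by fun_prop))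
  have hn : ∑ r ∈ R, n r = Tl.card := by
    rw [card_eq_sum_card_fiberwise (f := cl) (t := R) fun b hb => hcl b hb]
    push_cast
    rfl
  let w : Sq → ℝ := fun r => Real.exp (c * Tl.card / R.card) * (1 / R.card) * Real.exp (-(c * n r))
  have hpt : ∀ ω, Real.exp (∑ b ∈ Tl, G b ω) ≤ ∑ r ∈ R, w r * Real.exp (R.card * Y r ω) :=
    fun ω => by
      have h := WSplx.jen R hR (fun r => Y r ω) n c
      rw [hn] at h
      rw [← sum_fiberwise_of_maps_to hcl]
      exact h
  have hone : ∀ r, (∫ ω, Real.exp (R.card * Y r ω) ∂μ) ≤ Real.exp (c * n r) := fun r =>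
    WSplx.one hm Tl cl Wd Ud G c R.card hL hd h1 r _ fun b h => mem_filter.1 h
  calc (exm μ fun ω => Real.exp (∑ b ∈ Tl, G b ω))
      ≤ ∫ ω, ∑ r ∈ R, w r * Real.exp (R.card * Y r ω) ∂μ :=
        integral_mono (hx.int _ (hx.cont _ Real.exp (hx.sum _ _ _ hb) Real.continuous_exp))
          (integrable_finsetSum _ fun r _ => (hY r).const_mul _) hpt
    _ = ∑ r ∈ R, ∫ ω, w r * Real.exp (R.card * Y r ω) ∂μ :=
        integral_finsetSum _ fun r _ => (hY r).const_mul _
    _ ≤ ∑ _r ∈ R, Real.exp (c * Tl.card / R.card) * (1 / R.card) := by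
        refine sum_le_sum fun r _ => ?_
        rw [integral_const_mul]
        refine (mul_le_mul_of_nonneg_left (hone r) (by positivity)).trans (le_of_eq ?_)
        show _ * Real.exp (-(c * n r)) * _ = _
        rw [mul_assoc, ← Real.exp_add, neg_add_cancel, Real.exp_zero, mul_one]
    _ = _ := by
        rw [sum_const, nsmul_eq_mul]
        field_simp

end Vale.Agent.P167Q.W
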