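import Vale.Agent.P167W.WStm

/-! P167W: conditioning on the state of one bond. -/

open Finset Relation Filter Topology MeasureTheory
open scoped Classical BigOperators

namespace Vale.Agent.P167Q.W

open Vale.Agent.P152 (IsTest gcov Vx Site v6)
open Vale.Agent.P167 (Q.ea Q.eb Q.fx Q.f0 Q.FKm Pc.chi Pc.Loc Pc.ins Pc.loop)
open Vale.Agent.P153.RSW (Ev)

namespace WStepx

open Vale.Agent.P167.Q (cf sm op T_rat)

variable {X E : Type} [DecidableEq E]

omit [DecidableEq E] in
theorem wt_pos {r : ℝ} (hr : 0 < r) (a b : E → X) (R : X → X → Prop) (S : Finset E)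
    (ω : E → Bool) : 0 < P167.Q.wt r a b R S ω := by
  unfold P167.Q.wt
  positivity

theorem cf_ins (S : Finset E) (ξ : E → Bool) (A : Finset E) {e : E} (he : e ∈ S) :
    cf S ξ (insert e A) = Function.update (cf S ξ A) e true := by
  funext v
  by_cases h : v = e
  · subst h
    simp [cf, he]
  · simp [cf, h]

theorem cf0 (S : Finset E) (ξ : E → Bool) (A : Finset E) {e : E} (he : e ∈ S) (hA : e ∉ A) :
    cf S ξ A = cf (S.erase e) (Function.update ξ e false) A := by
  funext v
  by_cases h : v = e
  · subst h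
    simp [cf, he, hA]
  · simp [cf, h]

theorem cf1 (S : Finset E) (ξ : E → Bool) (A : Finset E) {e : E} (he : e ∈ S) :
    cf S ξ (insert e A) = cf (S.erase e) (Function.update ξ e true) A := by
  funext v
  by_cases h : v = e
  · subst h
    simp [cf, he]
  · simp [cf, h]

theorem key (hr : T_rat) {r : ℝ} (r0 : 0 < r) (a b : E → X) (R : X → X → Prop) {S T : Finset E}
    (hT : T ⊆ S) (η : E → Bool) : ∃ k : ℝ, 0 < k ∧ ∀ A ⊆ T,
      P167.Q.wt r a b R S (cf T η A) = k * P167.Q.wt r a b R T (cf T η A) := by
  refine ⟨P167.Q.wt r a b R S (cf T η ∅) / P167.Q.wt r a b R T (cf T η ∅),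
    div_pos (wt_pos r0 _ _ _ _ _) (wt_pos r0 _ _ _ _ _), fun A => ?_⟩
  induction A using Finset.induction_on with
  | empty => exact fun _ => (div_mul_cancel₀ _ (wt_pos r0 _ _ _ _ _).ne').symm
  | insert e A he ih =>
    intro hA
    have heT : e ∈ T := hA (mem_insert_self _ _)
    have h0 : cf T η A e = false := by simp [cf, heT, he]
    rw [cf_ins T η A heT, (hr X E a b R S _ e (hT heT) h0).2.2 r r0,
      (hr X E a b R T _ e heT h0).2.2 r r0, ih ((subset_insert _ _).trans hA), mul_assoc]

theorem main (hr : T_rat) {r : ℝ} (r0 : 0 < r) (a b : E → X) (R : X → X → Prop) (S : Finset E)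
    (ξ : E → Bool) {e : E} (he : e ∈ S) (F : (E → Bool) → ℝ) :
    P167.Q.ex r a b R S ξ F =
      P167.Q.ex r a b R S ξ (op e) * P167.Q.ex r a b R (S.erase e) (Function.update ξ e true) F +
      (1 - P167.Q.ex r a b R S ξ (op e)) * P167.Q.ex r a b R (S.erase e) (Function.update ξ e false) F := by
  obtain ⟨k1, hk1, h1⟩ := key hr r0 a b R (erase_subset e S) (Function.update ξ e true)
  obtain ⟨k0, hk0, h0⟩ := key hr r0 a b R (erase_subset e S) (Function.update ξ e false)
  have sp : ∀ G : (E → Bool) → ℝ, sm S ξ (fun ω => P167.Q.wt r a b R S ω * G ω) =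
      k0 * sm (S.erase e) (Function.update ξ e false) (fun ω => P167.Q.wt r a b R (S.erase e) ω * G ω) +
      k1 * sm (S.erase e) (Function.update ξ e true) (fun ω => P167.Q.wt r a b R (S.erase e) ω * G ω) := by
    intro G
    unfold sm
    have hs : S.powerset = (insert e (S.erase e)).powerset := by rw [insert_erase he]
    rw [hs, sum_powerset_insert (notMem_erase e S), mul_sum, mul_sum]
    congr 1
    · refine sum_congr rfl fun A hA => ?_
      have hA' := mem_powerset.1 hA
      rw [cf0 S ξ A he fun h => notMem_erase e S (hA' h)]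
      beta_reduce
      rw [h0 A hA', mul_assoc]
    · refine sum_congr rfl fun A hA => ?_
      rw [cf1 S ξ A he]
      beta_reduce
      rw [h1 A (mem_powerset.1 hA), mul_assoc]
  have z : ∀ η : E → Bool, 0 < sm (S.erase e) η (P167.Q.wt r a b R (S.erase e)) := fun η =>
    sum_pos (fun _ _ => wt_pos r0 a b R _ _) ⟨∅, empty_mem_powerset _⟩
  have e1 := sp fun _ => 1
  have e2 := sp (op e)
  have o0 : sm (S.erase e) (Function.update ξ e false)
      (fun ω => P167.Q.wt r a b R (S.erase e) ω * op e ω) = 0 :=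
    sum_eq_zero fun A _ => by simp [op, cf]
  have o1 : sm (S.erase e) (Function.update ξ e true)
      (fun ω => P167.Q.wt r a b R (S.erase e) ω * op e ω) =
      sm (S.erase e) (Function.update ξ e true) (P167.Q.wt r a b R (S.erase e)) :=
    sum_congr rfl fun A _ => by simp [op, cf]
  simp only [mul_one] at e1
  rw [o0, o1, mul_zero, zero_add] at e2
  have z0 := z (Function.update ξ e false)
  have z1 := z (Function.update ξ e true)
  unfold P167.Q.ex
  rw [sp F, e2, show sm S ξ (P167.Q.wt r a b R S) = _ from e1]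
  have : 0 < k0 * sm (S.erase e) (Function.update ξ e false) (P167.Q.wt r a b R (S.erase e)) +
      k1 * sm (S.erase e) (Function.update ξ e true) (P167.Q.wt r a b R (S.erase e)) := by positivity
  field_simp
  ring

end WStepx

theorem v_step (_hl : P167.Q.T_lin) (hr : P167.Q.T_rat) : V_step :=
  fun _ S ξ _ F r0 he => WStepx.main hr r0 _ _ _ S ξ he F

end Vale.Agent.P167Q.W
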