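import Vale.Agent.P167W.WStm

open Finset Relation Filter Topology MeasureTheory
open scoped Classical BigOperators

namespace Vale.Agent.P167Q.W

open Vale.Agent.P152 (IsTest gcov Vx Site v6)
open Vale.Agent.P167 (Q.ea Q.eb Q.fx Q.f0 Q.FKm Pc.chi Pc.Loc Pc.ins Pc.loop)
open Vale.Agent.P153.RSW (Ev)

namespace WStpx

theorem chi0 (p : Prop) : 0 ≤ Pc.chi p := by
  unfold P167.Pc.chi
  split_ifs <;> norm_num

theorem chi1 {p : Prop} (h : p) : Pc.chi p = 1 := if_pos h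

theorem chin {p : Prop} (h : ¬p) : Pc.chi p = 0 := if_neg h

theorem ind0 (A : Set Cf) (ω : Cf) : (0 : ℝ) ≤ A.indicator 1 ω :=
  Set.indicator_nonneg (fun _ _ => zero_le_one) ω

theorem pt1 (hp : K_pt) {G H : Cf → ℝ} {t B M : ℝ} {s K0 : ℕ} {i : Sq × ℕ} {I : Finset (Sq × ℕ)}
    {R : Finset Sq} (G0 : ∀ ω, 0 ≤ G ω) (ht : 1 ≤ t) (hA : Adm R H)
    (hB : ∀ ω, |t ^ kE s (insert i I) R ω| ≤ B) (hM : ∀ ω, |H ω * G ω| ≤ M)
    (hK : ((bz i.1 i.2 : Finset Sq) : Set Sq) ⊆ box K0) (K : ℕ) (ω : Cf) :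
    t ^ kE s (insert i I) R ω * (H ω * G ω) ≤ t ^ kE s I R ω * (H ω * G ω) +
      ∑ d ∈ bz i.1 i.2 ×ˢ (box K).powerset, t * (t ^ kE s (insert i I) (R ∪ d.2) ω *
        (H ω * Pc.chi (DD s (bz i.1 i.2) R d.1 d.2 ω) * G ω)) +
      B * M * {ω | ¬NoArm K0 K ω}.indicator 1 ω := by
  have t0 : 0 ≤ t := zero_le_one.trans ht
  have h0 := hA.2.1 ω
  have g0 := G0 ω
  have B0 : 0 ≤ B := (abs_nonneg _).trans (hB ω)
  have M0 : 0 ≤ M := (abs_nonneg _).trans (hM ω)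
  have n1 : 0 ≤ t ^ kE s I R ω * (H ω * G ω) := by positivity
  have n2 : ∀ d ∈ bz i.1 i.2 ×ˢ (box K).powerset, 0 ≤ t * (t ^ kE s (insert i I) (R ∪ d.2) ω *
      (H ω * Pc.chi (DD s (bz i.1 i.2) R d.1 d.2 ω) * G ω)) := fun d _ => by
    have := chi0 (DD s (bz i.1 i.2) R d.1 d.2 ω)
    positivity
  have n2' := sum_nonneg n2
  have n3 : 0 ≤ B * M * {ω | ¬NoArm K0 K ω}.indicator 1 ω := mul_nonneg (by positivity) (ind0 _ _)
  by_cases hH : H ω = 0
  · rw [show t ^ kE s (insert i I) R ω * (H ω * G ω) = 0 by rw [hH, zero_mul, mul_zero]]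
    linarith
  by_cases hN : NoArm K0 K ω
  · rcases hp.cnt s i I R K ω (hA.2.2 ω hH) (fun x hx => hN x (hK hx)) with h | h
    · have := mul_le_mul_of_nonneg_right (pow_le_pow_right₀ ht h) (mul_nonneg h0 g0)
      linarith
    · obtain ⟨y, hy, R', hR', hD, h⟩ := h
      have e1 := single_le_sum n2 (mem_product.2 ⟨hy, hR'⟩ : (y, R') ∈ _)
      have e2 := mul_le_mul_of_nonneg_right (pow_le_pow_right₀ ht h) (mul_nonneg h0 g0)
      simp only [chi1 hD, mul_one] at e1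
      rw [pow_succ', mul_assoc] at e2
      linarith
  · have e1 : t ^ kE s (insert i I) R ω * (H ω * G ω) ≤ B * M :=
      mul_le_mul ((le_abs_self _).trans (hB ω)) ((le_abs_self _).trans (hM ω))
        (mul_nonneg h0 g0) B0
    rw [Set.indicator_of_mem (show ω ∈ {ω | ¬NoArm K0 K ω} from hN), Pi.one_apply, mul_one]
    linarith

theorem pt2 (hp : K_pt) {G H : Cf → ℝ} {s N : ℕ} {z : Sq} {u : ℕ} {R : Finset Sq}
    (G0 : ∀ ω, 0 ≤ G ω) (H0 : ∀ ω, 0 ≤ H ω) (hs : 2 * N < s) (D : Finset (Sq × Finset Sq))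
    (ω : Cf) : ∑ d ∈ D, H ω * Pc.chi (DD s (bz z u) R d.1 d.2 ω) * G ω ≤
      (AR R z u N).indicator 1 ω * (H ω * G ω) := by
  by_cases h : ∃ d ∈ D, DD s (bz z u) R d.1 d.2 ω
  · obtain ⟨d, hd, hD⟩ := h
    rw [sum_eq_single_of_mem d hd, chi1 hD, mul_one,
      Set.indicator_of_mem (hp.arm s z u N R d.1 d.2 ω hs hD), Pi.one_apply, one_mul]
    intro e _ hne
    rw [chin fun h' => hne (Prod.ext_iff.2 (hp.uni s _ R _ _ _ _ ω h' hD)), mul_zero, zero_mul]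
  · rw [sum_eq_zero fun d hd => by rw [chin fun h' => h ⟨d, hd, h'⟩, mul_zero, zero_mul]]
    exact mul_nonneg (ind0 _ _) (mul_nonneg (H0 ω) (G0 ω))

end WStpx

open WStpx in
theorem k_stp {μ : Measure Cf} {a : ℝ} (hb : Base) (hm : Mod μ) (hd : X_dep) (hz : W_az)
    (hx : W_bd μ a) (hl : W_lim μ) (hp : K_pt) : K_stp μ := by
  intro G t ε x₁ x s N i I hG G0 ht hx0 hs hB hK1 hK2 R H hA
  have := hm.prob
  have t0 : 0 ≤ t := zero_le_one.trans ht
  have bHG : Bdm μ fun ω => H ω * G ω := hx.mul _ _ (hx.loc _ _ hA.1) hG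
  obtain ⟨M, hM⟩ := bHG.2
  obtain ⟨B, hB'⟩ := (hx.kE s (insert i I) R fun k => t ^ k).2
  obtain ⟨K0, hK0⟩ := hb.bas.fin _ (bz i.1 i.2).finite_toSet
  have main : ∀ K, (exm μ fun ω => t ^ kE s (insert i I) R ω * (H ω * G ω)) ≤
      (x₁ + t * ε * x) * (exm μ fun ω => H ω * G ω) + B * M * pam μ K0 K := by
    intro K
    have ad := fun d : Sq × Finset Sq => hp.adm s (bz i.1 i.2) R d.1 d.2 H hA
    have bd : ∀ d : Sq × Finset Sq,
        Bdm μ fun ω => H ω * Pc.chi (DD s (bz i.1 i.2) R d.1 d.2 ω) * G ω :=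
      fun d => hx.mul _ _ (hx.loc _ _ (ad d).1) hG
    have i0 := hx.int _ (hx.mul _ _ (hx.kE s (insert i I) R fun k => t ^ k) bHG)
    have i1 := hx.int _ (hx.mul _ _ (hx.kE s I R fun k => t ^ k) bHG)
    have i2 : ∀ d ∈ bz i.1 i.2 ×ˢ (box K).powerset, Integrable (fun ω =>
        t * (t ^ kE s (insert i I) (R ∪ d.2) ω *
          (H ω * Pc.chi (DD s (bz i.1 i.2) R d.1 d.2 ω) * G ω))) μ := fun d _ =>
      (hx.int _ (hx.mul _ _ (hx.kE s (insert i I) (R ∪ d.2) fun k => t ^ k) (bd d))).const_mul t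
    have m3 : MeasurableSet {ω | ¬NoArm K0 K ω} := ((hb.loc _ _).2 _ (hd.arm0 K0 K)).1
    have i3 := (hx.int _ (hx.ind _ m3)).const_mul (B * M)
    have i2' := integrable_finsetSum _ i2
    have i12 := i1.add i2'
    have s1 := integral_mono i0 (i12.add i3) (pt1 hp G0 ht hA hB' hM hK0 K)
    rw [integral_add' i12 i3, integral_add' i1 i2', integral_finsetSum _ i2, integral_const_mul,
      integral_indicator_one m3] at s1
    have s2 : ∑ d ∈ bz i.1 i.2 ×ˢ (box K).powerset, ∫ ω, t * (t ^ kE s (insert i I) (R ∪ d.2) ω *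
          (H ω * Pc.chi (DD s (bz i.1 i.2) R d.1 d.2 ω) * G ω)) ∂μ ≤
        ∑ d ∈ bz i.1 i.2 ×ˢ (box K).powerset,
          t * x * ∫ ω, H ω * Pc.chi (DD s (bz i.1 i.2) R d.1 d.2 ω) * G ω ∂μ :=
      sum_le_sum fun d _ => by
        rw [integral_const_mul, mul_assoc]
        exact mul_le_mul_of_nonneg_left (hK2 _ _ (ad d)) t0
    rw [← mul_sum, ← integral_finsetSum _ fun d _ => hx.int _ (bd d)] at s2
    have m4 : MeasurableSet (AR R i.1 i.2 N) := ((hb.loc _ _).2 _ (hz.lr R i.1 i.2 N)).1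
    have s3 := integral_mono (integrable_finsetSum _ fun d _ => hx.int _ (bd d))
      (hx.int _ (hx.mul _ _ (hx.ind _ m4) bHG))
      (pt2 hp G0 hA.2.1 hs (bz i.1 i.2 ×ˢ (box K).powerset))
    have s4 := mul_le_mul_of_nonneg_left (s3.trans (hB R H hA)) (mul_nonneg t0 hx0)
    have s5 := hK1 R H hA
    unfold exm at s4 s5 ⊢
    unfold pam
    linarith
  have lim := ((hl K0).const_mul (B * M)).const_add
    ((x₁ + t * ε * x) * exm μ fun ω => H ω * G ω)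
  rw [mul_zero, add_zero] at lim
  exact ge_of_tendsto' lim main

end Vale.Agent.P167Q.W
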