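import Vale.Agent.P167W.WStm

/-! P167W: polynomial decoupling in total variation. -/

open Finset Relation Filter Topology MeasureTheory
open scoped Classical BigOperators

namespace Vale.Agent.P167Q.W

namespace WStvx

theorem intg {μ : Measure Cf} (hb : Base) (hm : Mod μ) {V : Finset Sq} {G : Cf → ℝ} (h : Lc V G) :
    Integrable G μ := by
  have := hm.prob
  obtain ⟨M, hM⟩ := Finite.exists_le fun η : V → Bool => |G (xt V η)|
  refine Integrable.of_bound ((hb.loc _ V).1 G h).1.aestronglyMeasurable M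
    (Eventually.of_forall fun ω => ?_)
  rw [h ω (xt V fun i => ω i) fun i hi => by simp [xt, hi]]
  exact hM _

theorem le {μ : Measure Cf} (hb : Base) (hm : Mod μ) (hz : W_az) (z : Sq) (u N : ℕ) {W : Finset Sq}
    {G : Cf → ℝ} (hG : Off W G) : (exm μ fun ω => (AZ true z u N).indicator 1 ω * G ω) ≤
      exm μ fun ω => (AA z u N).indicator 1 ω * G ω := by
  obtain ⟨⟨V, hV, -⟩, h0⟩ := hG
  have m : MeasurableSet (AA z u N) := by
    rw [hz.un]
    exact ((hb.loc _ _).2 _ (hz.lc true z u N)).1.union ((hb.loc _ _).2 _ (hz.lc false z u N)).1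
  refine integral_mono_of_nonneg (Eventually.of_forall fun ω =>
    mul_nonneg (Set.indicator_nonneg (fun _ _ => zero_le_one) ω) (h0 ω)) ?_
    (Eventually.of_forall fun ω => mul_le_mul_of_nonneg_right
      (Set.indicator_le_indicator_of_subset (hz.un z u N ▸ Set.subset_union_left)
        (fun _ => zero_le_one) ω) (h0 ω))
  refine ((intg hb hm hV).indicator m).congr (Eventually.of_forall fun ω => ?_)
  by_cases h : ω ∈ AA z u N <;> simp [h]

end WStvx

open WStvx

theorem s_tv {μ : Measure Cf} (hb : Base) (hm : Mod μ) (hz : W_az) (h1 : M_tv μ) (h2 : S_pol μ) :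
    S_tv μ := by
  have := hm.prob
  obtain ⟨g, hg, h2⟩ := h2
  refine ⟨g, hg, fun k z n F G hF hL hG => ?_⟩
  have hn : n ≤ g ^ k * (n + 1) :=
    (Nat.le_succ n).trans (Nat.le_mul_of_pos_left _ (Nat.pow_pos (by omega)))
  have a1 := h1 z n _ F G hn hF hL hG
  have a2 := (le hb hm hz z (n + 1) _ hG).trans (h2 k z (n + 1) G (by omega) hG)
  have o1 : Off (bz z (g ^ k * (n + 1) + 1)) fun _ => (1 : ℝ) :=
    ⟨⟨∅, fun _ _ _ => rfl, disjoint_empty_left _⟩, fun _ => zero_le_one⟩
  have a3 := (le hb hm hz z (n + 1) _ o1).trans (h2 k z (n + 1) _ (by omega) o1)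
  simp only [exm, mul_one, integral_indicator_one ((hb.loc _ _).2 _ (hz.lc true z _ _)).1,
    integral_const, probReal_univ, smul_eq_mul] at a3
  have a4 : 0 ≤ exm μ G := integral_nonneg hG.2
  have a5 := mul_le_mul_of_nonneg_right a3 a4
  linarith

end Vale.Agent.P167Q.W
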