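import Vale.Agent.P167W.WStm
import Vale.Agent.P167Q.XSub

/-! P167W: monotonicity and submultiplicativity of the arm events. -/

open Finset Relation Filter Topology MeasureTheory
open scoped Classical BigOperators

namespace Vale.Agent.P167Q.W

open Vale.Agent.P152 (IsTest gcov Vx Site v6)
open Vale.Agent.P167 (Q.ea Q.eb Q.fx Q.f0 Q.FKm Pc.chi Pc.Loc Pc.ins Pc.loop)
open Vale.Agent.P153.RSW (Ev)

namespace WSubx

open XSubx

theorem ma {μ : Measure Cf} (hb : Base) (hm : Mod μ) (a a' b b' : ℕ) (h1 : a ≤ a') (h2 : b' ≤ b) :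
    pam μ a b ≤ pam μ a' b' := by
  have := hm.prob
  exact measureReal_mono fun ω h => arm_mono hb h1 h2 h

theorem one {μ : Measure Cf} (hb : Base) (hm : Mod μ) (hz : W_az) (h1 : M_mix μ) (c : Bool)
    (a b N d : ℕ) (hN : b + 1 ≤ N) (hd : N + 2 ≤ d) (hp : pam μ (b + 2) N ≤ 1 / 2) :
    μ.real (AZ c 0 a b ∩ AA 0 (N + 2) d) ≤ 2 * (pam μ a b * pam μ (N + 2) d) := by
  have := hm.prob
  have la := hz.la 0 (N + 2) d (by omega) hd
  have mA : MeasurableSet (AA 0 (N + 2) d) := ((hb.loc Sq _).2 _ la).1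
  have mZ : MeasurableSet (AZ c 0 a b) := ((hb.loc Sq _).2 _ (hz.lc c 0 a b)).1
  have ho : Off (bz 0 (N + 1)) ((AA 0 (N + 2) d).indicator 1) := by
    refine ⟨⟨_, fun ω ω' e => ?_, (sdiff_disjoint : Disjoint (bz 0 (d + 1) \ bz 0 (N + 1)) _)⟩,
      fun ω => Set.indicator_nonneg (fun _ _ => zero_le_one) ω⟩
    have k : (ω ∈ AA 0 (N + 2) d) = (ω' ∈ AA 0 (N + 2) d) := la ω ω' e
    simp only [Set.indicator, k, Pi.one_apply]
  have h := h1 c 0 a b N _ hN ho
  have e1 : (exm μ fun ω => (AZ c 0 a b).indicator 1 ω * (AA 0 (N + 2) d).indicator 1 ω) =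
      μ.real (AZ c 0 a b ∩ AA 0 (N + 2) d) := by
    rw [← integral_indicator_one (mZ.inter mA), Set.inter_indicator_one]
    rfl
  have e2 : exm μ ((AA 0 (N + 2) d).indicator 1) = pam μ (N + 2) d := by
    unfold exm pam
    rw [← (hz.zero true (N + 2) d).2]
    exact integral_indicator_one mA
  rw [e1, e2] at h
  have p1 : 0 ≤ μ.real (AZ c 0 a b ∩ AA 0 (N + 2) d) := measureReal_nonneg
  have p2 : 0 ≤ pam μ (N + 2) d := measureReal_nonneg
  have p3 := mul_le_mul_of_nonneg_right (hz.le μ hm c 0 a b) p2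
  nlinarith [mul_le_mul_of_nonneg_right hp p1]

end WSubx

open XSubx WSubx in
theorem q_sub {μ : Measure Cf} (hb : Base) (hm : Mod μ) (hz : W_az) (h1 : M_mix μ)
    (h2 : K_armq μ) : Q_subq μ := by
  have := hm.prob
  refine ⟨ma hb hm, fun c a a' b b' h1 h2 => ?_, ?_⟩
  · refine measureReal_mono fun ω h => ?_
    obtain ⟨x, hx, e, k⟩ := h
    exact ⟨x, hb.bas.mono a a' h1 hx, e,
      fun k' => k (k'.trans (coe_subset.2 (hb.bas.mono b' b h2)))⟩
  obtain ⟨g, g1, hg⟩ := h2 (1 / 2) (by norm_num)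
  refine ⟨g + 2, by omega, fun a b a' d k1 k2 => ?_⟩
  have k3 : b + 2 ≤ g * (b + 2) := Nat.le_mul_of_pos_left _ g1
  rw [add_mul] at k1
  obtain ⟨N, rfl⟩ : ∃ N, a' = N + 2 := ⟨a' - 2, by omega⟩
  have hp : pam μ (b + 2) N ≤ 1 / 2 :=
    (ma hb hm _ _ _ _ le_rfl (by omega)).trans (hg (b + 2) (by omega))
  have key : μ.real ({ω | ¬NoArm a b ω} ∩ {ω | ¬NoArm (N + 2) d ω}) ≤
      4 * (pam μ a b * pam μ (N + 2) d) := by
    rw [← (hz.zero true a b).2, ← (hz.zero true (N + 2) d).2, hz.un 0 a b,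
      Set.union_inter_distrib_right]
    have t1 := one hb hm hz h1 true a b N d (by omega) k2 hp
    have t2 := one hb hm hz h1 false a b N d (by omega) k2 hp
    refine (measureReal_union_le _ _).trans ?_
    linarith
  refine ⟨key, fun h => le_trans ?_ key⟩
  exact measureReal_mono fun ω h' =>
    ⟨arm_mono hb le_rfl (by omega) h', arm_mono hb (by omega) le_rfl h'⟩

end Vale.Agent.P167Q.W
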