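import Vale.Agent.P167W.WStm
import Vale.Agent.P167.QQm

/-! The wired boundary condition is a limit of conditional measures. -/

open Finset Relation Filter Topology MeasureTheory
open scoped Classical BigOperators

namespace Vale.Agent.P167Q.W

open Vale.Agent.P152 (IsTest gcov Vx Site v6)
open Vale.Agent.P167 (Q.ea Q.eb Q.fx Q.f0 Q.FKm Pc.chi Pc.Loc Pc.ins Pc.loop)
open Vale.Agent.P153.RSW (Ev)

namespace WSupx

theorem wit0 (ω : Cf) (x y : Sq) (h : P167.Q.Cn Q.ea Q.eb P167.Q.nil ω x y) :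
    ∃ D : Finset Sq, (∀ v ∈ D, ω v = true) ∧
      ∀ ω' : Cf, (∀ v ∈ D, ω' v = true) → P167.Q.Cn Q.ea Q.eb P167.Q.nil ω' x y := by
  induction h with
  | rel u w huw =>
    rcases huw with ⟨v, h1, h2⟩ | hn
    · exact ⟨{v}, fun v' hv' => by rw [mem_singleton.mp hv']; exact h1, fun ω' hω' =>
        EqvGen.rel _ _ (Or.inl ⟨v, hω' v (mem_singleton_self v), h2⟩)⟩
    · exact hn.elim
  | refl u => exact ⟨∅, fun _ hv => absurd hv (notMem_empty _), fun _ _ => EqvGen.refl _⟩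
  | symm u w _ ih =>
    obtain ⟨D, h1, h2⟩ := ih
    exact ⟨D, h1, fun ω' hω' => EqvGen.symm _ _ (h2 ω' hω')⟩
  | trans u w z _ _ ih1 ih2 =>
    obtain ⟨D, h1, h2⟩ := ih1
    obtain ⟨D', h3, h4⟩ := ih2
    refine ⟨D ∪ D', fun v hv => (mem_union.mp hv).elim (h1 v) (h3 v), fun ω' hω' =>
      EqvGen.trans _ _ _ (h2 ω' fun v hv => hω' v (mem_union_left _ hv))
        (h4 ω' fun v hv => hω' v (mem_union_right _ hv))⟩

theorem wit (ω : Cf) (x y : Sq) : ∃ D : Finset Sq, (∀ v ∈ D, ω v = true) ∧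
    (P167.Q.Cn Q.ea Q.eb P167.Q.nil ω x y →
      ∀ ω' : Cf, (∀ v ∈ D, ω' v = true) → P167.Q.Cn Q.ea Q.eb P167.Q.nil ω' x y) := by
  by_cases h : P167.Q.Cn Q.ea Q.eb P167.Q.nil ω x y
  · obtain ⟨D, h1, h2⟩ := wit0 ω x y h
    exact ⟨D, h1, fun _ => h2⟩
  · exact ⟨∅, fun _ hv => absurd hv (notMem_empty _), fun h' => absurd h' h⟩

/-- one finite set of bonds outside `S₀` carries all connections of the wired configurations -/
theorem wall (S₀ : Finset Sq) : ∃ D : Finset Sq, Disjoint D S₀ ∧ ∀ ω ω' : Cf,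
    (∀ v ∈ D, ω v = true) → (∀ e ∉ S₀, ω' e = true) → (∀ e ∈ S₀, ω' e ≤ ω e) → ∀ e ∈ S₀,
    P167.Q.Cn Q.ea Q.eb P167.Q.nil ω' (Q.ea e) (Q.eb e) →
      P167.Q.Cn Q.ea Q.eb P167.Q.nil ω (Q.ea e) (Q.eb e) := by
  choose D h1 h2 using wit
  refine ⟨(S₀.powerset.biUnion fun A => S₀.biUnion fun e =>
    D (P167.Q.cf S₀ (fun _ => true) A) (Q.ea e) (Q.eb e)) \ S₀, sdiff_disjoint,
    fun ω ω' a1 a2 a3 e he hc => h2 ω' _ _ hc ω fun v hv => ?_⟩
  by_cases hv0 : v ∈ S₀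
  · have a4 := a3 v hv0
    rw [h1 ω' _ _ v hv] at a4
    exact top_le_iff.mp a4
  · have a5 : P167.Q.cf S₀ (fun _ => true) (S₀.filter fun u => ω' u = true) = ω' := by
      funext u
      unfold P167.Q.cf
      by_cases hu : u ∈ S₀
      · simp [hu]
      · simp [hu, a2 u hu]
    refine a1 v (mem_sdiff.mpr ⟨mem_biUnion.mpr ⟨S₀.filter fun u => ω' u = true,
      mem_powerset.mpr (filter_subset _ _), mem_biUnion.mpr ⟨e, he, ?_⟩⟩, hv0⟩)
    rw [a5]
    exact hv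

end WSupx

theorem v_sup (hb : Base) (_hl : P167.Q.T_lin) (hd : P167.Q.T_dom) : V_sup := by
  intro r μ hr hμ hm S₀ F x mF lF hx
  obtain ⟨D, hD, hw⟩ := WSupx.wall S₀
  have lA : Le D {ω : Cf | ∀ v ∈ D, ω v = true} := fun ω ω' he =>
    propext (forall₂_congr fun v hv => by rw [he v hv])
  have lG : Lc D fun ω : Cf => Pc.chi (∀ v ∈ D, ω v = true) := fun ω ω' he =>
    congrArg Pc.chi (lA ω ω' he)
  have G0 : ∀ ω : Cf, 0 ≤ Pc.chi (∀ v ∈ D, ω v = true) := fun ω => by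
    unfold P167.Pc.chi
    split_ifs <;> norm_num
  have hpos : 0 < exm μ fun ω : Cf => Pc.chi (∀ v ∈ D, ω v = true) := by
    have e1 : (fun ω : Cf => Pc.chi (∀ v ∈ D, ω v = true)) =
        {ω : Cf | ∀ v ∈ D, ω v = true}.indicator 1 := by
      funext ω
      unfold P167.Pc.chi
      by_cases h : ∀ v ∈ D, ω v = true
      · rw [if_pos h, Set.indicator_of_mem (by exact h)]
        rfl
      · rw [if_neg h, Set.indicator_of_notMem (by exact h)]
    unfold exm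
    rw [e1, integral_indicator_one ((hb.loc _ D).2 _ lA).1]
    exact hm.pos D
  have locF : Pc.Loc F := ⟨S₀, lF⟩
  have locG : Pc.Loc fun ω : Cf => Pc.chi (∀ v ∈ D, ω v = true) := ⟨D, lG⟩
  have t1 := P167.Q.Qm.tend hμ locG
  have t2 := P167.Q.Qm.tend hμ (P167.Q.Qm.loc_mul locF locG)
  have b0 := le_of_tendsto_of_tendsto (t1.const_mul (Q.fx r S₀ (fun _ => true) F)) t2
    ((eventually_ge_atTop S₀).mono fun S hS =>
      (hd Sq Sq Sq Sq r Q.ea Q.eb P167.Q.nil S (fun _ => false) Q.ea Q.eb P167.Q.nil S₀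
        (fun _ => true) id F (fun ω : Cf => Pc.chi (∀ v ∈ D, ω v = true)) hr (Set.injOn_id _)
        (fun e he => hS he) mF (fun ω ω' he => lF ω ω' fun v hv => he v (mem_coe.mpr hv)) G0
        (fun ω ω' he => lG ω ω' fun v hv => he v (by
          rw [Set.image_id]
          exact fun hv' => disjoint_left.mp hD hv (mem_coe.mp hv')))).2
        fun ω ω' h0 _ h2 h3 e he hc => hw ω ω' (by
          by_contra hn
          exact h0 (if_neg hn)) h2 h3 e he hc)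
  exact le_of_mul_le_mul_right (b0.trans (hx _ ⟨⟨D, lG, hD⟩, G0⟩)) hpos

end Vale.Agent.P167Q.W
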