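import Vale.Agent.P167W.WStm
import Vale.Agent.P167Q.XSh
import Vale.Agent.P167Q.XSym
import Vale.Agent.P167Q.XGeo
import Vale.Agent.P167Q.XDep

open Finset Relation Filter Topology MeasureTheory
open scoped Classical BigOperators

namespace Vale.Agent.P167Q.W

theorem w_sym {μ : Measure Cf} (hb : Base) (hm : Mod μ) (hz : W_az) : W_sym μ := by
  intro c a b
  haveI : IsProbabilityMeasure μ := hm.prob
  refine ⟨measureReal_mono fun ω ⟨x, hx, _, hn⟩ h => hn (h x hx), ?_⟩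
  have hs : X_sh := xsh_pf hb (xdep_pf hb (xgeo_pf hb))
  have hA : MeasurableSet (BA c (a + 1) b) := by
    rw [← (hz.zero c (a + 1) b).1]
    exact ((hb.loc _ _).2 _ (hz.lc c 0 (a + 1) b)).1
  have e : ∀ t, μ.real (sh t ⁻¹' BA c (a + 1) b) = pcm μ c (a + 1) b := fun t =>
    (hm.inv t).measureReal_preimage hA.nullMeasurableSet
  have h0 : pam μ a b ≤ _ := measureReal_mono (μ := μ) (XSymx.cover hs c a b)
  have u1 := measureReal_union_le (μ := μ) (BA c (a + 1) b) (sh (1, 0) ⁻¹' BA c (a + 1) b)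
  have u2 := measureReal_union_le (μ := μ) (BA c (a + 1) b ∪ sh (1, 0) ⁻¹' BA c (a + 1) b)
    (sh (-1, 0) ⁻¹' BA c (a + 1) b)
  have u3 := measureReal_union_le (μ := μ) (BA c (a + 1) b ∪ sh (1, 0) ⁻¹' BA c (a + 1) b ∪
    sh (-1, 0) ⁻¹' BA c (a + 1) b) (sh (0, 1) ⁻¹' BA c (a + 1) b)
  have u4 := measureReal_union_le (μ := μ) (BA c (a + 1) b ∪ sh (1, 0) ⁻¹' BA c (a + 1) b ∪
    sh (-1, 0) ⁻¹' BA c (a + 1) b ∪ sh (0, 1) ⁻¹' BA c (a + 1) b) (sh (0, -1) ⁻¹' BA c (a + 1) b)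
  rw [e] at u1 u2 u3 u4
  have e0 : μ.real (BA c (a + 1) b) = pcm μ c (a + 1) b := rfl
  linarith

end Vale.Agent.P167Q.W
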