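import Vale.Agent.P167W.WStm

/-! P167W: tiling of a box by small boxes. -/

open Finset Relation Filter Topology MeasureTheory
open scoped Classical BigOperators

namespace Vale.Agent.P167Q.W

namespace WTilx

theorem quo (d u G : ℤ) (hu : 0 < u) (h1 : -(G * u) ≤ d) (h2 : d ≤ G * u) :
    ∃ a ∈ Icc (-G) G, u * a ≤ d ∧ d ≤ u * a + u := by
  have e := Int.mul_ediv_add_emod d u
  have e1 := Int.emod_nonneg d hu.ne'
  have e2 := Int.emod_lt_of_pos d hu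
  refine ⟨d / u, mem_Icc.2 ⟨?_, ?_⟩, by linarith, by linarith⟩
  · have : u * (-G) < u * (d / u + 1) := by linarith
    have := lt_of_mul_lt_mul_left this hu.le
    omega
  · have : u * (d / u) ≤ u * G := by linarith
    exact le_of_mul_le_mul_left this hu

end WTilx

theorem k_til : K_til := by
  intro g hg
  refine ⟨(Icc (-(48 * g : ℤ)) (48 * g) ×ˢ Icc (-(48 * g : ℤ)) (48 * g)).card, 16 * g,
    fun s hs z => ?_⟩
  obtain ⟨u, hu⟩ : ∃ u, u = s / (8 * g) := ⟨_, rfl⟩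
  have hg8 : 0 < 8 * g := by omega
  have u1 : 8 * g * u ≤ s := by rw [hu]; exact Nat.mul_div_le s (8 * g)
  have u2 : s < 8 * g * (u + 1) := by rw [hu]; exact Nat.lt_mul_div_succ s hg8
  have u3 : 1 ≤ u := by
    rw [hu]
    exact (Nat.le_div_iff_mul_le hg8).2 (by omega)
  have u4 : g ≤ g * u := Nat.le_mul_of_pos_right g u3
  have u4' : u ≤ g * u := Nat.le_mul_of_pos_left u hg
  have u5 : s ≤ 16 * (g * u) := by
    have : 8 * g * (u + 1) = 8 * (g * u) + 8 * g := by ring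
    omega
  have u6 : 8 * (g * u) ≤ s := by
    have : 8 * g * u = 8 * (g * u) := by ring
    omega
  refine ⟨((Icc (-(48 * g : ℤ)) (48 * g) ×ˢ Icc (-(48 * g : ℤ)) (48 * g)).filter
      fun q : ℤ × ℤ => (-(4 * (s : ℤ)) ≤ u * q.1 ∧ u * q.1 ≤ 4 * (s : ℤ)) ∧
        (-(4 * (s : ℤ)) ≤ u * q.2 ∧ u * q.2 ≤ 4 * (s : ℤ))).image
    (fun q : ℤ × ℤ => (((z.1 + u * q.1, z.2 + u * q.2) : Sq), u)),
    card_image_le.trans (card_filter_le _ _), fun x hx => ?_, fun i hi => ?_⟩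
  · rw [mem_bz] at hx
    have hu0 : (0 : ℤ) < u := by exact_mod_cast u3
    have u7 : ((3 * s : ℕ) : ℤ) ≤ 48 * g * u := by
      have : 3 * s ≤ 48 * g * u := by
        have : 48 * g * u = 48 * (g * u) := by ring
        omega
      exact_mod_cast this
    have u8 : (u : ℤ) ≤ s := by exact_mod_cast (by omega : u ≤ s)
    obtain ⟨a, ha, a1, a2⟩ := WTilx.quo (x.1 - z.1) u (48 * g) hu0 (by linarith [hx.1])
      (by linarith [hx.2.1])
    obtain ⟨b, hb, b1, b2⟩ := WTilx.quo (x.2 - z.2) u (48 * g) hu0 (by linarith [hx.2.2.1])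
      (by linarith [hx.2.2.2])
    push_cast at hx
    refine mem_biUnion.2 ⟨_, mem_image.2 ⟨(a, b), mem_filter.2 ⟨mem_product.2 ⟨ha, hb⟩, ?_⟩, rfl⟩, ?_⟩
    · refine ⟨⟨?_, ?_⟩, ?_, ?_⟩ <;> dsimp only <;> linarith [hx.1, hx.2.1, hx.2.2.1, hx.2.2.2]
    · rw [mem_bz]
      refine ⟨?_, ?_, ?_, ?_⟩ <;> dsimp only <;> linarith
  · obtain ⟨q, hq, rfl⟩ := mem_image.1 hi
    obtain ⟨-, ⟨a1, a2⟩, b1, b2⟩ := mem_filter.1 hq
    refine ⟨u3, by dsimp only; omega, fun x hx => ?_⟩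
    have u9 : ((g * u + 1 : ℕ) : ℤ) ≤ s := by exact_mod_cast (by omega : g * u + 1 ≤ s)
    rw [mem_bz] at hx ⊢
    dsimp only at hx
    have e : ((5 * s : ℕ) : ℤ) = 5 * (s : ℤ) := by push_cast; rfl
    rw [e]
    refine ⟨?_, ?_, ?_, ?_⟩ <;> linarith [hx.1, hx.2.1, hx.2.2.1, hx.2.2.2]

end Vale.Agent.P167Q.W
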