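import Vale.Agent.P167W.WStm
import Vale.Agent.P167Q.XArm

open Finset Relation Filter Topology MeasureTheory
open scoped Classical BigOperators

namespace Vale.Agent.P167Q.W

open Vale.Agent.P152 (Vx Site v6)

theorem w_weak {μ : Measure Cf} (hb : Base) (hm : Mod μ) (hz : W_az) (hc : W_cir μ) :
    W_weak μ := by
  have := hm.prob
  obtain ⟨c, hc0, hc⟩ := hc.1
  refine ⟨c, hc0, 6 * 76 * 4 ^ 1 + 2, by norm_num, fun z u hu => ?_⟩
  have key : μ.real (BA false (u + 1) ((6 * 76 * 4 ^ 1 + 1) * u)) ≤ 1 - c := by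
    have hW : Le (HCirx.bo ((3 * HCirx.sc (u + 3) 0 : ℕ) : ℤ))
        (Ci (HCirx.sc (u + 3) 0) (3 * HCirx.sc (u + 3) 0)) :=
      hb.ev.2.2 _ _ _ fun m h1 _ => HCirx.mem_bo.2 h1
    have hL : Le ((HCirx.bo ((3 * HCirx.sc (u + 3) 0 : ℕ) : ℤ)).image v6)
        {ω : Cf | (fun m => ω (v6 m)) ∈ Ci (HCirx.sc (u + 3) 0) (3 * HCirx.sc (u + 3) 0)} :=
      fun ω ω' h => hW _ _ fun m hm' => h _ (mem_image_of_mem _ hm')
    have m := ((hb.loc _ _).2 _ hL).1
    have h1 := hc (HCirx.sc (u + 3) 0) (le_trans (by omega) (HCirx.sc_ge _ _))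
    have h2 : BA false (u + 1) ((6 * 76 * 4 ^ 1 + 1) * u) ⊆
        {ω : Cf | (fun m => ω (v6 m)) ∈ Ci (HCirx.sc (u + 3) 0) (3 * HCirx.sc (u + 3) 0)}ᶜ := by
      intro ω hω
      have := XArmx.sub u 1 hu hω 0 one_pos
      simp only [Bool.false_xor, Equiv.ofBijective_apply] at this
      exact this
    have h3 := measureReal_mono (μ := μ) h2
    rw [probReal_compl_eq_one_sub m] at h3
    unfold nr at h1
    linarith
  obtain ⟨z', h1, h2⟩ : ∃ z' : Sq, (z' = 0 ∨ z' = (1, 0)) ∧ Odd ((z - z').1 + (z - z').2) := by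
    by_cases h : Odd (z.1 + z.2)
    · exact ⟨0, Or.inl rfl, by simpa using h⟩
    · refine ⟨(1, 0), Or.inr rfl, ?_⟩
      simp only [Prod.fst_sub, Prod.snd_sub, Int.odd_iff] at h ⊢
      omega
  have e : AZ true z u ((6 * 76 * 4 ^ 1 + 2) * u) =
      sh (z - z') ⁻¹' AZ false z' u ((6 * 76 * 4 ^ 1 + 2) * u) := by
    ext ω
    rw [Set.mem_preimage, hz.shf, decide_eq_true h2, add_sub_cancel]
    rfl
  rw [e, (hm.inv _).measureReal_preimage ((hb.loc _ _).2 _ (hz.lc _ _ _ _)).1.nullMeasurableSet]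
  refine le_trans (measureReal_mono ?_) key
  rintro ω ⟨x, hx, hp, hn⟩
  refine ⟨x, ?_, hp, fun k => hn (k.trans fun y hy => ?_)⟩
  · rw [mem_bz] at hx
    rw [mem_box]
    rcases h1 with rfl | rfl <;> simp only [Prod.fst_zero, Prod.snd_zero] at hx <;> push_cast <;> omega
  · rw [mem_coe, mem_box] at hy
    rw [mem_coe, mem_bz]
    rcases h1 with rfl | rfl <;> simp only [Prod.fst_zero, Prod.snd_zero] <;> push_cast at hy ⊢ <;> omega

end Vale.Agent.P167Q.W
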