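import Vale.Agent.P167W.WStm

open Finset Relation Filter Topology MeasureTheory
open scoped Classical BigOperators

namespace Vale.Agent.P167Q.W

namespace WZnumx

theorem lt {q : ℝ} (h2 : 2 < q) (h4 : q ≤ 4) : Real.arccos (√q / 2) < Real.pi / 4 := by
  have hp := Real.pi_pos
  have e : Real.arccos (√2 / 2) = Real.pi / 4 := by
    rw [← Real.cos_pi_div_four]
    exact Real.arccos_cos (by positivity) (by linarith)
  have h1 : √2 < √q := Real.sqrt_lt_sqrt (by norm_num) h2
  have h3 : √q ≤ 2 := Real.sqrt_le_iff.2 ⟨by norm_num, by linarith⟩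
  have h0 : 0 ≤ √(2 : ℝ) := Real.sqrt_nonneg _
  rw [← e]
  exact Real.strictAntiOn_arccos ⟨by linarith, by linarith⟩ ⟨by linarith, by linarith⟩
    (by linarith)

end WZnumx

theorem z_num : Z_num := by
  intro q h2 h4
  have h := WZnumx.lt h2 h4
  have h0 := Real.arccos_nonneg (√q / 2)
  have hp := Real.pi_pos
  rw [neg_div, Real.arccos_neg]
  unfold Ang al
  obtain ⟨a, ha⟩ : ∃ a, a = Real.arccos (√q / 2) := ⟨_, rfl⟩
  rw [← ha] at h h0 ⊢
  have hb : Real.pi - a ≠ 0 := by
    have : 0 < Real.pi - a := by linarith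
    exact this.ne'
  refine ⟨⟨h0, h⟩, ?_, ?_⟩
  · field_simp
  · field_simp
    ring

end Vale.Agent.P167Q.W
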