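import Vale.Agent.P167W.WExt
import Vale.Agent.P167W.WNl
import Vale.Agent.P167W.WCmp
import Vale.Agent.P167W.WDual
import Vale.Agent.P167W.WInv
import Vale.Agent.P167W.WMod
import Vale.Agent.P167W.WStep
import Vale.Agent.P167W.WMon
import Vale.Agent.P167W.WBase
import Vale.Agent.P167W.WDet
import Vale.Agent.P167W.WRep
import Vale.Agent.P167W.WLift
import Vale.Agent.P167W.WSup
import Vale.Agent.P167W.WNega
import Vale.Agent.P167W.WNegb
import Vale.Agent.P167W.WMix1
import Vale.Agent.P167W.WTv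
import Vale.Agent.P167W.WHb
import Vale.Agent.P167W.WAz
import Vale.Agent.P167W.WMix
import Vale.Agent.P167W.WPu
import Vale.Agent.P167W.WHs
import Vale.Agent.P167W.WCir
import Vale.Agent.P167W.WFin
import Vale.Agent.P167W.WLim
import Vale.Agent.P167W.WWeak
import Vale.Agent.P167W.WBd
import Vale.Agent.P167W.WSym
import Vale.Agent.P167W.WPt
import Vale.Agent.P167W.WStp
import Vale.Agent.P167W.WExp
import Vale.Agent.P167W.WTil
import Vale.Agent.P167W.WM1
import Vale.Agent.P167W.WEv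
import Vale.Agent.P167W.WArm0
import Vale.Agent.P167W.WArm
import Vale.Agent.P167W.WRsw
import Vale.Agent.P167W.WPol
import Vale.Agent.P167W.WStv
import Vale.Agent.P167W.WMc
import Vale.Agent.P167W.WOne
import Vale.Agent.P167W.WSpl
import Vale.Agent.P167W.WNum
import Vale.Agent.P167W.WCtil
import Vale.Agent.P167W.WLev
import Vale.Agent.P167W.WScl
import Vale.Agent.P167W.WTri
import Vale.Agent.P167W.WIn
import Vale.Agent.P167W.WUp
import Vale.Agent.P167W.WGood
import Vale.Agent.P167W.WLa0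
import Vale.Agent.P167W.WLa1
import Vale.Agent.P167W.WLa
import Vale.Agent.P167W.WLb
import Vale.Agent.P167W.WLc
import Vale.Agent.P167W.WBij
import Vale.Agent.P167W.WFp
import Vale.Agent.P167W.WGff
import Vale.Agent.P167W.WIup
import Vale.Agent.P167W.WIlo
import Vale.Agent.P167W.WI1
import Vale.Agent.P167W.WR0
import Vale.Agent.P167W.WR1
import Vale.Agent.P167W.WR2
import Vale.Agent.P167W.WR3
import Vale.Agent.P167W.WSub
import Vale.Agent.P167W.WRing
import Vale.Agent.P167W.WQrsw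
import Vale.Agent.P167W.WGlue
import Vale.Agent.P167W.WMid
import Vale.Agent.P167W.WEup
import Vale.Agent.P167W.WElo
import Vale.Agent.P167W.WGoal
import Vale.Agent.P167W.WZnum

/-! P167W: assembly. -/

open MeasureTheory

namespace Vale.Agent.P167Q.W

/-- what is known before the angle enters -/
structure Pre : Prop where
  hb : Base
  geo : X_geo
  dep : X_dep
  shh : X_sh
  cl : D_cls
  sum : D_sum
  tf : G_tf
  cel : G_cel
  top : T_top
  sb : P167.Pc.S_bas
  lin : P167.Q.T_lin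
  rat : P167.Q.T_rat
  dom : P167.Q.T_dom
  pl : P167.Q.T_pl
  qi : P167.Q.T_qi
  aut : P167.Q.T_aut
  qm : P167.Q.T_qm
  loc : P167.Q.T_loc
  d1 : P167.Q.T_df1
  d2 : P167.Q.T_df2
  d3 : P167.Q.T_df3

/-- facts that do not use the field -/
structure Core0 (μ : Measure Cf) : Prop where
  hm : Mod μ
  az : W_az
  sup : V_sup
  mix : M_mix μ
  tv : M_tv μ
  hb0 : M_hb0 μ
  hb1 : M_hb1 μ
  cir : W_cir μ
  fin : W_fin μ
  lim : W_lim μ
  sym : W_sym μ
  pt : K_pt
  weak : W_weak μ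
  ring : Q_ringq μ
  qrsw : Q_rswq μ

theorem core0 (P : Pre) {r : ℝ} {μ : Measure Cf} (h1 : 1 ≤ r) (h2 : r ≤ 2)
    (hμ : P167.Q.FKm r μ) : Core0 μ :=
  have hb := P.hb
  have hm : Mod μ := v_mod hb P.qi P.qm (v_inv P.qi P.aut (v_ext hb)
    (v_dual P.sb P.loc (v_nl P.sb) (v_cmp P.d1 P.d2 P.d3))) r μ h1 h2 hμ
  have az := w_az hb P.shh P.dep
  have step := v_step P.lin P.rat
  have mon := v_mon P.lin P.dom
  have det := v_det hb
  have rep := v_rep P.lin step mon v_base det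
  have lift := v_lift hb P.lin step
  have sup := v_sup hb P.lin P.dom
  have hbb := v_hb hb az sup (v_nega hb P.lin P.dom P.pl) (v_negb hb P.lin P.dom) r μ h1 hμ hm
  have hs := w_hs hb hm
  have cir := w_cir hb (w_pu hb hm) hs.1 hs.2
  have fin := w_fin hb P.shh hm cir
  ⟨hm, az, sup, m_mix hb hm az (v_mix1 hb P.lin P.pl az mon det rep lift r μ h1 hμ),
    v_tv hb P.lin az det rep lift r μ h1 hμ, hbb.1, hbb.2, cir, fin, w_lim hb P.dep hm fin,
    w_sym hb hm az, k_pt hb P.geo P.shh, w_weak hb hm az cir, q_ring hb P.dep hm cir,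
    q_rsw hb P.dep hm cir⟩

/-- facts that use the field; the angle enters through the hypotheses only -/
structure Core1 (μ : Measure Cf) (a : ℝ) : Prop where
  stp : K_stp μ
  exp : K_exp μ
  arm : K_armq μ
  rsw : S_rsw μ
  pol : S_pol μ
  up : I_upq μ a
  lo : I_loq μ a
  sub : Q_subq μ
  qin : Q_inq μ
  glue : Q_glueq μ

theorem ev_of (P : Pre) {μ : Measure Cf} {a : ℝ} (C : Core0 μ) (bd : W_bd μ a) : K_ev μ :=
  k_ev C.hm P.geo bd (k_m1 C.hm bd C.pt k_til
    (k_exp C.hm bd (k_stp P.hb C.hm P.dep C.az bd C.lim C.pt)) C.weak C.hb0)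

theorem core1 (P : Pre) {μ : Measure Cf} {a : ℝ} (C : Core0 μ) (bd : W_bd μ a)
    (du : D_upq a) (dl : D_loq a) (a0 : K_arm0 μ) : Core1 μ a :=
  have hb := P.hb
  have hm := C.hm
  have stp := k_stp hb hm P.dep C.az bd C.lim C.pt
  have exp := k_exp hm bd stp
  have arm := k_arm hb hm C.lim a0
  have rsw := s_rsw hb hm C.az C.mix arm
  have pol := s_pol hb hm C.az rsw
  have mc := k_mc hm C.az bd C.pt k_til exp rsw C.hb1
  have til := c_til hm bd (s_tv hb hm C.az C.tv pol) mc.1 mc.2 (c_one hm bd)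
  have tri := c_tri P.geo hm bd
    (c_scl P.shh P.geo hm bd mc.2 (c_lev hm P.geo P.dep bd (c_spl hm bd) c_num til))
  have sub := q_sub hb hm C.az C.mix arm
  have gl := q_glue hm sub C.sym C.ring C.qrsw
  ⟨stp, exp, arm, rsw, pol, i_up hm C.fin bd tri du, i_lo hm C.fin bd tri dl, sub, gl.1, gl.2⟩

theorem core2 (P : Pre) {μ : Measure Cf} {a : ℝ} (C : Core0 μ) (ha : Ang a) (hG : Goalq μ a) :
    Core1 μ a ∧ E_upq μ a ∧ E_loq μ a :=
  have hb := P.hb
  have hm := C.hm
  have bd := w_bd hb P.geo ha hm C.fin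
  have ud := d_up hb ha (d_in ha) P.cl P.sum
  have good := d_good ha P.sum
  have gff := g_gff hb ha hG (l_fp hb) P.tf P.cel
  have D := core1 P C bd ud.1 ud.2
    (k_arm0 hb P.geo P.dep ha hm C.fin bd (ev_of P C bd) ud.2 good gff)
  have i1 := i_one ha hm bd gff D.up D.lo good
  have r0 := r_zero hb P.geo P.dep ha hm bd
  ⟨D, e_up ha hm D.sub C.sym (r_three ha r0 (r_two ha r0 i1.1 i1.2) i1.2),
    e_lo ha hm D.sub C.ring C.qrsw D.qin (q_mid hb hm r0 D.sub C.sym D.qin D.glue P.top)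
      (r_one ha r0 i1.1)⟩

theorem phq_of (P : Pre) (hw : P167.Pc.S_w1) : Z_phq :=
  have la := l_a P.hb hw (l_a0 P.hb) (l_a1 hw)
  (l_bij P.hb hw la (l_b P.hb) (l_c P.hb P.geo hw la (l_b P.hb))).2

/-- the nesting law in terms of clusters -/
theorem goalq_of (hz : Z_phq) {q : ℝ} (h1 : 1 ≤ q) (h4 : q ≤ 4) {μ : Measure Cf} (hf : W_fin μ)
    (hl : ∀ᵐ ω ∂μ, ∀ e, (P167.Pc.loop ω e).Finite)
    (e : 4 * Real.pi / Real.arccos (-√q / 2) / (4 * Real.pi) =
      1 / (Real.pi - Real.arccos (√q / 2)))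
    (h : ∀ f : ℝ × ℝ → ℝ, P152.IsTest f → Filter.Tendsto (fun δ => ∫ ω, P167.Q.Phq q δ f ω ∂μ)
      (nhdsWithin 0 (Set.Ioi 0)) (nhds (Real.exp
        (-(4 * Real.pi / Real.arccos (-√q / 2) / (4 * Real.pi)) * P152.gcov f f)))) :
    Goalq μ (Real.arccos (√q / 2)) := by
  intro f hf'
  have t := h f hf'
  rw [e] at t
  refine t.congr fun δ => integral_congr_ae ?_
  filter_upwards [hf, hl] with ω a b using hz q δ f ω h1 h4 a b

end Vale.Agent.P167Q.W
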