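import Vale.Agent.P167W.ZStm

/-! P167W: exponential moments of the number of large clusters over a chain of scales. -/

open Finset Filter Topology MeasureTheory
open scoped Classical

namespace Vale.Agent.P167Q.W

open Vale.Agent.P167 (Pc.chi)

namespace ZCh

theorem chi_nn (p : Prop) : 0 ≤ Pc.chi p := by
  unfold Pc.chi
  split_ifs <;> norm_num

theorem chi_pos {p : Prop} (h : p) : Pc.chi p = 1 := if_pos h

theorem chi_ne {p : Prop} (h : Pc.chi p ≠ 0) : p := by
  by_contra hp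
  exact h (if_neg hp)

theorem chi_sum {ι : Type} (P : Finset ι) (p : ι → Prop) (h : ∀ i j, p i → p j → i = j) :
    ∑ i ∈ P, Pc.chi (p i) ≤ 1 := by
  by_cases hex : ∃ i ∈ P, p i
  · obtain ⟨i, hi, hpi⟩ := hex
    rw [sum_eq_single_of_mem i hi fun j _ hj => ?_, chi_pos hpi]
    by_contra hc
    exact hj (h j i (chi_ne hc) hpi)
  · rw [sum_eq_zero fun j hj => ?_]
    · exact zero_le_one
    · by_contra hc
      exact hex ⟨j, hj, chi_ne hc⟩

end ZCh

open ZCh in
theorem z_ch {μ : Measure Cf} {a : ℝ} (hb : Base) (hd : X_dep) (hm : Mod μ) (hx : W_bd μ a)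
    (hl : W_lim μ) (hp : Z_pt) : Z_ch μ := by
  intro t x s I ht hx0 hs hK m
  have t0 : 0 < t := by linarith
  induction m with
  | zero =>
    intro n R H Φ hH hΦ h0 h1
    have bH := hx.loc _ H hH.1
    rw [pow_zero, one_mul]
    refine integral_mono (hx.int _ (hx.mul _ _ hΦ bH)) (hx.int _ bH) fun ω => ?_
    by_cases hz : H ω = 0
    · simp only [hz, mul_zero, le_refl]
    · have h2 := h1 ω hz
      rw [hp.zero, pow_zero] at h2
      exact mul_le_of_le_one_left (hH.2.1 ω) h2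
  | succ m ih =>
    intro n R H Φ hH hΦ h0 h1
    have bH := hx.loc _ H hH.1
    have tk : ∀ ω, 0 < t ^ kE (s n) (I n) R ω := fun ω => pow_pos t0 _
    obtain ⟨Φ₂, e₂⟩ : ∃ Φ₂ : Cf → ℝ, Φ₂ = fun ω => Φ ω * (t ^ kE (s n) (I n) R ω)⁻¹ := ⟨_, rfl⟩
    obtain ⟨H₂, e₃⟩ : ∃ H₂ : Finset Sq → Cf → ℝ, H₂ = fun R' ω =>
      H ω * (t ^ kE (s n) (I n) R ω * Pc.chi (EX (til (I n)) R' ω)) := ⟨_, rfl⟩
    have b2 : Bdm μ Φ₂ := by
      rw [e₂]
      exact hx.mul _ _ hΦ (hx.kE (s n) (I n) R fun j => (t ^ j)⁻¹)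
    have n2 : ∀ ω, 0 ≤ Φ₂ ω := fun ω => by
      rw [e₂]
      exact mul_nonneg (h0 ω) (inv_nonneg.2 (tk ω).le)
    have ad : ∀ R', Adm (R ∪ R') (H₂ R') := fun R' => by
      rw [e₃]
      exact hp.adm (s n) (I n) R R' H t t0.le hH
    have b3 : ∀ R', Bdm μ (H₂ R') := fun R' => hx.loc _ _ (ad R').1
    have c2 : ∀ R' ω, H₂ R' ω ≠ 0 → Φ₂ ω ≤ t ^ kM s I (n + 1) m (R ∪ R') ω := fun R' ω hne => by
      rw [e₃] at hne
      have a1 := h1 ω (left_ne_zero_of_mul hne)
      have a2 := hp.cnt s I n m R R' ω hs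
        (chi_ne (right_ne_zero_of_mul (right_ne_zero_of_mul hne)))
      have a3 := a1.trans (pow_le_pow_right₀ ht a2)
      rw [e₂]
      show Φ ω * (t ^ kE (s n) (I n) R ω)⁻¹ ≤ _
      rw [mul_inv_le_iff₀ (tk ω), mul_comm, ← pow_add]
      exact a3
    have pr : ∀ R' ω, EX (til (I n)) R' ω → Φ₂ ω * H₂ R' ω = Φ ω * H ω := fun R' ω hE => by
      rw [e₂, e₃]
      show Φ ω * (t ^ kE (s n) (I n) R ω)⁻¹ *
        (H ω * (t ^ kE (s n) (I n) R ω * Pc.chi (EX (til (I n)) R' ω))) = _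
      rw [chi_pos hE]
      have := (tk ω).ne'
      field_simp
    have sm : ∀ (P : Finset (Finset Sq)) ω,
        ∑ R' ∈ P, H₂ R' ω ≤ t ^ kE (s n) (I n) R ω * (H ω * 1) := fun P ω => by
      rw [e₃]
      show ∑ R' ∈ P, H ω * (t ^ kE (s n) (I n) R ω * Pc.chi (EX (til (I n)) R' ω)) ≤ _
      rw [← mul_sum, ← mul_sum, mul_left_comm]
      exact mul_le_mul_of_nonneg_left (mul_le_mul_of_nonneg_left
        (chi_sum P _ fun i j => hp.uni _ i j ω) (hH.2.1 ω)) (tk ω).le
    obtain ⟨a0, ha0⟩ := hb.bas.fin (til (I n) : Set Sq) (finite_toSet _)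
    have bP := hx.mul _ _ hΦ bH
    obtain ⟨M, hM⟩ := bP.2
    have M0 : 0 ≤ M := (abs_nonneg _).trans (hM fun _ => true)
    have bT : Bdm μ fun ω => t ^ kE (s n) (I n) R ω * (H ω * 1) :=
      hx.mul _ _ (hx.kE (s n) (I n) R fun j => t ^ j) (hx.mul _ _ bH (hx.const 1))
    have key : ∀ K : ℕ, (exm μ fun ω => Φ ω * H ω) ≤ x ^ (m + 1) * exm μ H + M * pam μ a0 K := by
      intro K
      have ms : MeasurableSet {ω | ¬NoArm a0 K ω} := ((hb.loc _ _).2 _ (hd.arm0 a0 K)).1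
      have i1 : ∀ R', Integrable (fun ω => Φ₂ ω * H₂ R' ω) μ := fun R' =>
        hx.int _ (hx.mul _ _ b2 (b3 R'))
      have i2 : Integrable (fun ω => M * {ω | ¬NoArm a0 K ω}.indicator (1 : Cf → ℝ) ω) μ :=
        (hx.int _ (hx.ind _ ms)).const_mul M
      have pt : ∀ ω, Φ ω * H ω ≤ ∑ R' ∈ (box K).powerset, Φ₂ ω * H₂ R' ω +
          M * {ω | ¬NoArm a0 K ω}.indicator (1 : Cf → ℝ) ω := fun ω => by
        have nn : ∀ R' ∈ (box K).powerset, 0 ≤ Φ₂ ω * H₂ R' ω := fun R' _ =>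
          mul_nonneg (n2 ω) ((ad R').2.1 ω)
        by_cases hN : NoArm a0 K ω
        · obtain ⟨R', hR, hE⟩ := hp.ex (til (I n)) K ω fun y hy =>
            hN y (mem_coe.1 (ha0 (mem_coe.2 hy)))
          have a1 := single_le_sum nn hR
          rw [pr R' ω hE] at a1
          exact a1.trans (le_add_of_nonneg_right (mul_nonneg M0
            (Set.indicator_nonneg (fun _ _ => zero_le_one) ω)))
        · rw [Set.indicator_of_mem (show ω ∈ {ω | ¬NoArm a0 K ω} from hN), Pi.one_apply, mul_one]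
          exact ((le_abs_self _).trans (hM ω)).trans (le_add_of_nonneg_left (sum_nonneg nn))
      have s1 : (exm μ fun ω => Φ ω * H ω) ≤
          ∑ R' ∈ (box K).powerset, (exm μ fun ω => Φ₂ ω * H₂ R' ω) + M * pam μ a0 K := by
        unfold exm pam
        rw [← integral_finsetSum _ fun R' _ => i1 R', ← integral_indicator_one ms,
          ← integral_const_mul, ← integral_add (integrable_finsetSum _ fun R' _ => i1 R') i2]
        exact integral_mono (hx.int _ bP)
          ((integrable_finsetSum _ fun R' _ => i1 R').add i2) pt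
      have s2 : ∑ R' ∈ (box K).powerset, (exm μ fun ω => Φ₂ ω * H₂ R' ω) ≤
          x ^ m * ∑ R' ∈ (box K).powerset, exm μ (H₂ R') := by
        rw [mul_sum]
        exact sum_le_sum fun R' _ => ih (n + 1) (R ∪ R') (H₂ R') Φ₂ (ad R') b2 n2 (c2 R')
      have s3 : ∑ R' ∈ (box K).powerset, exm μ (H₂ R') ≤
          exm μ fun ω => t ^ kE (s n) (I n) R ω * (H ω * 1) := by
        unfold exm
        rw [← integral_finsetSum _ fun R' _ => hx.int _ (b3 R')]
        exact integral_mono (integrable_finsetSum _ fun R' _ => hx.int _ (b3 R'))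
          (hx.int _ bT) (sm _)
      have s4 := hK n R H hH
      have s5 : (exm μ fun ω => H ω * 1) = exm μ H := by simp only [mul_one]
      rw [s5] at s4
      have s6 := mul_le_mul_of_nonneg_left (s3.trans s4) (pow_nonneg hx0 m)
      rw [pow_succ, mul_assoc]
      linarith
    have lim : Tendsto (fun K => x ^ (m + 1) * exm μ H + M * pam μ a0 K) atTop
        (𝓝 (x ^ (m + 1) * exm μ H + M * 0)) := ((hl a0).const_mul M).const_add _
    rw [mul_zero, add_zero] at lim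
    exact ge_of_tendsto' lim key

end Vale.Agent.P167Q.W
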