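import Vale.Agent.P167W.ZStm
import Vale.Agent.P167Q.HInv

/-! P167W: polynomial decay of the arm probability. -/

open Finset Filter Topology MeasureTheory
open scoped Classical

namespace Vale.Agent.P167Q.W

namespace ZDec

theorem num {g m : ℕ} (hg : 0 < g) :
    ((1 : ℝ) / 2) ^ ((m - 2) / g) ≤ Real.exp (3 * Real.log 2 - Real.log 2 / g * m) := by
  have hl : 0 < Real.log 2 := Real.log_pos (by norm_num)
  have hr : (0 : ℝ) < g := by exact_mod_cast hg
  have h7 : m - 2 < (m - 2) / g * g + g := Nat.lt_div_mul_add hg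
  generalize (m - 2) / g = t at h7
  have h6 : m ≤ (t + 3) * g := by
    have : (t + 3) * g = t * g + 3 * g := by ring
    omega
  have h8 : (m : ℝ) ≤ (t + 3) * g := by exact_mod_cast h6
  have h9 : ((1 : ℝ) / 2) ^ t = Real.exp (-(t * Real.log 2)) := by
    rw [Real.exp_neg, Real.exp_nat_mul, Real.exp_log (by norm_num), one_div, inv_pow]
  rw [h9]
  apply Real.exp_le_exp.2
  have h10 : Real.log 2 / g * m ≤ Real.log 2 * (t + 3) := by
    rw [div_mul_eq_mul_div, div_le_iff₀ hr, mul_assoc]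
    exact mul_le_mul_of_nonneg_left h8 hl.le
  linarith

theorem rad {g m J : ℕ} (hm : 2 ≤ m) : g ^ ((m - 2) / g) * (3 * 2 ^ J) ≤ 2 ^ (J + m) - 1 := by
  have h1 : g ^ ((m - 2) / g) ≤ 2 ^ (m - 2) := by
    refine (Nat.pow_le_pow_left Nat.lt_two_pow_self.le _).trans ?_
    rw [← pow_mul]
    exact Nat.pow_le_pow_right (by norm_num) (Nat.mul_div_le _ _)
  have h2 := Nat.mul_le_mul_right (3 * 2 ^ J) h1
  have h4 : 2 ^ (J + m) = 4 * (2 ^ (m - 2) * 2 ^ J) := by
    have : J + m = (m - 2) + J + 2 := by omega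
    rw [this, pow_add, pow_add]
    ring
  have h5 : 0 < 2 ^ (m - 2) * 2 ^ J := by positivity
  have h6 : 2 ^ (m - 2) * (3 * 2 ^ J) = 3 * (2 ^ (m - 2) * 2 ^ J) := by ring
  omega

end ZDec

open ZDec in
theorem z_dec {μ : Measure Cf} (hm : Mod μ) (hz : W_az) (h : S_pol μ) : Q_decq μ := by
  have := hm.prob
  obtain ⟨g, hg, h⟩ := h
  have hl : 0 < Real.log 2 := Real.log_pos (by norm_num)
  have hr : (0 : ℝ) < g := by exact_mod_cast (by omega : 0 < g)
  have key : ∀ k u, 1 ≤ u → μ.real (AA 0 u (g ^ k * u)) ≤ (1 / 2) ^ k := fun k u hu => by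
    have h1 := h k 0 u (fun _ => 1) hu
      ⟨⟨∅, fun _ _ _ => rfl, disjoint_empty_left _⟩, fun _ => zero_le_one⟩
    have h2 : MeasurableSet (AA 0 u (g ^ k * u)) := by
      rw [hz.un]
      exact ((hloc_pf _ _).2 _ (hz.lc _ _ _ _)).1.union ((hloc_pf _ _).2 _ (hz.lc _ _ _ _)).1
    simp only [exm, mul_one, integral_indicator_one h2, integral_const, probReal_univ,
      smul_eq_mul] at h1
    exact h1
  refine ⟨Real.log 2 / g, by positivity, 3 * Real.log 2, 0, fun J _ m => ?_⟩
  refine le_trans ?_ (num (by omega))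
  by_cases h2 : m < 2
  · have : m - 2 = 0 := by omega
    rw [this, Nat.zero_div, pow_zero]
    exact measureReal_le_one
  · refine le_trans ?_ (key _ (3 * 2 ^ J) (Nat.succ_le_of_lt (by positivity)))
    unfold ppm pam
    rw [← (hz.zero true _ _).2, hz.un, hz.un]
    exact measureReal_mono (Set.union_subset_union (hz.mono _ _ _ _ _ _ le_rfl (rad (by omega)))
      (hz.mono _ _ _ _ _ _ le_rfl (rad (by omega))))

end Vale.Agent.P167Q.W
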