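import Vale.Agent.P167W.ZStm

/-! Exponential moments of the number of large clusters, conditionally on explored clusters. -/

open Finset Filter Topology MeasureTheory
open scoped Classical

namespace Vale.Agent.P167Q.W

namespace ZKb

theorem nn {μ : Measure Cf} {G H : Cf → ℝ} {R : Finset Sq} (hG : ∀ ω, 0 ≤ G ω) (hA : Adm R H) :
    0 ≤ exm μ fun ω => H ω * G ω :=
  integral_nonneg fun ω => mul_nonneg (hA.2.1 ω) (hG ω)

theorem mono {μ : Measure Cf} {G : Cf → ℝ} {t x y : ℝ} {s : ℕ} {I : Finset (Sq × ℕ)}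
    (hG : ∀ ω, 0 ≤ G ω) (h : KB μ G t s I x) (hxy : x ≤ y) : KB μ G t s I y :=
  fun R H hA => (h R H hA).trans (mul_le_mul_of_nonneg_right hxy (nn hG hA))

theorem start {μ : Measure Cf} {a : ℝ} (hx : W_bd μ a) {G : Cf → ℝ} (hb : Bdm μ G)
    (hG : ∀ ω, 0 ≤ G ω) {t : ℝ} (ht : 1 ≤ t) (s : ℕ) (I : Finset (Sq × ℕ)) :
    KB μ G t s I (t ^ (til I).card) := by
  intro R H hA
  have h1 : Bdm μ fun ω => H ω * G ω := hx.mul _ _ (hx.loc _ _ hA.1) hb
  have h2 : Bdm μ fun ω => t ^ kE s I R ω := hx.kE s I R fun k => t ^ k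
  unfold exm
  rw [← integral_const_mul]
  refine integral_mono (hx.int _ (hx.mul _ _ h2 h1)) ((hx.int _ h1).const_mul _) fun ω => ?_
  refine mul_le_mul_of_nonneg_right (pow_le_pow_right₀ ht ?_) (mul_nonneg (hA.2.1 ω) (hG ω))
  exact (card_filter_le _ _).trans card_image_le

theorem lim {μ : Measure Cf} {G : Cf → ℝ} {t y q x : ℝ} {s : ℕ} {I : Finset (Sq × ℕ)}
    (h0 : 0 ≤ q) (h1 : q < 1) (h : ∀ k : ℕ, KB μ G t s I (y + q ^ k * x)) : KB μ G t s I y := by
  intro R H hA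
  have h2 := (((tendsto_pow_atTop_nhds_zero_of_lt_one h0 h1).mul_const x).const_add y).mul_const
    (exm μ fun ω => H ω * G ω)
  rw [zero_mul, add_zero] at h2
  exact ge_of_tendsto' h2 fun k => h k R H hA

theorem gen {μ : Measure Cf} {a : ℝ} (hx : W_bd μ a) (h : K_stp μ) {G : Cf → ℝ} (hb : Bdm μ G)
    (hG : ∀ ω, 0 ≤ G ω) {t ε : ℝ} (s g : ℕ) (ht : 1 ≤ t) (hε : 0 ≤ ε) (hq : t * ε < 1)
    (I : Finset (Sq × ℕ)) (hI : ∀ i ∈ I, 2 * (g * i.2) < s ∧ HB μ G ε i.1 i.2 (g * i.2)) :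
    KB μ G t s I ((1 / (1 - t * ε)) ^ I.card) := by
  have hq0 : 0 ≤ t * ε := mul_nonneg (zero_le_one.trans ht) hε
  have hp : 0 < 1 - t * ε := sub_pos.2 hq
  induction I using Finset.induction_on with
  | empty =>
    have h0 := start hx hb hG ht s ∅
    rw [show til (∅ : Finset (Sq × ℕ)) = ∅ from rfl, card_empty, pow_zero] at h0
    rw [card_empty, pow_zero]
    exact h0
  | insert i I hi ih =>
    have h1 := ih fun j hj => hI j (mem_insert_of_mem hj)
    obtain ⟨h2, h3⟩ := hI i (mem_insert_self i I)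
    rw [card_insert_of_notMem hi, pow_succ]
    have hx1 : 0 ≤ (1 / (1 - t * ε)) ^ I.card := by positivity
    generalize (1 / (1 - t * ε)) ^ I.card = x₁ at h1 hx1
    have hy : 0 ≤ x₁ * (1 / (1 - t * ε)) := by positivity
    have he : x₁ + t * ε * (x₁ * (1 / (1 - t * ε))) = x₁ * (1 / (1 - t * ε)) := by
      field_simp
      ring
    generalize x₁ * (1 / (1 - t * ε)) = y at hy he
    have hx0 : 0 ≤ t ^ (til (insert i I)).card := pow_nonneg (zero_le_one.trans ht) _
    have h4 := start hx hb hG ht s (insert i I)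
    generalize t ^ (til (insert i I)).card = x₀ at hx0 h4
    refine lim (x := x₀) hq0 hq fun k => ?_
    induction k with
    | zero => exact mono hG h4 (by rw [pow_zero, one_mul]; linarith)
    | succ k ihk =>
      have h5 := h G t ε x₁ (y + (t * ε) ^ k * x₀) s (g * i.2) i I hb hG ht
        (add_nonneg hy (mul_nonneg (pow_nonneg hq0 k) hx0)) h2 h3 h1 ihk
      refine mono hG h5 (le_of_eq ?_)
      rw [pow_succ]
      linear_combination he

end ZKb

theorem z_kb {μ : Measure Cf} {a : ℝ} (hx : W_bd μ a) (h : K_stp μ) : Z_kb μ :=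
  fun _ _ s g I ht hε hq hI =>
    ZKb.gen hx h (hx.const 1) (fun _ => zero_le_one) s g ht hε hq I hI

end Vale.Agent.P167Q.W
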