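import Vale.Agent.P167W.ZStm
import Vale.Agent.P167Q.XFin2

open Finset Filter Topology MeasureTheory
open scoped Classical

namespace Vale.Agent.P167Q.W

namespace ZKey

theorem ex_sub {μ : Measure Cf} {a : ℝ} (hx : W_bd μ a) {G : Cf → ℝ} (hG : Bdm μ G) {B : Set Cf}
    (hB : MeasurableSet B) :
    (exm μ fun ω => G ω * Bᶜ.indicator 1 ω) = exm μ G - exm μ fun ω => G ω * B.indicator 1 ω := by
  unfold exm
  rw [← integral_sub (hx.int _ hG) (hx.int _ (hx.mul _ _ hG (hx.ind B hB)))]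
  refine integral_congr_ae (Eventually.of_forall fun ω => ?_)
  by_cases h : ω ∈ B <;> simp [h]

theorem mid_mono (hb : Base) (a : ℕ) {b b' : ℕ} (h : b ≤ b') (ω : Cf) :
    mid a b ω ≤ mid a b' ω := by
  unfold mid
  refine Finset.card_le_card fun C hC => ?_
  rw [Finset.mem_filter] at hC ⊢
  exact ⟨Finset.image_subset_image (hb.bas.mono _ _ h) hC.1,
    hC.2.1.trans (Finset.coe_subset.2 (hb.bas.mono _ _ h)), hC.2.2⟩

theorem zb_box (n : ℕ) : P167.Q.zb 0 n = box n := bz_zero n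

theorem memL {μ : Measure Cf} [IsProbabilityMeasure μ] {G : Cf → ℝ} (h : Bdm μ G)
    (p : ENNReal) : MemLp G p μ := by
  obtain ⟨h1, M, h2⟩ := h
  exact MemLp.of_bound h1.aestronglyMeasurable M (ae_of_all _ h2)

theorem cs {μ : Measure Cf} [IsProbabilityMeasure μ] {a : ℝ} (hx : W_bd μ a) {f : Cf → ℝ}
    (hf : Bdm μ f) (f0 : ∀ ω, 0 ≤ f ω) {B : Set Cf} (hB : MeasurableSet B) :
    (exm μ fun ω => f ω * B.indicator 1 ω) ≤
      ((exm μ fun ω => f ω ^ 2) * μ.real B) ^ (1 / 2 : ℝ) := by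
  have k := integral_mul_le_Lp_mul_Lq_of_nonneg Real.HolderConjugate.two_two (μ := μ)
    (f := f) (g := B.indicator 1) (ae_of_all _ f0)
    (ae_of_all _ fun ω => Set.indicator_nonneg (fun _ _ => zero_le_one) ω)
    (memL hf _) (memL (hx.ind B hB) _)
  have e1 : ∫ ω, f ω ^ (2 : ℝ) ∂μ = exm μ fun ω => f ω ^ 2 := by
    simp only [Real.rpow_two]
    rfl
  have e2 : ∫ ω, (B.indicator (1 : Cf → ℝ) ω) ^ (2 : ℝ) ∂μ = μ.real B := by
    rw [← integral_indicator_one hB]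
    refine integral_congr_ae (ae_of_all _ fun ω => ?_)
    by_cases h : ω ∈ B <;> simp [h]
  rw [e1, e2] at k
  have n1 : 0 ≤ exm μ fun ω => f ω ^ 2 := integral_nonneg fun ω => sq_nonneg _
  rw [Real.mul_rpow n1 measureReal_nonneg]
  exact k

end ZKey

open XFin2x in
theorem z_key {μ : Measure Cf} {a : ℝ} (hb : Base) (hq : X_geo) (hd : X_dep) (hm : Mod μ)
    (hx : W_bd μ a) (h : P167.Q.Lrm μ) : Z_key μ := by
  have hprob : IsProbabilityMeasure μ := hm.prob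
  obtain ⟨k, a₀, c, hc, h⟩ := h
  refine ⟨k + 4, a₀, by omega, c, hc, fun J hJ m₁ m₂ x y hm₂ hx1 hy => ?_⟩
  obtain ⟨J', hJ'⟩ : ∃ J', J' = J + (m₁ + (k + 4)) := ⟨_, rfl⟩
  rw [← hJ']
  change 0 ≤ FFm μ y J' m₂ - ppm μ J' m₂ ∧
    c * (FFm μ x J m₁ * (FFm μ y J' m₂ - ppm μ J' m₂)) ≤
      (exm μ fun ω => x ^ N1 J (m₁ + (k + 4)) ω * y ^ N1 J' m₂ ω * (Bc J' m₂)ᶜ.indicator 1 ω) ∧
    (exm μ fun ω => x ^ N1 J (m₁ + (k + 4)) ω * y ^ N1 J' m₂ ω * (Bc J' m₂).indicator 1 ω) ≤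
      (FFm μ (x ^ 2) J (m₁ + (k + 4)) * ppm μ J' m₂) ^ (1 / 2 : ℝ)
  have hB := meas hb hd J' m₂
  have x0 : 0 ≤ x := by linarith
  have p1 : 0 < 2 ^ J := Nat.two_pow_pos J
  have p2 : 0 < 2 ^ J' := Nat.two_pow_pos _
  have p2' : 0 < 2 ^ (J + m₁) := Nat.two_pow_pos _
  have p3 : 2 ^ J' * 16 ≤ 2 ^ (J' + m₂) := by
    rw [pow_add 2 J' m₂]
    exact Nat.mul_le_mul_left _ (Nat.pow_le_pow_right (by norm_num) hm₂ : 2 ^ 4 ≤ 2 ^ m₂)
  have p4 : 2 ^ k * 2 ^ (J + m₁) ≤ 2 ^ J' := by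
    rw [← pow_add]
    exact Nat.pow_le_pow_right (by norm_num) (by omega)
  have p5 : 2 ^ (J + m₁) ≤ 2 ^ (J + (m₁ + (k + 4))) :=
    Nat.pow_le_pow_right (by norm_num) (by omega)
  have p6 : a₀ ≤ 2 ^ (J + m₁) := by
    have := @Nat.lt_two_pow_self (J + m₁)
    omega
  have l1 : Lc (box (2 ^ (J + m₁) - 1 + 1) \ box (3 * 2 ^ J - 1)) fun ω => x ^ N1 J m₁ ω :=
    fun ω ω' hw => congrArg (fun k => x ^ k) (hd.mid _ _ (by omega) ω ω' hw)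
  have l2 : Lc (box (2 ^ (J' + m₂) - 1 + 1) \ box (3 * 2 ^ J' - 1))
      fun ω => y ^ N1 J' m₂ ω :=
    fun ω ω' hw => congrArg (fun k => y ^ k) (hd.mid _ _ (by omega) ω ω' hw)
  have l3 := lc_ind (B := Bc J' m₂)
    (hd.arm (3 * 2 ^ J') (2 ^ (J' + m₂) - 1) (by omega) (by omega))
  have l4 : Lc (box (2 ^ (J' + m₂) - 1 + 1) \ box (3 * 2 ^ J' - 1))
      fun ω => y ^ N1 J' m₂ ω * (Bc J' m₂)ᶜ.indicator 1 ω :=
    fun ω ω' hw => congrArg₂ (· * ·) (l2 ω ω' hw) (l3.2 ω ω' hw)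
  have z : (fun ω => y ^ N1 J' m₂ ω * (Bc J' m₂).indicator 1 ω) = (Bc J' m₂).indicator 1 := by
    funext ω
    by_cases h : ω ∈ Bc J' m₂
    · have e : N1 J' m₂ ω = 0 := hq.zero _ _ ω h
      rw [e, pow_zero, one_mul]
    · rw [Set.indicator_of_notMem h, mul_zero]
  have bt : Bdm μ fun ω => y ^ N1 J' m₂ ω := hx.mid _ _ fun k => y ^ k
  have b1 : Bdm μ fun ω => x ^ N1 J m₁ ω := hx.mid _ _ fun k => x ^ k
  have b2 : Bdm μ fun ω => x ^ N1 J (m₁ + (k + 4)) ω := hx.mid _ _ fun k => x ^ k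
  have bG : Bdm μ fun ω => y ^ N1 J' m₂ ω * (Bc J' m₂)ᶜ.indicator 1 ω :=
    hx.mul _ _ bt (hx.ind _ hB.compl)
  have G0 : ∀ ω, 0 ≤ y ^ N1 J' m₂ ω * (Bc J' m₂)ᶜ.indicator (1 : Cf → ℝ) ω := fun ω =>
    mul_nonneg (pow_nonneg hy _) (Set.indicator_nonneg (fun _ _ => zero_le_one) ω)
  have eG : (exm μ fun ω => y ^ N1 J' m₂ ω * (Bc J' m₂)ᶜ.indicator 1 ω) =
      FFm μ y J' m₂ - ppm μ J' m₂ := by
    rw [ZKey.ex_sub hx bt hB, z]
    exact congrArg₂ (· - ·) rfl (integral_indicator_one hB)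
  refine ⟨eG ▸ integral_nonneg G0, ?_, ?_⟩
  · have k1 := h (2 ^ (J + m₁)) p6 (fun ω => x ^ N1 J m₁ ω)
      (fun ω => y ^ N1 J' m₂ ω * (Bc J' m₂)ᶜ.indicator 1 ω) (fun ω => pow_nonneg x0 _) G0
      (fun ω ω' hw => l1 ω ω' fun v hv => hw v (by
        rw [ZKey.zb_box]
        exact Finset.mem_coe.2 (hb.bas.mono _ _ (by omega) (Finset.mem_sdiff.1 hv).1)))
      ⟨_, l4⟩
      (fun ω ω' hw => l4 ω ω' fun v hv => hw v (by
        rw [ZKey.zb_box]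
        exact fun hv' => (Finset.mem_sdiff.1 hv).2
          (hb.bas.mono _ _ (by omega) (Finset.mem_coe.1 hv'))))
    rw [← eG]
    refine k1.trans (integral_mono (hx.int _ (hx.mul _ _ b1 bG))
      (hx.int _ (hx.mul _ _ (hx.mul _ _ b2 bt) (hx.ind _ hB.compl))) fun ω => ?_)
    beta_reduce
    rw [mul_assoc]
    exact mul_le_mul_of_nonneg_right
      (pow_le_pow_right₀ hx1 (ZKey.mid_mono hb _ (by omega) ω)) (G0 ω)
  · have e : (fun ω => x ^ N1 J (m₁ + (k + 4)) ω * y ^ N1 J' m₂ ω * (Bc J' m₂).indicator 1 ω) =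
        fun ω => x ^ N1 J (m₁ + (k + 4)) ω * (Bc J' m₂).indicator 1 ω := by
      funext ω
      rw [mul_assoc, congrFun z ω]
    have e2 : FFm μ (x ^ 2) J (m₁ + (k + 4)) =
        exm μ fun ω => (x ^ N1 J (m₁ + (k + 4)) ω) ^ 2 := by
      unfold FFm
      simp only [← pow_mul, mul_comm]
    rw [e, e2]
    exact ZKey.cs hx b2 (fun ω => pow_nonneg x0 _) hB

end Vale.Agent.P167Q.W
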