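import Vale.Agent.P167W.ZStm

/-! P167W: exponential moment of the number of surrounding clusters. -/

open Finset Filter Topology MeasureTheory
open scoped Classical

namespace Vale.Agent.P167Q.W

namespace ZKm

theorem integ {μ : Measure Cf} [IsProbabilityMeasure μ] {G : Cf → ℝ} (h : Bdm μ G) :
    Integrable G μ := by
  obtain ⟨h1, M, h2⟩ := h
  exact Integrable.of_bound h1.aestronglyMeasurable M (ae_of_all _ fun ω => by simpa using h2 ω)

theorem adm1 : Adm ∅ fun _ => (1 : ℝ) :=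
  ⟨fun _ _ _ => rfl, fun _ => zero_le_one, fun _ _ x hx => absurd hx (notMem_empty x)⟩

theorem key {μ : Measure Cf} (hm : Mod μ) (hz : W_az) (ht : K_til) (ha : K_armq μ)
    (h0 : M_hb0 μ) (h1 : Z_kb μ) (h2 : Z_ch μ) :
    ∃ n0 s0 : ℕ, ∀ J ≥ s0, ∀ z : Sq, ∃ I : ℕ → Finset (Sq × ℕ),
      (∀ i, bz z (3 * 2 ^ (J + i + 1)) ⊆ til (I i)) ∧
      ∀ (m : ℕ) (Φ : Cf → ℝ), Bdm μ Φ → (∀ ω, 0 ≤ Φ ω) →
        (∀ ω, Φ ω ≤ 256 ^ kM (fun i => 2 ^ (J + i + 1) / 2) I 0 m ∅ ω) →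
        exm μ Φ ≤ (2 ^ n0) ^ m := by
  have := hm.prob
  obtain ⟨g, g1, hg⟩ := ha (1 / 512) (by norm_num)
  obtain ⟨n0, s0, hs⟩ := ht g g1
  refine ⟨n0, s0, fun J hJ z => ?_⟩
  have hb : ∀ (w : Sq) (u : ℕ), 1 ≤ u → HB μ (fun _ => 1) (1 / 512) w u (g * u) := by
    intro w u hu R H hA
    refine (h0 w u (g * u) R H hA).trans ?_
    refine mul_le_mul_of_nonneg_right ((hz.le μ hm true w u (g * u)).trans (hg u hu)) ?_
    exact integral_nonneg fun ω => mul_nonneg (hA.2.1 ω) zero_le_one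
  have hge : ∀ i, s0 ≤ 2 ^ (J + i + 1) := fun i => by
    have := Nat.lt_two_pow_self (n := J + i + 1)
    omega
  choose I hI1 hI2 hI3 using fun i => hs (2 ^ (J + i + 1)) (hge i) z
  refine ⟨I, hI2, fun m Φ b1 b2 b3 => ?_⟩
  have kb : ∀ i, KB μ (fun _ => 1) 256 (2 ^ (J + i + 1) / 2) (I i) (2 ^ n0) := by
    intro i R H hA
    refine (h1 256 (1 / 512) _ g (I i) (by norm_num) (by norm_num) (by norm_num)
      (fun j hj => ⟨(hI3 i j hj).2.1, hb _ _ (hI3 i j hj).1⟩) R H hA).trans ?_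
    refine mul_le_mul_of_nonneg_right ?_
      (integral_nonneg fun ω => mul_nonneg (hA.2.1 ω) zero_le_one)
    have e : (1 / (1 - 256 * (1 / 512)) : ℝ) = 2 := by norm_num
    rw [e]
    exact pow_le_pow_right₀ (by norm_num) (hI1 i)
  have mo : Monotone fun i => 2 ^ (J + i + 1) / 2 := fun i j hij =>
    Nat.div_le_div_right (Nat.pow_le_pow_right (by norm_num) (by omega))
  have k := h2 256 (2 ^ n0) _ I (by norm_num) (by positivity) mo kb m 0 ∅ (fun _ => 1) Φ adm1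
    b1 b2 (fun ω _ => b3 ω)
  simpa [exm] using k

theorem amgm (n p q : ℕ) (h : n ≤ p + q) : (16 : ℝ) ^ n ≤ (256 ^ p + 256 ^ q) / 2 := by
  have e : ∀ k : ℕ, (256 : ℝ) ^ k = (16 ^ k) ^ 2 := fun k => by
    rw [← pow_mul, mul_comm, pow_mul]
    norm_num
  have l : (16 : ℝ) ^ n ≤ 16 ^ p * 16 ^ q := by
    rw [← pow_add]
    exact pow_le_pow_right₀ (by norm_num) h
  rw [e p, e q]
  nlinarith [sq_nonneg ((16 : ℝ) ^ p - 16 ^ q)]

end ZKm

open ZKm in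
theorem z_km {μ : Measure Cf} {a : ℝ} (hm : Mod μ) (hz : W_az) (hx : W_bd μ a) (ht : K_til)
    (ha : K_armq μ) (h0 : M_hb0 μ) (h1 : Z_kb μ) (h2 : Z_ch μ) (h3 : Z_mc) : K_midq μ := by
  have := hm.prob
  obtain ⟨n0, s0, hk⟩ := key hm hz ht ha h0 h1 h2
  refine ⟨n0, s0, fun J hJ m _ => ?_⟩
  obtain ⟨I, i1, i2⟩ := hk J hJ 0
  obtain ⟨I', j1, j2⟩ := hk J hJ (0 - (1, 0))
  have lc : ∀ c, Lc (box (2 ^ (J + m) - 1 + 1))
      fun ω => (256 : ℝ) ^ mc c (3 * 2 ^ J) (2 ^ (J + m) - 1) ω := fun c ω ω' e => by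
    show (256 : ℝ) ^ _ = 256 ^ _
    rw [h3.lc c _ _ ω ω' e]
  have bd := fun c => hx.loc _ _ (lc c)
  have p1 := i2 m _ (bd true) (fun ω => by positivity) fun ω =>
    pow_le_pow_right₀ (by norm_num) (h3.ev J m I ω i1)
  have lc' : Lc ((box (2 ^ (J + m) - 1 + 1)).image fun v : Sq => v + (-1, 0))
      fun ω => (256 : ℝ) ^ mc false (3 * 2 ^ J) (2 ^ (J + m) - 1) (sh (-1, 0) ω) :=
    fun ω ω' e => lc false _ _ fun v hv => by
      unfold sh
      rw [e _ (mem_image_of_mem _ hv)]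
  have p2 := j2 m _ (hx.loc _ _ lc') (fun ω => by positivity) fun ω =>
    pow_le_pow_right₀ (by norm_num) (h3.od J m I' ω j1)
  have e : (exm μ fun ω => (256 : ℝ) ^ mc false (3 * 2 ^ J) (2 ^ (J + m) - 1) (sh (-1, 0) ω)) =
      exm μ fun ω => (256 : ℝ) ^ mc false (3 * 2 ^ J) (2 ^ (J + m) - 1) ω := by
    have mp := hm.inv (-1, 0)
    have k := integral_map (μ := μ) (φ := sh (-1, 0)) mp.measurable.aemeasurable
      (f := fun ω => (256 : ℝ) ^ mc false (3 * 2 ^ J) (2 ^ (J + m) - 1) ω)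
      (by rw [mp.map_eq]; exact (bd false).1.aestronglyMeasurable)
    rw [mp.map_eq] at k
    exact k.symm
  rw [e] at p2
  have q : ((2 : ℝ) ^ n0) ^ m ≤ Real.exp (n0 * m) := by
    have t : (2 : ℝ) ≤ Real.exp 1 := by
      have := Real.add_one_le_exp (1 : ℝ)
      linarith
    rw [← pow_mul, ← Nat.cast_mul, ← Real.exp_one_pow]
    exact pow_le_pow_left₀ (by norm_num) t _
  have m1 := integ (bd true)
  have m2 := integ (bd false)
  calc FFm μ 16 J m ≤ ∫ ω, ((256 : ℝ) ^ mc true (3 * 2 ^ J) (2 ^ (J + m) - 1) ω +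
        256 ^ mc false (3 * 2 ^ J) (2 ^ (J + m) - 1) ω) / 2 ∂μ :=
        integral_mono (integ (hx.mid _ _ fun n => (16 : ℝ) ^ n)) ((m1.add m2).div_const 2)
          fun ω => amgm _ _ _ (h3.le _ _ ω)
    _ = ((exm μ fun ω => (256 : ℝ) ^ mc true (3 * 2 ^ J) (2 ^ (J + m) - 1) ω) +
        exm μ fun ω => (256 : ℝ) ^ mc false (3 * 2 ^ J) (2 ^ (J + m) - 1) ω) / 2 := by
        rw [integral_div, integral_add m1 m2]
        rfl
    _ ≤ ((2 : ℝ) ^ n0) ^ m := by linarith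
    _ ≤ _ := q

end Vale.Agent.P167Q.W
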