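import Vale.Agent.P167W.ZStm
import Vale.Agent.P167Q.XFin2

/-! P167W: the three charge inequality. -/

open Finset Filter Topology MeasureTheory
open scoped Classical

namespace Vale.Agent.P167Q.W

namespace ZL2

theorem wq_ge {a θ : ℝ} (ha : 0 ≤ a ∧ a ≤ Real.pi / 3) (h1 : -a < θ) (h2 : θ < 0) :
    1 ≤ wq a θ := by
  have := Real.pi_pos
  have c : 0 < Real.cos a := Real.cos_pos_of_mem_Ioo ⟨by linarith [ha.1], by linarith [ha.2]⟩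
  unfold wq
  rw [le_div_iff₀ c, one_mul]
  exact Real.cos_le_cos_of_nonneg_of_le_pi (by linarith) (by linarith [ha.2]) (by linarith)

theorem ex_sub {μ : Measure Cf} {a : ℝ} (hx : W_bd μ a) {G : Cf → ℝ} (hG : Bdm μ G) {B : Set Cf}
    (hB : MeasurableSet B) :
    (exm μ fun ω => G ω * Bᶜ.indicator 1 ω) = exm μ G - exm μ fun ω => G ω * B.indicator 1 ω := by
  unfold exm
  rw [← integral_sub (hx.int _ hG) (hx.int _ (hx.mul _ _ hG (hx.ind B hB)))]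
  refine integral_congr_ae (Eventually.of_forall fun ω => ?_)
  by_cases h : ω ∈ B <;> simp [h]

theorem ff_nn (μ : Measure Cf) {x : ℝ} (hx : 0 ≤ x) (J m : ℕ) : 0 ≤ FFm μ x J m :=
  integral_nonneg fun _ => pow_nonneg hx _

end ZL2

open ZL2 XFin2x in
theorem z_l2 {μ : Measure Cf} {a : ℝ} (ha : 0 ≤ a ∧ a ≤ Real.pi / 3) (hb : Base) (hd : X_dep)
    (_hm : Mod μ) (hx : W_bd μ a) (hg : G_gff3 μ a) (hu : I_upq μ a) (hl : I_loq μ a)
    (ho : D_good3 a) (hk : Z_key μ) : Z_l2 μ a := by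
  obtain ⟨s, J₀, hs, c, c0, hk⟩ := hk
  refine ⟨s, hs, fun θ p h1 h2 hp => ?_⟩
  have p0 : 0 < p := by linarith
  have v1 : 1 ≤ wq a θ := wq_ge ha h1 h2
  have v2 : 1 ≤ wq a (θ / 2) := wq_ge ha (by linarith) (by linarith)
  have w1 : 0 < wq a θ := by linarith
  have w2 : 0 < wq a (θ / 2) := by linarith
  obtain ⟨A, hA⟩ := hg
  obtain ⟨C₁, hC₁⟩ := hA (θ / 2) (θ / 2)
  obtain ⟨C₂, hC₂⟩ := hu A (θ / 2) (θ / 2) p hp
  obtain ⟨C₃, hC₃⟩ := hl A (θ / 2) (θ / 2) ((a + θ) / 2) p (by linarith) hp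
    (by rw [add_halves]; exact w1) w2
  refine ⟨C₃ - Real.log c * p + |C₁| + |C₂|, fun m₁ m₂ hm₁ hm₂ => ?_⟩
  filter_upwards [hC₁ (m₁ + s) m₂ (by omega) hm₂, eventually_ge_atTop J₀] with J hJ hJ₀
  obtain ⟨ψ₀, ψ₁, ψ₂, hok, hup⟩ := hJ
  have hm := meas hb hd (J + (m₁ + s)) m₂
  have k1 := hC₃ _ hok (Bc (J + (m₁ + s)) m₂)ᶜ hm.compl fun ω hω =>
    ho A θ _ hok ω h1 h2 (not_not.mp hω)
  have k2 := hC₂ _ hok (Bc (J + (m₁ + s)) m₂) hm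
  simp only [Tri.Z, bq, Tri.J₁, add_halves] at k1 k2 hup
  rw [abs_of_pos w1, abs_of_pos w2] at k2
  obtain ⟨y0, y1, -⟩ := hk J hJ₀ m₁ m₂ (wq a θ ^ (1 / p)) (wq a (θ / 2) ^ (1 / p)) hm₂
    (Real.one_le_rpow v1 (by positivity)) (Real.rpow_nonneg w2.le _)
  obtain ⟨-, -, y2⟩ := hk J hJ₀ m₁ m₂ (wq a θ ^ p) (wq a (θ / 2) ^ p) hm₂
    (Real.one_le_rpow v1 p0.le) (Real.rpow_nonneg w2.le _)
  have n1 := mul_nonneg (ff_nn μ (Real.rpow_nonneg w1.le (1 / p)) J m₁) y0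
  have z1 := (Real.rpow_le_rpow (mul_nonneg c0.le n1) y1 p0.le).trans k1
  have e1 : (wq a θ ^ p) ^ 2 = wq a θ ^ (2 * p) := by
    rw [← Real.rpow_natCast, ← Real.rpow_mul w1.le, mul_comm]
    norm_num
  rw [e1] at y2
  have n2 : 0 ≤ FFm μ (wq a θ ^ (2 * p)) J (m₁ + s) * ppm μ (J + (m₁ + s)) m₂ :=
    mul_nonneg (ff_nn μ (Real.rpow_nonneg w1.le _) _ _) measureReal_nonneg
  have z2 := k2.trans (mul_le_mul_of_nonneg_left (Real.rpow_le_rpow (integral_nonneg fun ω =>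
    mul_nonneg (mul_nonneg (pow_nonneg (Real.rpow_nonneg w1.le _) _)
      (pow_nonneg (Real.rpow_nonneg w2.le _) _))
      (Set.indicator_nonneg (fun _ _ => zero_le_one) _)) y2 (by positivity)) (Real.exp_pos _).le)
  rw [← Real.rpow_mul n2, one_div_mul_one_div] at z2
  rw [Real.mul_rpow c0.le n1, Real.rpow_def_of_pos c0] at z1
  have bn : Bdm μ (nnq a ⟨J, m₁ + s, m₂, ψ₀, ψ₁, ψ₂⟩ (θ / 2) (θ / 2)) := hx.nb _ _
  clear k1 k2
  generalize nnq a ⟨J, m₁ + s, m₂, ψ₀, ψ₁, ψ₂⟩ (θ / 2) (θ / 2) = nn at z1 z2 hup bn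
  rw [ZL2.ex_sub hx bn hm] at z1
  have k3 : -(exm μ fun ω => nn ω * (Bc (J + (m₁ + s)) m₂).indicator 1 ω) ≤
      exm μ fun ω => |nn ω| * (Bc (J + (m₁ + s)) m₂).indicator 1 ω := by
    unfold exm
    rw [← integral_neg]
    refine integral_mono (hx.int _ (hx.mul _ _ bn (hx.ind _ hm))).neg
      (hx.int _ (hx.mul _ _ (hx.cont _ _ bn continuous_abs) (hx.ind _ hm))) fun ω => ?_
    by_cases h : ω ∈ Bc (J + (m₁ + s)) m₂
    · simp only [Set.indicator_of_mem h, Pi.one_apply, mul_one]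
      exact neg_le_abs _
    · simp [Set.indicator_of_notMem h]
  have e : -(aq a * θ ^ 2 * (m₁ + s : ℕ)) - θ * bem μ a J (m₁ + s) +
      (-(aq a * (θ / 2) ^ 2 * m₂) - θ / 2 * bem μ a (J + (m₁ + s)) m₂) =
      -(aq a * (θ ^ 2 * (m₁ + s : ℕ) + (θ / 2) ^ 2 * m₂)) -
        (θ * bem μ a J (m₁ + s) + θ / 2 * bem μ a (J + (m₁ + s)) m₂) := by
    ring
  rw [e]
  refine le_trans ?_ (fin C₁ C₂ (C₃ - Real.log c * p) _ _ _ (Real.rpow_nonneg n2 _))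
  rw [sub_right_comm, Real.exp_sub, div_mul_eq_mul_div, le_div_iff₀' (Real.exp_pos _)]
  refine z1.trans (mul_le_mul_of_nonneg_left ?_ (Real.exp_pos _).le)
  linarith

end Vale.Agent.P167Q.W
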