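import Vale.Agent.P167W.ZStm
import Vale.Agent.P167Q.XKmid

/-! P167W: surrounding clusters of one colour. -/

open Finset Filter Topology MeasureTheory
open scoped Classical

namespace Vale.Agent.P167Q.W

namespace ZMc

theorem par_op {ω : Cf} {x y : Sq} (h : Op ω x y) : Even (y.1 + y.2) ↔ Even (x.1 + x.2) := by
  obtain ⟨v, i, rfl, rfl⟩ := h
  unfold ed
  cases i <;> split_ifs <;> simp_all only [Int.even_iff, Bool.not_false, Bool.not_true,
    not_true_eq_false, Bool.false_eq_true] <;> omega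

theorem par {ω : Cf} {x y : Sq} (h : y ∈ clus ω x) : Even (y.1 + y.2) ↔ Even (x.1 + x.2) := by
  have h' : Relation.ReflTransGen (Op ω) x y := h
  clear h
  induction h' with
  | refl => rfl
  | tail _ hs ih => exact (par_op hs).trans ih

theorem sub (hb : Base) (hg : X_geo) (c : Bool) (a b : ℕ) (ω ω' : Cf)
    (h : ∀ v ∈ box (b + 1), ω v = ω' v) : mc c a b ω ≤ mc c a b ω' := by
  refine card_le_card fun C hC => ?_
  rw [mem_filter] at hC ⊢
  obtain ⟨h1, h2, h3⟩ := hC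
  obtain ⟨x, hx, rfl⟩ := mem_image.1 h1
  obtain ⟨e1, e2⟩ := hg.loc ω ω' x fun v b2 i hv => h v ((hb.bas.edb b v b2 i).2 (h2.1 hv))
  refine ⟨mem_image.2 ⟨x, hx, e1⟩, ⟨h2.1, h2.2.1, fun y hy => ?_⟩, h3⟩
  rw [e2]
  exact h2.2.2 y hy

theorem le (a b : ℕ) (ω : Cf) : mid a b ω ≤ mc true a b ω + mc false a b ω := by
  refine le_trans (card_le_card fun C hC => ?_) (card_union_le _ _)
  rw [mem_filter] at hC
  obtain ⟨x, hx, rfl⟩ := mem_image.1 hC.1
  rw [mem_union, mem_filter, mem_filter]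
  by_cases he : Even (x.1 + x.2)
  · exact Or.inl ⟨hC.1, hC.2, fun y hy => decide_eq_true ((par hy).2 he)⟩
  · exact Or.inr ⟨hC.1, hC.2, fun y hy => decide_eq_false fun h => he ((par hy).1 h)⟩

theorem le_kM {s : ℕ → ℕ} {I : ℕ → Finset (Sq × ℕ)} {m : ℕ} {ω : Cf} (A : Finset (Set Sq))
    (f : Set Sq → Set Sq) (hf : Function.Injective f)
    (h : ∀ C ∈ A, ∃ i < m, ∃ x ∈ til (I i), f C = clus ω x ∧ x ∈ clus ω x ∧
      (∀ y ∈ clus ω x, Even (y.1 + y.2)) ∧ ¬Sml (clus ω x) (s i)) :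
    A.card ≤ kM s I 0 m ∅ ω := by
  unfold kM
  refine card_le_card_of_injOn f (fun C hC => ?_) hf.injOn
  obtain ⟨i, hi, x, hx, e, hself, he, hS⟩ := h C (mem_coe.1 hC)
  have hm : i ∈ Ico 0 (0 + m) := mem_Ico.2 ⟨Nat.zero_le _, by omega⟩
  rw [mem_coe, mem_filter, e]
  exact ⟨mem_image.2 ⟨x, mem_biUnion.2 ⟨i, hm, hx⟩, rfl⟩, he,
    fun y hy => absurd hy (notMem_empty y), i, hm, ⟨x, hx, hself⟩, hS⟩

theorem mem_mc {c : Bool} {a b : ℕ} {ω : Cf} {n : ℕ}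
    (h : ∀ A : Finset (Set Sq), (∀ C ∈ A, (∃ x, clus ω x = C) ∧ IsMid a b ω C ∧
      ∀ x ∈ C, decide (Even (x.1 + x.2)) = c) → A.card ≤ n) : mc c a b ω ≤ n := by
  unfold mc
  refine h _ fun C hC => ?_
  rw [mem_filter] at hC
  obtain ⟨x, -, hx⟩ := mem_image.1 hC.1
  exact ⟨⟨x, hx⟩, hC.2⟩

end ZMc

theorem z_mc (hb : Base) (hg : X_geo) (hs : X_sh) : Z_mc := by
  refine ⟨fun c a b ω ω' h => le_antisymm (ZMc.sub hb hg c a b ω ω' h)
    (ZMc.sub hb hg c a b ω' ω fun v hv => (h v hv).symm), ZMc.le, fun J m I ω hI => ?_,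
    fun J m I ω hI => ?_⟩
  · refine ZMc.mem_mc fun A hA => ZMc.le_kM A id Function.injective_id fun C hC => ?_
    obtain ⟨⟨x₀, rfl⟩, h2, h3⟩ := hA C hC
    obtain ⟨i, hi, ⟨x, hx, hxC⟩, hS⟩ := XKmidx.geo hb hg h2
    rw [← hb.bas.cleq ω x₀ x hxC] at h3 hS ⊢
    exact ⟨i, hi, x, hI i hx, rfl, hb.bas.self ω x, fun y hy => of_decide_eq_true (h3 y hy), hS⟩
  · refine ZMc.mem_mc fun A hA => ZMc.le_kM A (fun C : Set Sq => {y | y - (-1, 0) ∈ C})
      (fun C C' h => ?_) fun C hC => ?_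
    · ext u
      have h4 : u + (-1, 0) ∈ {y | y - (-1, 0) ∈ C} ↔ u + (-1, 0) ∈ {y | y - (-1, 0) ∈ C'} :=
        Set.ext_iff.1 h _
      simpa only [Set.mem_setOf_eq, add_sub_cancel_right] using h4
    · obtain ⟨⟨x₀, rfl⟩, h2, h3⟩ := hA C hC
      obtain ⟨i, hi, ⟨x, hx, hxC⟩, hS⟩ := XKmidx.geo hb hg h2
      rw [← hb.bas.cleq _ x₀ x hxC] at h3 hS ⊢
      have e : {y | y - (-1, 0) ∈ clus (sh (-1, 0) ω) x} = clus ω (x + (-1, 0)) := by
        ext y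
        rw [Set.mem_setOf_eq, hs.cl, sub_add_cancel]
      refine ⟨i, hi, x + (-1, 0), hI i ?_, e, hb.bas.self ω _, fun y hy => ?_, fun h => hS ?_⟩
      · rw [mem_bz] at hx ⊢
        simp only [Prod.fst_add, Prod.snd_add, Prod.fst_sub, Prod.snd_sub, Prod.fst_zero,
          Prod.snd_zero] at hx ⊢
        omega
      · rw [← e] at hy
        have h4 := of_decide_eq_false (h3 _ hy)
        simp only [Prod.fst_sub, Prod.snd_sub, Int.even_iff] at h4 ⊢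
        omega
      · intro u hu v hv
        have h4 := h _ ((hs.cl _ ω x u).1 hu) _ ((hs.cl _ ω x v).1 hv)
        simp only [Prod.fst_add, Prod.snd_add] at h4
        omega

end Vale.Agent.P167Q.W
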