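import Vale.Agent.P167W.ZStm
import Vale.Agent.P167.PcInt

/-! P167W, three charges: wired arms are not likely. -/

open Finset Filter Topology MeasureTheory
open scoped Classical

namespace Vale.Agent.P167Q.W

open Vale.Agent.P167 (Q.ea Q.eb Pc.chi)

namespace ZWb

theorem ea_ev (v : Sq) : Even ((Q.ea v).1 + (Q.ea v).2) := by
  unfold Q.ea
  split_ifs with h
  · exact h
  · simp only [Prod.fst_sub, Prod.snd_sub]
    rw [Int.even_iff] at h ⊢
    omega

theorem eb_ev (v : Sq) : Even ((Q.eb v).1 + (Q.eb v).2) := by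
  unfold Q.eb
  split_ifs with h
  · simp only [Prod.fst_sub, Prod.snd_sub]
    rw [Int.even_iff] at h ⊢
    omega
  · simp only [Prod.fst_sub, Prod.snd_sub]
    rw [Int.even_iff] at h ⊢
    omega

theorem op_ab {ω : Cf} {v : Sq} (h : ω v = true) : Op ω (Q.ea v) (Q.eb v) := by
  by_cases e : Even (v.1 + v.2)
  · refine ⟨v, true, ?_, ?_⟩
    · simp [ed, Q.ea, h, e]
    · simp [ed, Q.eb, h, e, Prod.ext_iff]
  · refine ⟨v, false, ?_, ?_⟩
    · simp [ed, Q.ea, h, e, Prod.ext_iff]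
    · simp [ed, Q.eb, h, e, Prod.ext_iff]

theorem cn (hb : Base) {ω : Cf} {x y : Sq} (h : P167.Q.Cn Q.ea Q.eb P167.Q.nil ω x y) :
    x = y ∨ (Even (x.1 + x.2) ∧ Even (y.1 + y.2) ∧ y ∈ clus ω x) := by
  unfold P167.Q.Cn at h
  induction h with
  | rel x y h =>
    rcases h with ⟨v, hv, rfl, rfl⟩ | h
    · exact Or.inr ⟨ea_ev v, eb_ev v, Relation.ReflTransGen.single (op_ab hv)⟩
    · exact h.elim
  | refl x => exact Or.inl rfl
  | symm x y _ ih =>
    rcases ih with rfl | ⟨a, b, c⟩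
    · exact Or.inl rfl
    · refine Or.inr ⟨b, a, ?_⟩
      rw [hb.bas.cleq ω x y c]
      exact hb.bas.self ω x
  | trans x y z _ _ ih1 ih2 =>
    rcases ih1 with rfl | ⟨a, b, c⟩
    · exact ih2
    rcases ih2 with rfl | ⟨_, e, f⟩
    · exact Or.inr ⟨a, b, c⟩
    · refine Or.inr ⟨a, e, ?_⟩
      rw [← hb.bas.cleq ω x y c]
      exact f

theorem ar_az (hb : Base) {ω : Cf} {z : Sq} {a b : ℕ} (hab : a ≤ b) (h : P167.Q.Ar z a b ω) :
    ω ∈ AZ true z a b := by
  obtain ⟨x, hx, y, hy, hc⟩ := h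
  rcases cn hb hc with rfl | ⟨e, -, f⟩
  · exfalso
    apply hy
    rw [P167.Q.mem_zb] at hx ⊢
    have : (a : ℤ) ≤ b := by exact_mod_cast hab
    omega
  · exact ⟨x, hx, decide_eq_true e, fun hs => hy (hs f)⟩

theorem integ {μ : Measure Cf} [IsProbabilityMeasure μ] {V : Finset Sq} {G : Cf → ℝ}
    (h : Lc V G) : Integrable G μ := by
  obtain ⟨m, ⟨b, hb⟩, -⟩ := P167.Pc.s_int V G h
  exact Integrable.of_bound m.aestronglyMeasurable b (Eventually.of_forall hb)

end ZWb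

theorem z_wb {r : ℝ} {μ : Measure Cf} (h1 : 1 ≤ r) (hμ : P167.Q.FKm r μ) (hb : Base) (hm : Mod μ)
    (hz : W_az) (hd : P167.Q.Z_dep) (hs : V_sup) (h : S_rsw μ) : WB r := by
  obtain ⟨g, hg, h⟩ := h (1 / 2) (by norm_num)
  have := hm.prob
  refine ⟨g, 1, hg, fun u hu z => ?_⟩
  have hab : u ≤ g * u := Nat.le_mul_of_pos_left u hg
  refine hs r μ h1 hμ hm (bz z (g * u + 1)) _ _ (hd.1 z u (g * u))
    (fun ω ω' e => hd.2.1 z u (g * u) hab ω ω' fun v hv => e v hv) fun G hG => ?_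
  refine le_trans ?_ (h true z u G hu hG)
  obtain ⟨⟨V, hV, -⟩, G0⟩ := hG
  have hl := hz.lc true z u (g * u)
  have hI : Lc (bz z (g * u + 1) ∪ V)
      fun ω => (AZ true z u (g * u)).indicator (1 : Cf → ℝ) ω * G ω := by
    intro ω ω' e
    have e1 : (ω ∈ AZ true z u (g * u)) = (ω' ∈ AZ true z u (g * u)) :=
      hl ω ω' fun i hi => e i (mem_union_left _ hi)
    have e2 : G ω = G ω' := hV ω ω' fun i hi => e i (mem_union_right _ hi)
    simp only [Set.indicator_apply, e1, e2, Pi.one_apply]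
  unfold exm
  refine integral_mono_of_nonneg (Eventually.of_forall fun ω => ?_) (ZWb.integ hI)
    (Eventually.of_forall fun ω => ?_)
  · refine mul_nonneg ?_ (G0 ω)
    unfold Pc.chi
    split_ifs <;> norm_num
  · refine mul_le_mul_of_nonneg_right ?_ (G0 ω)
    unfold Pc.chi
    split_ifs with ha
    · rw [Set.indicator_of_mem (ZWb.ar_az hb hab ha)]
      exact le_rfl
    · exact Set.indicator_nonneg (fun _ _ => zero_le_one) ω

end Vale.Agent.P167Q.W
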