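import Vale.Agent.P167W.WStm
import Vale.Agent.P167.QQm
import Vale.Agent.P167.PcInt

/-! P167W: total variation decoupling across an annulus. -/

open Finset Relation Filter Topology MeasureTheory
open scoped Classical BigOperators

namespace Vale.Agent.P167Q.W

open Vale.Agent.P152 (IsTest gcov Vx Site v6)
open Vale.Agent.P167 (Q.ea Q.eb Q.fx Q.f0 Q.FKm Pc.chi Pc.Loc Pc.ins Pc.loop)
open Vale.Agent.P153.RSW (Ev)

namespace WTvx

theorem loc_ind (hz : W_az) (z : Sq) (n N : ℕ) :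
    Lc (bz z (N + 1)) ((AZ true z n N).indicator (1 : Cf → ℝ)) := fun ω ω' e => by
  have h : (ω ∈ AZ true z n N) = (ω' ∈ AZ true z n N) := hz.lc true z n N ω ω' e
  simp only [Set.indicator, h, Pi.one_apply]

theorem loc_off {W : Finset Sq} {G : Cf → ℝ} (h : Off W G) : Pc.Loc G := by
  obtain ⟨⟨V, hV, -⟩, -⟩ := h
  exact ⟨V, hV⟩

theorem upper (hl : P167.Q.T_lin) (hz : W_az) (h2 : V_det) (h3 : V_rep) (h4 : V_lift) {r : ℝ}
    {μ : Measure Cf} (hr : 1 ≤ r) (hμ : Q.FKm r μ) (z : Sq) {n N : ℕ} (hn : n ≤ N) {F G : Cf → ℝ}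
    (hF : ∀ ω, 0 ≤ F ω ∧ F ω ≤ 1) (lF : Lc (bz z n) F) (hG : Off (bz z (N + 1)) G) :
    (exm μ fun ω => F ω * G ω) ≤ Q.f0 r (bz z (N + 1)) F * exm μ G +
      exm μ fun ω => (AZ true z (n + 1) N).indicator 1 ω * G ω := by
  have := hμ.1
  have hT : bz z n ⊆ bz z (N + 1) := fun x hx => by
    rw [mem_bz] at hx ⊢
    push_cast
    omega
  have lI := loc_ind hz z (n + 1) N
  have h := h4 r μ hr hμ (bz z (N + 1)) F
    (fun ω => Q.f0 r (bz z (N + 1)) F + (AZ true z (n + 1) N).indicator 1 ω) G ⟨_, lF⟩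
    ⟨_, fun ω ω' e => congrArg (Q.f0 r (bz z (N + 1)) F + ·) (lI ω ω' e)⟩
    (fun ξ => ?_) hG
  · refine h.trans_eq ?_
    simp only [exm, add_mul]
    rw [integral_add ((P167.Q.Qm.intg P167.Pc.s_int μ (loc_off hG)).const_mul _)
      (P167.Q.Qm.intg P167.Pc.s_int μ (P167.Q.Qm.loc_mul ⟨_, lI⟩ (loc_off hG))),
      integral_const_mul]
  obtain ⟨w, -, -, hw⟩ := h3 r _ _ (fun _ => false) ξ hr hT fun v _ => Bool.false_le _
  obtain ⟨w1, w2⟩ := hw F lF
  have w3 := w1.trans_le (w2 fun ω => (hF ω).1)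
  obtain ⟨l1, l2, -, l4, -⟩ := hl _ _ r Q.ea Q.eb P167.Q.nil (bz z (N + 1)) ξ (by linarith)
  have a1 := l4 F (fun ω => F ω * Pc.chi (Cut (bz z (N + 1)) (bz z n) ω) +
    (AZ true z (n + 1) N).indicator 1 ω) fun ω => by
      by_cases hω : ω ∈ AZ true z (n + 1) N
      · have : 0 ≤ F ω * Pc.chi (Cut (bz z (N + 1)) (bz z n) ω) := by
          refine mul_nonneg (hF ω).1 ?_
          unfold Pc.chi
          split_ifs <;> norm_num
        rw [Set.indicator_of_mem hω, Pi.one_apply]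
        linarith [(hF ω).2]
      · rw [Set.indicator_of_notMem hω, Pc.chi, if_pos (h2.az z n N ω hω), mul_one, add_zero]
  rw [l2] at a1
  unfold Q.fx at w3 ⊢
  rw [l2, l1]
  exact a1.trans (add_le_add w3 le_rfl)

theorem both (hl : P167.Q.T_lin) (hz : W_az) (h2 : V_det) (h3 : V_rep) (h4 : V_lift) {r : ℝ}
    {μ : Measure Cf} (hr : 1 ≤ r) (hμ : Q.FKm r μ) (z : Sq) {n N : ℕ} (hn : n ≤ N) {F G : Cf → ℝ}
    (hF : ∀ ω, 0 ≤ F ω ∧ F ω ≤ 1) (lF : Lc (bz z n) F) (hG : Off (bz z (N + 1)) G) :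
    |(exm μ fun ω => F ω * G ω) - Q.f0 r (bz z (N + 1)) F * exm μ G| ≤
      exm μ fun ω => (AZ true z (n + 1) N).indicator 1 ω * G ω := by
  have := hμ.1
  have a1 := upper hl hz h2 h3 h4 hr hμ z hn hF lF hG
  have a2 := upper hl hz h2 h3 h4 hr hμ z hn (F := fun ω => 1 + -1 * F ω)
    (fun ω => ⟨by linarith [(hF ω).2], by linarith [(hF ω).1]⟩)
    (fun ω ω' e => congrArg (1 + -1 * ·) (lF ω ω' e)) hG
  obtain ⟨l1, l2, l3, -⟩ := hl _ _ r Q.ea Q.eb P167.Q.nil (bz z (N + 1)) (fun _ => false)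
    (by linarith)
  have e1 : Q.f0 r (bz z (N + 1)) (fun ω => 1 + -1 * F ω) = 1 + -1 * Q.f0 r (bz z (N + 1)) F := by
    unfold Q.f0 Q.fx
    rw [l2, l1, l3]
  have e2 : (exm μ fun ω => (1 + -1 * F ω) * G ω) = exm μ G - exm μ fun ω => F ω * G ω := by
    unfold exm
    rw [← integral_sub (P167.Q.Qm.intg P167.Pc.s_int μ (loc_off hG))
      (P167.Q.Qm.intg P167.Pc.s_int μ (P167.Q.Qm.loc_mul ⟨_, lF⟩ (loc_off hG)))]
    exact integral_congr_ae (ae_of_all _ fun ω => by ring)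
  rw [e1, e2] at a2
  rw [abs_le]
  constructor <;> linarith

end WTvx

open WTvx in
theorem v_tv (_hb : Base) (hl : P167.Q.T_lin) (hz : W_az) (h2 : V_det) (h3 : V_rep)
    (h4 : V_lift) : V_tv := by
  intro r μ hr hμ z n N F G hn hF lF hG
  have := hμ.1
  have a1 := both hl hz h2 h3 h4 hr hμ z hn hF lF hG
  have a2 := both hl hz h2 h3 h4 hr hμ z hn (G := fun _ => 1) hF lF
    ⟨⟨∅, fun _ _ _ => rfl, disjoint_empty_left _⟩, fun _ => zero_le_one⟩
  have hm : MeasurableSet (AZ true z (n + 1) N) :=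
    (measurable_indicator_const_iff (1 : ℝ)).1 (P167.Pc.s_int _ _ (loc_ind hz z (n + 1) N)).1
  have g0 : 0 ≤ exm μ G := integral_nonneg hG.2
  simp only [exm, mul_one, integral_const, probReal_univ, one_smul, integral_indicator_one hm] at a2
  have a3 := mul_le_mul_of_nonneg_right a2 g0
  rw [← abs_of_nonneg g0, ← abs_mul, abs_of_nonneg g0, sub_mul] at a3
  change |exm μ F * exm μ G - _| ≤ _ at a3
  rw [abs_le] at a1 a3 ⊢
  constructor <;> linarith [a1.1, a1.2, a3.1, a3.2]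

end Vale.Agent.P167Q.W
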