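import Vale.Agent.P167W.TStm
import Vale.Agent.P167Q.Y0

/-! P167W: basic facts on the arm events of the random-cluster model. -/

open Finset Relation Filter Topology MeasureTheory
open scoped Classical

namespace Vale.Agent.P167Q.W.T

namespace T0

open Y0x

variable {μ : Measure Cf} {α : ℝ}

theorem pre (h : Aq μ α) (x : Sq) (k : ℕ) : Ax x k = sh x ⁻¹' BA true 0 k := by
  ext ω
  rw [Set.mem_preimage, ba0]
  refine not_congr ⟨fun c y hy => ?_, fun c y hy => ?_⟩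
  · rw [h.sh.cl, zero_add] at hy
    exact mem_coe.2 (tr.1 (mem_coe.1 (c hy)))
  · have : y - x ∈ clus (sh x ω) 0 := by rwa [h.sh.cl, zero_add, sub_add_cancel]
    have := (tr (x := x)).2 (mem_coe.1 (c this))
    rw [sub_add_cancel] at this
    exact mem_coe.2 this

theorem ax (h : Aq μ α) (x : Sq) (k : ℕ) : Le (bz x (k + 1)) (Ax x k) ∧
    μ.real (Ax x k) = pcm μ true 0 k ∧ (Even (x.1 + x.2) → IsUpperSet (Ax x k)) := by
  rw [pre h]
  refine ⟨fun ω ω' e => h.dep.ba true 0 k _ _ fun v hv => ?_,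
    (h.md.inv x).measureReal_preimage
      ((h.base.loc _ _).2 _ (h.dep.ba true 0 k)).1.nullMeasurableSet,
    fun hx => (h.dep.up 0 k).preimage fun ω ω' e v => ?_⟩
  · unfold sh
    rw [e _ (tr.2 hv)]
  · unfold sh
    rw [decide_eq_false (Int.not_odd_iff_even.2 hx), Bool.false_xor, Bool.false_xor]
    exact e _

theorem pol (h : Aq μ α) (ε : ℝ) (hε : 0 < ε) : ∃ C : ℝ, 1 ≤ C ∧ ∀ k : ℕ, 1 ≤ k →
    (k : ℝ) ^ (-(α + ε)) ≤ C * pcm μ true 0 k ∧
      pcm μ true 0 k ≤ C * (k : ℝ) ^ (-(α - ε)) := by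
  obtain ⟨k0, hk⟩ := eventually_atTop.1 ((h.eup ε hε).and (h.elo ε hε))
  have a0 := h.a0
  have a1 := h.a1
  have p0 := h.rsw.2 k0
  have i0 : 0 ≤ (pcm μ true 0 k0)⁻¹ := (inv_pos.2 p0).le
  have n0 : (0 : ℝ) ≤ k0 := Nat.cast_nonneg _
  refine ⟨1 + (pcm μ true 0 k0)⁻¹ + k0, by linarith, fun k h1 => ?_⟩
  have k1 : (1 : ℝ) ≤ k := Nat.one_le_cast.2 h1
  have kp : (0 : ℝ) < k := by linarith
  have pk := h.rsw.2 k
  have rp := Real.rpow_pos_of_pos kp (-(α - ε))
  rcases le_or_gt k0 k with c | c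
  · obtain ⟨u, l⟩ := hk k c
    rw [← neg_mul, mul_comm, ← Real.rpow_def_of_pos kp] at u l
    exact ⟨l.trans (le_mul_of_one_le_left pk.le (by linarith)),
      u.trans (le_mul_of_one_le_left rp.le (by linarith))⟩
  · have m := h.sub.mc true 0 0 k0 k le_rfl c.le
    have := h.md.prob
    have q1 : pcm μ true 0 k ≤ 1 := measureReal_le_one
    have q2 : (k : ℝ) ≤ k0 := Nat.cast_le.2 c.le
    constructor
    · refine (Real.rpow_le_one_of_one_le_of_nonpos k1 (by linarith)).trans ?_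
      exact (inv_mul_cancel₀ p0.ne').symm.trans_le
        (mul_le_mul (by linarith) m p0.le (by linarith))
    · have q3 := Real.rpow_le_rpow_of_exponent_le k1 (show (-1 : ℝ) ≤ -(α - ε) by linarith)
      rw [Real.rpow_neg_one] at q3
      exact q1.trans ((mul_inv_cancel₀ kp.ne').symm.trans_le
        (mul_le_mul (by linarith) q3 (inv_pos.2 kp).le (by linarith)))

theorem az (x : Sq) (k : ℕ) : AZ (decide (Even (x.1 + x.2))) x 0 k = Ax x k := by
  ext ω
  refine ⟨fun ⟨y, hy, _, c⟩ => ?_, fun c => ⟨x, mem_bz.2 (by simp), rfl, c⟩⟩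
  have := mem_bz.1 hy
  have e : y = x := Prod.ext (by omega) (by omega)
  exact e ▸ c

theorem two (h : Aq μ α) : ∃ g : ℕ, 1 ≤ g ∧ ∀ (x : Sq) (k : ℕ) (V : Finset Sq) (B : Set Cf),
    Le V B → Disjoint V (bz x (g * (k + 2) + 1)) →
    μ.real (Ax x k ∩ B) ≤ 2 * (pcm μ true 0 k * μ.real B) := by
  obtain ⟨g, g1, hg⟩ := h.arm (1 / 2) one_half_pos
  refine ⟨g, g1, fun x k V B hB hd => ?_⟩
  have mB := ((h.base.loc _ _).2 _ hB).1
  have mA := ((h.base.loc _ _).2 _ (ax h x k).1).1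
  have m := h.mix (decide (Even (x.1 + x.2))) x 0 k (g * (k + 2)) (B.indicator 1) (by nlinarith)
    ⟨⟨V, fun ω ω' e => by simp only [Set.indicator_apply, hB ω ω' e, Pi.one_apply], hd⟩,
      fun ω => Set.indicator_nonneg (fun _ _ => zero_le_one) ω⟩
  have e : (fun ω => (Ax x k).indicator 1 ω * B.indicator 1 ω) =
      (Ax x k ∩ B).indicator (1 : Cf → ℝ) :=
    (Set.inter_indicator_one (s := Ax x k) (t := B) (M₀ := ℝ)).symm
  rw [az, (ax h x k).2.1, e, exm, exm, integral_indicator_one (mA.inter mB),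
    integral_indicator_one mB] at m
  have a := mul_le_mul_of_nonneg_right (hg (k + 2) (by omega))
    (measureReal_nonneg (μ := μ) (s := Ax x k ∩ B))
  linarith

end T0

theorem y_q {μ : Measure Cf} {α : ℝ} (h : Aq μ α) : Y_q μ α := ⟨T0.ax h, T0.pol h, T0.two h⟩

end Vale.Agent.P167Q.W.T
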