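import Vale.Agent.P167W.TStm
import Vale.Agent.P167Q.YGc

/-! P167W: the two point exponent and the volume exponent. -/

open Finset Relation Filter Topology MeasureTheory
open scoped Classical BigOperators

namespace Vale.Agent.P167Q.W.T

theorem goal_c {μ : Measure Cf} {α : ℝ} (hp : T_polq μ α) : GoalCq μ α := by
  refine Metric.tendsto_nhds.2 fun ε hε => ?_
  obtain ⟨C, hC, h⟩ := hp (ε / 2) (by linarith)
  have t1 : Tendsto (fun x : Sq => (P167Q.nr x : ℝ)) cofinite atTop :=
    tendsto_natCast_atTop_atTop.comp YGcx.nr_top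
  have t2 : Tendsto (fun x : Sq => Real.log C / Real.log (P167Q.nr x : ℝ)) cofinite (𝓝 0) :=
    (Real.tendsto_log_atTop.comp t1).const_div_atTop _
  rw [eventually_inf_principal]
  filter_upwards [t2.eventually (gt_mem_nhds (by linarith : (0 : ℝ) < ε / 2)),
    YGcx.nr_top.eventually_ge_atTop 2] with x h1 h2 he
  obtain ⟨a1, a2⟩ := h x (by omega)
  have r1 : (1 : ℝ) < P167Q.nr x := by exact_mod_cast h2
  have := YGcx.bds hC r1 a1 (a2 he)
  rw [YGcx.cast_nr, Real.dist_eq]
  exact lt_of_le_of_lt this (by linarith)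

theorem goal_d {μ : Measure Cf} {α : ℝ} (hu : V_upq μ α) (hl : V_loq μ α) : GoalDq μ α := by
  refine Metric.tendsto_nhds.2 fun ε hε => ?_
  filter_upwards [hu (ε / 2) (half_pos hε), hl (ε / 2) (half_pos hε), eventually_gt_atTop 1]
    with n h1 h2 hn
  have hlog : 0 < Real.log n := Real.log_pos (by exact_mod_cast hn)
  have hp : 0 < volq μ n := (Real.exp_pos _).trans_le h2
  have k3 : Real.log (volq μ n) / Real.log n ≤ -(α / (2 - α) - ε / 2) := by
    rw [div_le_iff₀ hlog]
    linarith [(Real.log_le_iff_le_exp hp).2 h1]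
  have k4 : -(α / (2 - α) + ε / 2) ≤ Real.log (volq μ n) / Real.log n := by
    rw [le_div_iff₀ hlog]
    linarith [(Real.le_log_iff_exp_le hp).2 h2]
  change dist (Real.log (volq μ n) / Real.log n) _ < ε
  rw [Real.dist_eq, abs_lt]
  constructor <;> linarith

end Vale.Agent.P167Q.W.T
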