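import Vale.Agent.P167W.TStm
import Vale.Agent.P167U.UThree
import Vale.Agent.P167U.UPair

/-! P167W: two arms from two points. -/

open MeasureTheory

namespace Vale.Agent.P167Q.W.T

theorem v_pair {μ : Measure Cf} {α : ℝ} (h : Aq μ α) (hy : Y_q μ α) : V_pairq μ α :=
  have a : U.Au μ α := ⟨h.base, h.geo, h.dep, h.sh, h.md, h.az, h.mix, h.arm, h.cir, h.sym, h.sub,
    h.ring, h.rsw, h.a0, h.a1, h.eup, h.elo⟩
  have y : U.U_0 μ α := ⟨hy.ax, hy.pol⟩
  U.upair_pf a y (U.uthree_pf a y hy.two)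

end Vale.Agent.P167Q.W.T
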