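import Vale.Agent.P167W.TStm
import Vale.Agent.P167Q.YPol

/-! P167W: polynomial bounds for the two point function. -/

open Finset Relation Filter Topology MeasureTheory
open scoped Classical

namespace Vale.Agent.P167Q.W.T

namespace TPol

theorem pick {g r : ℕ} (hg : 1 ≤ g) (h : 3 * g ≤ r) :
    ∃ k : ℕ, 1 ≤ k ∧ g * (k + 2) ≤ r ∧ r ≤ 4 * g * k := by
  have h1 : 3 ≤ r / g := (Nat.le_div_iff_mul_le hg).2 h
  obtain ⟨k, hk⟩ : ∃ k, r / g = k + 3 := ⟨r / g - 3, by omega⟩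
  have h2 := Nat.mul_div_le r g
  have h3 := Nat.lt_mul_div_succ r hg
  rw [hk] at h2 h3
  refine ⟨k + 1, by omega, h2, ?_⟩
  nlinarith [Nat.zero_le (g * k)]

theorem up {μ : Measure Cf} {α : ℝ} (h : Aq μ α) (hy : Y_q μ α) (hu : T_upq μ) {ε : ℝ}
    (hε : 0 < ε) : ∃ C : ℝ, 0 ≤ C ∧ ∀ x : Sq, 1 ≤ P167Q.nr x →
    tpq μ x ≤ C * (P167Q.nr x : ℝ) ^ (-(2 * α - ε)) := by
  have := h.md.prob
  have a0 := h.a0
  obtain ⟨δ, d0, d1, d2⟩ : ∃ δ : ℝ, 0 < δ ∧ δ ≤ ε ∧ δ ≤ 2 * α :=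
    ⟨min ε (2 * α), lt_min hε (by linarith), min_le_left _ _, min_le_right _ _⟩
  obtain ⟨C, hC, h1⟩ := hy.pol (δ / 2) (by linarith)
  obtain ⟨g, g1, hg⟩ := hu.2
  have g0 : (0 : ℝ) < ((4 * g : ℕ) : ℝ) := by exact_mod_cast (by omega : 0 < 4 * g)
  refine ⟨2 * (C * C) * ((4 * g : ℕ) : ℝ) ^ (2 * α - δ), by positivity, fun x hx => ?_⟩
  have r1 : (1 : ℝ) ≤ P167Q.nr x := by exact_mod_cast hx
  obtain ⟨k, k1, k2, k3⟩ : ∃ k : ℕ, 1 ≤ k ∧ P167Q.nr x ≤ 4 * g * k ∧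
      tpq μ x ≤ 2 * (C * C) * (k : ℝ) ^ (-(2 * α - δ)) := by
    by_cases h5 : 3 * g ≤ P167Q.nr x
    · obtain ⟨k, k1, k2, k3⟩ := pick g1 h5
      refine ⟨k, k1, k3, (hg x k k2).trans ?_⟩
      have h2 := (h1 _ k1).2
      have h3 : (0 : ℝ) < (k : ℝ) := by exact_mod_cast k1
      rw [mul_assoc]
      refine mul_le_mul_of_nonneg_left
        ((mul_self_le_mul_self measureReal_nonneg h2).trans (le_of_eq ?_)) zero_le_two
      rw [mul_mul_mul_comm, ← Real.rpow_add h3]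
      congr 2
      ring
    · refine ⟨1, le_rfl, by omega, ?_⟩
      rw [Nat.cast_one, Real.one_rpow, mul_one]
      have h6 := one_le_mul_of_one_le_of_one_le hC hC
      exact measureReal_le_one.trans (by linarith)
  have h4 := YPolx.cmp (k := k) (r := P167Q.nr x) (N := ((4 * g : ℕ) : ℝ)) (b := 2 * α - δ)
    (by exact_mod_cast k1) (by linarith) g0 (by exact_mod_cast k2) (by linarith)
  have h5 : (P167Q.nr x : ℝ) ^ (-(2 * α - δ)) ≤ (P167Q.nr x : ℝ) ^ (-(2 * α - ε)) :=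
    Real.rpow_le_rpow_of_exponent_le r1 (by linarith)
  refine k3.trans ?_
  rw [mul_assoc (2 * (C * C))]
  exact mul_le_mul_of_nonneg_left (h4.trans (mul_le_mul_of_nonneg_left h5 (by positivity)))
    (by positivity)

theorem lo {μ : Measure Cf} {α : ℝ} (h : Aq μ α) (hy : Y_q μ α) (hr : T_ringq μ) {ε : ℝ}
    (hε : 0 < ε) : ∃ C : ℝ, 0 ≤ C ∧ ∀ x : Sq, 1 ≤ P167Q.nr x → Even (x.1 + x.2) →
    (P167Q.nr x : ℝ) ^ (-(2 * α + ε)) ≤ C * tpq μ x := by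
  have := h.md.prob
  have a0 := h.a0
  obtain ⟨c, c0, hc⟩ := hr
  obtain ⟨C, hC, h1⟩ := hy.pol (ε / 2) (by linarith)
  refine ⟨(511 ^ (α + ε / 2) * C) * (511 ^ (α + ε / 2) * C) / c, by positivity,
    fun x hx he => ?_⟩
  have r0 : (0 : ℝ) < P167Q.nr x := by exact_mod_cast hx
  have key : ∀ k : ℕ, 1 ≤ k → k ≤ 511 * P167Q.nr x → (P167Q.nr x : ℝ) ^ (-(α + ε / 2)) ≤
      (511 ^ (α + ε / 2) * C) * pcm μ true 0 k := fun k k1 k2 => by
    have h4 := YPolx.cmp (k := P167Q.nr x) (r := k) (N := 511) (b := α + ε / 2) r0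
      (by exact_mod_cast k1) (by norm_num) (by exact_mod_cast k2) (by linarith)
    rw [mul_assoc]
    exact h4.trans (mul_le_mul_of_nonneg_left (h1 k k1).1 (by positivity))
  obtain ⟨G, W, g1, g2, g3, g4⟩ := hc (P167Q.nr x + 72) (by omega)
  obtain ⟨a1, a2, a3⟩ := hy.ax x (7 * (P167Q.nr x + 72))
  have f1 : μ.real G * μ.real (Ax x (7 * (P167Q.nr x + 72))) ≤
      μ.real (G ∩ Ax x (7 * (P167Q.nr x + 72))) := h.md.fkg _ _ _ _ g1 a1 g2 (a3 he)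
  have f2 : μ.real (G ∩ Ax x (7 * (P167Q.nr x + 72))) ≤ tpq μ x :=
    measureReal_mono fun ω hω => g4 ω hω.1 x he (by omega) hω.2
  rw [a2] at f1
  have f3 : c * pcm μ true 0 (6 * (P167Q.nr x + 72)) * pcm μ true 0 (7 * (P167Q.nr x + 72)) ≤
      tpq μ x := (mul_le_mul_of_nonneg_right g3 measureReal_nonneg).trans (f1.trans f2)
  have f4 := mul_le_mul (key (6 * (P167Q.nr x + 72)) (by omega) (by omega))
    (key (7 * (P167Q.nr x + 72)) (by omega) (by omega)) (by positivity)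
    (mul_nonneg (by positivity) measureReal_nonneg)
  rw [← Real.rpow_add r0, show -(α + ε / 2) + -(α + ε / 2) = -(2 * α + ε) by ring] at f4
  refine f4.trans (le_trans (le_of_eq ?_) (mul_le_mul_of_nonneg_left f3 (by positivity)))
  field_simp

end TPol

theorem t_pol {μ : Measure Cf} {α : ℝ} (h : Aq μ α) (hy : Y_q μ α) (hu : T_upq μ)
    (hr : T_ringq μ) : T_polq μ α := by
  intro ε hε
  obtain ⟨C₁, c1, h1⟩ := TPol.up h hy hu hε
  obtain ⟨C₂, c2, h2⟩ := TPol.lo h hy hr hε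
  refine ⟨1 + C₁ + C₂, by linarith, fun x hx =>
    ⟨(h1 x hx).trans ?_, fun he => (h2 x hx he).trans ?_⟩⟩
  · exact mul_le_mul_of_nonneg_right (by linarith) (by positivity)
  · exact mul_le_mul_of_nonneg_right (by linarith) measureReal_nonneg

end Vale.Agent.P167Q.W.T
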