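import Vale.Agent.P167W.WStm
import Vale.Agent.P167Q.YStm

/-! P167W, two point function and volume of the random-cluster model: statements. -/

open Finset Relation Filter Topology MeasureTheory
open scoped Classical BigOperators

namespace Vale.Agent.P167Q.W.T

/-- what is already proved; `α` is the one arm exponent -/
structure Aq (μ : Measure Cf) (α : ℝ) : Prop where
  base : Base
  geo : X_geo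
  dep : X_dep
  sh : X_sh
  md : Mod μ
  az : W_az
  mix : M_mix μ
  arm : K_armq μ
  sym : W_sym μ
  cir : W_cir μ
  sub : Q_subq μ
  ring : Q_ringq μ
  rsw : Q_rswq μ
  a0 : 0 < α
  a1 : α ≤ 1 / 4
  eup : ∀ ε > 0, ∀ᶠ n : ℕ in atTop, pcm μ true 0 n ≤ Real.exp (-((α - ε) * Real.log n))
  elo : ∀ ε > 0, ∀ᶠ n : ℕ in atTop, Real.exp (-((α + ε) * Real.log n)) ≤ pcm μ true 0 n

noncomputable section

def tpq (μ : Measure Cf) (x : Sq) : ℝ := μ.real {ω | x ∈ clus ω 0}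

def volq (μ : Measure Cf) (n : ℕ) : ℝ := μ.real {ω | (n : ℕ∞) ≤ (clus ω (0, 0)).encard}

end

structure Y_q (μ : Measure Cf) (α : ℝ) : Prop where
  ax : ∀ x k, Le (bz x (k + 1)) (Ax x k) ∧ μ.real (Ax x k) = pcm μ true 0 k ∧
    (Even (x.1 + x.2) → IsUpperSet (Ax x k))
  pol : ∀ ε : ℝ, 0 < ε → ∃ C : ℝ, 1 ≤ C ∧ ∀ k : ℕ, 1 ≤ k →
    (k : ℝ) ^ (-(α + ε)) ≤ C * pcm μ true 0 k ∧ pcm μ true 0 k ≤ C * (k : ℝ) ^ (-(α - ε))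
  two : ∃ g : ℕ, 1 ≤ g ∧ ∀ (x : Sq) (k : ℕ) (V : Finset Sq) (B : Set Cf), Le V B →
    Disjoint V (bz x (g * (k + 2) + 1)) →
    μ.real (Ax x k ∩ B) ≤ 2 * (pcm μ true 0 k * μ.real B)

def T_upq (μ : Measure Cf) : Prop := (∀ x : Sq, MeasurableSet {ω : Cf | x ∈ clus ω 0}) ∧
  ∃ g : ℕ, 1 ≤ g ∧ ∀ (x : Sq) (k : ℕ), g * (k + 2) ≤ P167Q.nr x →
    tpq μ x ≤ 2 * (pcm μ true 0 k * pcm μ true 0 k)

def T_ringq (μ : Measure Cf) : Prop := ∃ c > 0, ∀ u : ℕ, 72 ≤ u →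
  ∃ (G : Set Cf) (W : Finset Sq), Le W G ∧ IsUpperSet G ∧ c * pcm μ true 0 (6 * u) ≤ μ.real G ∧
  ∀ ω ∈ G, ∀ x : Sq, Even (x.1 + x.2) → P167Q.nr x < u → ω ∈ Ax x (7 * u) → x ∈ clus ω 0

def T_polq (μ : Measure Cf) (α : ℝ) : Prop := ∀ ε : ℝ, 0 < ε → ∃ C : ℝ, 1 ≤ C ∧ ∀ x : Sq,
  1 ≤ P167Q.nr x → tpq μ x ≤ C * (P167Q.nr x : ℝ) ^ (-(2 * α - ε)) ∧
  (Even (x.1 + x.2) → (P167Q.nr x : ℝ) ^ (-(2 * α + ε)) ≤ C * tpq μ x)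

def GoalCq (μ : Measure Cf) (α : ℝ) : Prop := Tendsto (fun x : ℤ × ℤ =>
  Real.log (μ.real {ω | x ∈ clus ω (0, 0)}) / Real.log (max |x.1| |x.2| : ℤ))
  (cofinite ⊓ 𝓟 {x | Even (x.1 + x.2)}) (𝓝 (-(2 * α)))

def V_upq (μ : Measure Cf) (α : ℝ) : Prop := ∀ ε : ℝ, 0 < ε → ∀ᶠ n : ℕ in atTop,
  volq μ n ≤ Real.exp (-((α / (2 - α) - ε) * Real.log n))

def V_pairq (μ : Measure Cf) (α : ℝ) : Prop := ∀ ε : ℝ, 0 < ε → ∃ C : ℝ, 1 ≤ C ∧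
  ∀ (u : ℕ) (x y : Sq), P167Q.nr x < u → P167Q.nr y < u → 1 ≤ P167Q.nr (x - y) →
  μ.real (Ax x (7 * u) ∩ Ax y (7 * u)) ≤
    C * (P167Q.nr (x - y) : ℝ) ^ (-(α - ε)) * pcm μ true 0 (7 * u)

def V_momq (μ : Measure Cf) : Prop := ∀ ε : ℝ, 0 < ε → ∃ C : ℝ, 1 ≤ C ∧ ∀ R : ℕ, 1 ≤ R →
  (R : ℝ) ^ (-ε) ≤ C * μ.real
    {ω | (R : ℝ) ^ 2 * pcm μ true 0 (7 * (R + 1)) / 2 ≤ ZZ R (7 * (R + 1)) ω}

def V_loq (μ : Measure Cf) (α : ℝ) : Prop := ∀ ε : ℝ, 0 < ε → ∀ᶠ n : ℕ in atTop,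
  Real.exp (-((α / (2 - α) + ε) * Real.log n)) ≤ volq μ n

def GoalDq (μ : Measure Cf) (α : ℝ) : Prop := Tendsto (fun n : ℕ =>
  Real.log (μ.real {ω | (n : ℕ∞) ≤ (clus ω (0, 0)).encard}) / Real.log n) atTop
  (𝓝 (-(α / (2 - α))))

end Vale.Agent.P167Q.W.T
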