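import Vale.Agent.P167W.TStm
import Vale.Agent.P167Q.YTp

/-! Upper bound for the two point function of the random-cluster model. -/

open Finset Relation Filter Topology MeasureTheory
open scoped Classical BigOperators

namespace Vale.Agent.P167Q.W.T

theorem t_up {μ : Measure Cf} {α : ℝ} (h : Aq μ α) (hy : Y_q μ α) : T_upq μ := by
  have hb := h.base.bas
  obtain ⟨g, hg, h2⟩ := hy.two
  refine ⟨fun x => ?_, g + 2, by omega, fun x k hk => ?_⟩
  · rw [YTpx.un hb]
    exact MeasurableSet.iUnion fun K => ((h.base.loc _ _).2 _ (YTpx.pk_loc hb K x)).1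
  · rw [add_mul] at hk
    have h5 := h2 0 k (bz x (k + 1)) (Ax x k) (hy.ax x k).1
    generalize g * (k + 2) = G at hk h5
    have hsub : {ω : Cf | x ∈ clus ω 0} ⊆ Ax 0 k ∩ Ax x k := by
      intro ω hω
      refine ⟨fun hs => ?_, fun hs => ?_⟩
      · have h1 := mem_bz.mp (hs hω)
        simp only [Prod.fst_zero, Prod.snd_zero] at h1
        unfold P167Q.nr at hk
        omega
      · have h0 : (0 : Sq) ∈ clus ω x := by
          rw [hb.cleq ω 0 x hω]
          exact hb.self ω 0
        have h1 := mem_bz.mp (hs h0)
        simp only [Prod.fst_zero, Prod.snd_zero] at h1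
        unfold P167Q.nr at hk
        omega
    have hd : Disjoint (bz x (k + 1)) (bz 0 (G + 1)) := by
      refine disjoint_left.mpr fun y h1 h2 => ?_
      have h3 := mem_bz.mp h1
      have h4 := mem_bz.mp h2
      simp only [Prod.fst_zero, Prod.snd_zero] at h4
      unfold P167Q.nr at hk
      omega
    have hp := h5 hd
    have : IsProbabilityMeasure μ := h.md.prob
    rw [(hy.ax x k).2.1] at hp
    exact (measureReal_mono hsub).trans hp

end Vale.Agent.P167Q.W.T
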