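import Vale.Agent.P167W.UStm
import Vale.Agent.P167Q.XTri

/-! P167Q: exponential moments for three charges. -/

open Finset Relation Filter Topology MeasureTheory
open scoped Classical BigOperators

namespace Vale.Agent.P167Q.W.U

namespace UTrix

variable {μ : Measure Cf} {a : ℝ}

theorem bdSS (hx : W_bd μ a) (ψ : Sq → ℝ) (J : ℕ) : Bdm μ (SS ψ J) :=
  hx.sum _ _ (fun x ω => ψ x * (ns (2 ^ J) x ω : ℝ)) fun x _ =>
    hx.mul _ _ (hx.const _) (hx.ns (2 ^ J) x fun n => (n : ℝ))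

theorem bdnl (hx : W_bd μ a) (j : ℕ) (x : Sq) : Bdm μ (nl j x) :=
  hx.sub _ _ (hx.ns (2 ^ j) x fun n => (n : ℝ)) (hx.ns (2 ^ j / 2) x fun n => (n : ℝ))

theorem bdLL (hx : W_bd μ a) (ψ : Sq → ℝ) (J j : ℕ) : Bdm μ (LL ψ J j) :=
  hx.sum _ _ (fun x ω => ψ x * nl j x ω) fun x _ => hx.mul _ _ (hx.const _) (bdnl hx j x)

theorem bdQQ (hx : W_bd μ a) (ψ : Sq → ℝ) (J : ℕ) : Bdm μ (QQ ψ J) :=
  hx.sum _ _ (fun j ω => 4 ^ j / 4 ^ J * LL ψ J j ω) fun j _ =>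
    hx.mul _ _ (hx.const _) (bdLL hx ψ J j)

theorem bdkb (hx : W_bd μ a) (s : ℕ) : Bdm μ fun ω => (kb s 0 ω : ℝ) := hx.kb s 0 fun n => (n : ℝ)

theorem QQ_nn (hg : X_geo) {A : ℝ} {J : ℕ} {ψ : Sq → ℝ} (hψ : Ad A J ψ) (ω : Cf) :
    0 ≤ QQ ψ J ω := by
  refine sum_nonneg fun j _ => mul_nonneg (by positivity) (sum_nonneg fun x _ =>
    mul_nonneg (hψ.nn x) (hg.nlk j x ω x ?_).1)
  rw [mem_bz]
  generalize 2 ^ j = s
  omega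

/-- the exponent at one scale -/
noncomputable def PP (μ : Measure Cf) (σ t : ℝ) (ψ : Sq → ℝ) (J : ℕ) (ω : Cf) : ℝ :=
  σ * (SS ψ J ω - enm μ (2 ^ J)) + t * (QQ ψ J ω + kb (2 ^ J) 0 ω)

theorem bdPP (hx : W_bd μ a) (σ t : ℝ) (ψ : Sq → ℝ) (J : ℕ) : Bdm μ (PP μ σ t ψ J) :=
  hx.add _ _ (hx.mul _ _ (hx.const σ) (hx.sub _ _ (bdSS hx ψ J) (hx.const _)))
    (hx.mul _ _ (hx.const t) (hx.add _ _ (bdQQ hx ψ J) (bdkb hx _)))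

theorem PP_le (hg : X_geo) {A : ℝ} {J : ℕ} {ψ : Sq → ℝ} (hψ : Ad A J ψ) {σ t t' : ℝ}
    (ht : 3 * t ≤ t') (ω : Cf) : 3 * PP μ σ t ψ J ω ≤ PP μ (3 * σ) t' ψ J ω := by
  have h1 : 0 ≤ QQ ψ J ω + kb (2 ^ J) 0 ω := add_nonneg (QQ_nn hg hψ ω) (Nat.cast_nonneg _)
  have h2 := mul_le_mul_of_nonneg_right ht h1
  unfold PP
  linarith

theorem exp3 {a b c a' b' c' : ℝ} (ha : 3 * a ≤ a') (hb : 3 * b ≤ b') (hc : 3 * c ≤ c') :
    Real.exp (a + b + c) ≤ Real.exp a' + Real.exp b' + Real.exp c' := by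
  have p1 := Real.exp_pos a'
  have p2 := Real.exp_pos b'
  have p3 := Real.exp_pos c'
  by_cases h1 : a + b + c ≤ a'
  · linarith [Real.exp_le_exp.2 h1]
  by_cases h2 : a + b + c ≤ b'
  · linarith [Real.exp_le_exp.2 h2]
  have h3 : a + b + c ≤ c' := by linarith
  linarith [Real.exp_le_exp.2 h3]

theorem split (T : Tri) (θ₁ θ₂ σ t : ℝ) (ω : Cf) :
    σ * (-(Real.tan a * T.Y θ₁ θ₂ ω) - bq μ a T θ₁ θ₂) + t * T.V ω =
      PP μ (-(Real.tan a * σ * (θ₁ + θ₂))) t T.ψ₀ T.J ω + PP μ (Real.tan a * σ * θ₁) t T.ψ₁ T.J₁ ω +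
        PP μ (Real.tan a * σ * θ₂) t T.ψ₂ T.J₂ ω := by
  unfold PP Tri.Y bq Tri.V bem Tri.J₂ Tri.J₁
  ring

theorem coef {σ θ B t s : ℝ} (ht : 0 ≤ t) (hθ : |θ| ≤ B) :
    |3 * (s * σ * θ)| ≤ 3 * t + 3 * (|s| * |σ| * B) := by
  have h4 : |s| * |σ| * |θ| ≤ |s| * |σ| * B := mul_le_mul_of_nonneg_left hθ (by positivity)
  rw [abs_mul, abs_mul, abs_mul, abs_of_pos (by norm_num : (0 : ℝ) < 3)]
  linarith

end UTrix

open UTrix in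
theorem c_tri {μ : Measure Cf} {a : ℝ} (hg : X_geo) (_hm : Mod μ) (hx : W_bd μ a)
    (h : C_sclq μ) : C_triq μ a := by
  intro A θ₁ θ₂ σ t ht
  have hB : 0 ≤ 3 * (|Real.tan a| * |σ| * (|θ₁| + |θ₂|)) := by positivity
  obtain ⟨C, hC⟩ := h A (3 * t + 3 * (|Real.tan a| * |σ| * (|θ₁| + |θ₂|))) (by positivity)
  refine ⟨3 * C, fun T hT => ?_⟩
  obtain ⟨-, -, a0, a1, a2⟩ := hT
  simp only [split]
  have b0 := hx.add _ _ (hx.add _ _ (bdPP hx (-(Real.tan a * σ * (θ₁ + θ₂))) t T.ψ₀ T.J)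
    (bdPP hx (Real.tan a * σ * θ₁) t T.ψ₁ T.J₁)) (bdPP hx (Real.tan a * σ * θ₂) t T.ψ₂ T.J₂)
  refine ⟨b0, ?_⟩
  have c0 := hC T.J T.ψ₀ (3 * -(Real.tan a * σ * (θ₁ + θ₂))) a0 (by
    rw [mul_neg, abs_neg]; exact coef ht (abs_add_le _ _))
  have c1 := hC T.J₁ T.ψ₁ (3 * (Real.tan a * σ * θ₁)) a1
    (coef ht (le_add_of_nonneg_right (abs_nonneg _)))
  have c2 := hC T.J₂ T.ψ₂ (3 * (Real.tan a * σ * θ₂)) a2
    (coef ht (le_add_of_nonneg_left (abs_nonneg _)))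
  have i : ∀ s u ψ J, Integrable (fun ω => Real.exp (PP μ s u ψ J ω)) μ := fun s u ψ J =>
    hx.int _ (hx.cont _ Real.exp (bdPP hx s u ψ J) Real.continuous_exp)
  have m := integral_mono (hx.int _ (hx.cont _ Real.exp b0 Real.continuous_exp))
    (((i _ _ T.ψ₀ T.J).add (i _ _ T.ψ₁ T.J₁)).add (i _ _ T.ψ₂ T.J₂)) fun ω =>
      exp3 (PP_le hg a0 (le_add_of_nonneg_right hB) ω) (PP_le hg a1 (le_add_of_nonneg_right hB) ω)
        (PP_le hg a2 (le_add_of_nonneg_right hB) ω)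
  rw [integral_add' ((i _ _ _ _).add (i _ _ _ _)) (i _ _ _ _),
    integral_add' (i _ _ _ _) (i _ _ _ _)] at m
  have e := Real.add_one_le_exp (3 * C)
  unfold exm at c0 c1 c2 ⊢
  unfold PP at m ⊢
  linarith

end Vale.Agent.P167Q.W.U
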