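import Vale.Agent.P167W.UStm
import Vale.Agent.P167W.WFin
import Vale.Agent.P167Q.XArm

/-! P167W: arms are not certain. -/

open Finset Relation Filter Topology MeasureTheory
open scoped Classical BigOperators

namespace Vale.Agent.P167Q.W.U

open Vale.Agent.P152 (Vx Site v6)

theorem w_weak {μ : Measure Cf} (hb : Base) (hm : Mod μ) (hz : W_az) (hc : W_cir μ) :
    W_weak μ := by
  haveI := hm.prob
  obtain ⟨c, hc0, hc⟩ := hc.1
  refine ⟨c, hc0, 6 * 76 * 4 ^ 1 + 1 + 1, by omega, fun z u hu => ?_⟩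
  have hn : 72 ≤ HCirx.sc (u + 3) 0 := le_trans (by omega) (HCirx.sc_ge (u + 3) 0)
  have hW : Le (HCirx.bo ((3 * HCirx.sc (u + 3) 0 : ℕ) : ℤ))
      (Ci (HCirx.sc (u + 3) 0) (3 * HCirx.sc (u + 3) 0)) :=
    hb.ev.2.2 _ _ _ fun m h1 _ => HCirx.mem_bo.2 h1
  have hP := ((hb.loc _ _).2 _ (WFinx.le_pull hW)).1
  have h1 : μ.real (BA false (u + 1) ((6 * 76 * 4 ^ 1 + 1) * u)) ≤ 1 - c := by
    have h2 : BA false (u + 1) ((6 * 76 * 4 ^ 1 + 1) * u) ⊆ {ω : Cf | (fun m => ω (v6 m)) ∈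
        Ci (HCirx.sc (u + 3) 0) (3 * HCirx.sc (u + 3) 0)}ᶜ := fun ω hω => by
      have := XArmx.sub u 1 hu hω 0 one_pos
      simp only [Bool.false_xor, Equiv.ofBijective_apply] at this
      exact this
    refine (measureReal_mono h2).trans ?_
    rw [probReal_compl_eq_one_sub hP]
    have := hc _ hn
    unfold nr at this
    linarith
  obtain ⟨t, t1, t2⟩ : ∃ t : Sq, Odd (t.1 + t.2) ∧ (z - t = 0 ∨ z - t = (1, 0)) := by
    by_cases h : Odd (z.1 + z.2)
    · exact ⟨z, h, Or.inl (sub_self z)⟩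
    · refine ⟨z - (1, 0), ?_, Or.inr (sub_sub_cancel _ _)⟩
      rw [Int.odd_iff] at h ⊢
      simp only [Prod.fst_sub, Prod.snd_sub]
      omega
  have h3 : AZ true z u ((6 * 76 * 4 ^ 1 + 1 + 1) * u) =
      sh t ⁻¹' AZ false (z - t) u ((6 * 76 * 4 ^ 1 + 1 + 1) * u) := by
    ext ω
    rw [Set.mem_preimage, hz.shf, sub_add_cancel, decide_eq_true t1]
    rfl
  rw [h3, (hm.inv t).measureReal_preimage
    ((hb.loc _ _).2 _ (hz.lc false _ _ _)).1.nullMeasurableSet]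
  refine le_trans (measureReal_mono ?_) h1
  rintro ω ⟨x, x1, x2, x3⟩
  refine ⟨x, ?_, x2, fun k => x3 fun y hy => ?_⟩
  · rw [mem_bz] at x1
    rw [mem_box]
    rcases t2 with h | h <;> rw [h] at x1 <;>
      simp only [Prod.fst_zero, Prod.snd_zero] at x1 <;> push_cast <;> omega
  · have k1 := mem_box.1 (mem_coe.1 (k hy))
    rw [mem_coe, mem_bz]
    rcases t2 with h | h <;> rw [h] <;>
      simp only [Prod.fst_zero, Prod.snd_zero] <;> push_cast at k1 ⊢ <;> omega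

end Vale.Agent.P167Q.W.U
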