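import Vale.Agent.P167W.WStm

open Finset Relation Filter Topology MeasureTheory
open scoped Classical BigOperators

namespace Vale.Agent.P167Q.W

namespace WEvx

theorem qq {μ : Measure Cf} {a : ℝ} (hg : X_geo) (hx : W_bd μ a) {C1 : ℝ} (c1 : 0 ≤ C1)
    (h1 : ∀ s z, (exm μ fun ω => kb s z ω) ≤ C1) {A : ℝ} {J : ℕ} {ψ : Sq → ℝ} (ha : Ad A J ψ) :
    Bdm μ (QQ ψ J) ∧ (∀ ω, 0 ≤ QQ ψ J ω) ∧ exm μ (QQ ψ J) ≤ 2 * C1 := by
  have bn : ∀ j x, Bdm μ (nl j x) := fun j x =>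
    hx.sub _ _ (hx.ns _ _ Nat.cast) (hx.ns _ _ Nat.cast)
  have bL : ∀ j, Bdm μ (LL ψ J j) := fun j =>
    hx.sum _ _ _ fun x _ => hx.mul _ _ (hx.const _) (bn j x)
  have nk : ∀ j x ω, 0 ≤ nl j x ω ∧ nl j x ω ≤ kb (2 ^ j) x ω := fun j x ω =>
    hg.nlk j x ω x (mem_bz.2 (by generalize 2 ^ j = s; omega))
  have e2 : ∀ j, exm μ (LL ψ J j) ≤ C1 := fun j => by
    have e : exm μ (LL ψ J j) = ∑ x ∈ box (3 * 2 ^ J), ψ x * exm μ (nl j x) := by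
      unfold exm LL
      rw [integral_finsetSum _ fun x _ => (hx.int _ (bn j x)).const_mul _]
      exact sum_congr rfl fun x _ => integral_const_mul _ _
    rw [e, ← one_mul C1, ← ha.one, sum_mul]
    refine sum_le_sum fun x _ => mul_le_mul_of_nonneg_left (le_trans ?_ (h1 (2 ^ j) x)) (ha.nn x)
    exact integral_mono (hx.int _ (bn j x)) (hx.int _ (hx.kb _ _ Nat.cast)) fun ω => (nk j x ω).2
  have r1 : ∑ j ∈ range (J + 1), ((1 : ℝ) / 2) ^ (J - j) ≤ 2 :=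
    (sum_range_reflect (fun j => ((1 : ℝ) / 2) ^ j) (J + 1)).trans_le (sum_geometric_two_le _)
  have w1 : ∀ j ∈ range (J + 1), (4 : ℝ) ^ j / 4 ^ J ≤ (1 / 2) ^ (J - j) := fun j hj => by
    obtain ⟨k, rfl⟩ := Nat.exists_eq_add_of_le (mem_range_succ_iff.1 hj)
    rw [Nat.add_sub_cancel_left, pow_add, div_mul_cancel_left₀ (by positivity), ← inv_pow]
    exact pow_le_pow_left₀ (by norm_num) (by norm_num) k
  refine ⟨hx.sum _ _ _ fun j _ => hx.mul _ _ (hx.const _) (bL j), fun ω => ?_, ?_⟩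
  · exact sum_nonneg fun j _ => mul_nonneg (by positivity)
      (sum_nonneg fun x _ => mul_nonneg (ha.nn x) (nk j x ω).1)
  · have e : exm μ (QQ ψ J) = ∑ j ∈ range (J + 1), 4 ^ j / 4 ^ J * exm μ (LL ψ J j) := by
      unfold exm QQ
      rw [integral_finsetSum _ fun j _ => (hx.int _ (bL j)).const_mul _]
      exact sum_congr rfl fun x _ => integral_const_mul _ _
    rw [e]
    refine le_trans (sum_le_sum fun j hj => ?_)
      ((sum_mul _ _ C1).symm.trans_le (mul_le_mul_of_nonneg_right r1 c1))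
    exact (mul_le_mul_of_nonneg_left (e2 j) (by positivity)).trans
      (mul_le_mul_of_nonneg_right (w1 j hj) c1)

theorem add {μ : Measure Cf} {a : ℝ} (hx : W_bd μ a) {G H : Cf → ℝ} {x y : ℝ}
    (h1 : Bdm μ G ∧ (∀ ω, 0 ≤ G ω) ∧ exm μ G ≤ x) (h2 : Bdm μ H ∧ (∀ ω, 0 ≤ H ω) ∧ exm μ H ≤ y) :
    Bdm μ (fun ω => G ω + H ω) ∧ (∀ ω, 0 ≤ G ω + H ω) ∧ exm μ (fun ω => G ω + H ω) ≤ x + y :=
  ⟨hx.add _ _ h1.1 h2.1, fun ω => add_nonneg (h1.2.1 ω) (h2.2.1 ω),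
    (integral_add (hx.int _ h1.1) (hx.int _ h2.1)).trans_le (add_le_add h1.2.2 h2.2.2)⟩

end WEvx

theorem k_ev {μ : Measure Cf} {a : ℝ} (_hm : Mod μ) (hg : X_geo) (hx : W_bd μ a) (h : K_m1 μ) :
    K_ev μ := by
  obtain ⟨C1, h1⟩ := h
  have c1 : 0 ≤ C1 := le_trans (integral_nonneg fun ω => Nat.cast_nonneg _) (h1 0 0)
  have k : ∀ s : ℕ, Bdm μ (fun ω => (kb s 0 ω : ℝ)) ∧ (∀ ω, 0 ≤ (kb s 0 ω : ℝ)) ∧
      exm μ (fun ω => (kb s 0 ω : ℝ)) ≤ C1 := fun s =>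
    ⟨hx.kb _ _ Nat.cast, fun ω => Nat.cast_nonneg _, h1 s 0⟩
  refine ⟨2 * C1 + 2 * C1 + 2 * C1 + C1 + C1 + C1, fun A T hT => ?_⟩
  obtain ⟨-, -, a0, a1, a2⟩ := hT
  exact WEvx.add hx (WEvx.add hx (WEvx.add hx (WEvx.add hx (WEvx.add hx
    (WEvx.qq hg hx c1 h1 a0) (WEvx.qq hg hx c1 h1 a1)) (WEvx.qq hg hx c1 h1 a2))
    (k (2 ^ T.J))) (k (2 ^ T.J₁))) (k (2 ^ T.J₂))

end Vale.Agent.P167Q.W
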