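import Vale.Agent.P167W.WStm

/-! P167W: a probability measure is determined by its local expectations. -/

open Finset Relation Filter Topology MeasureTheory
open scoped Classical BigOperators

namespace Vale.Agent.P167Q.W

open Vale.Agent.P167 (Pc.Loc)

theorem v_ext (_hb : Base) : V_ext := by
  intro μ ν hμ hν h
  refine ext_of_generate_finite (measurableCylinders fun _ : ℤ × ℤ => Bool)
    generateFrom_measurableCylinders.symm isPiSystem_measurableCylinders (fun A hA => ?_)
    (by rw [measure_univ, measure_univ])
  have hm : MeasurableSet A := MeasurableSet.of_mem_measurableCylinders hA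
  obtain ⟨s, S, -, rfl⟩ := (mem_measurableCylinders A).1 hA
  have h1 := h ((cylinder s S).indicator 1) ⟨s, fun ω ω' k => by
    have e : s.restrict ω = s.restrict ω' := funext fun v => k v.1 v.2
    have e' : ω ∈ cylinder s S ↔ ω' ∈ cylinder s S := by
      rw [mem_cylinder, mem_cylinder, e]
    by_cases q : ω ∈ cylinder s S
    · rw [Set.indicator_of_mem q, Set.indicator_of_mem (e'.1 q)]
      rfl
    · rw [Set.indicator_of_notMem q, Set.indicator_of_notMem fun r => q (e'.2 r)]⟩
  rw [integral_indicator_one hm, integral_indicator_one hm] at h1
  exact (measureReal_eq_measureReal_iff (measure_ne_top _ _) (measure_ne_top _ _)).1 h1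

end Vale.Agent.P167Q.W
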