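import Vale.Agent.P167W.WStm

open Finset Relation Filter Topology MeasureTheory
open scoped Classical BigOperators

namespace Vale.Agent.P167Q.W

open Vale.Agent.P152 (IsTest gcov Vx Site v6)
open Vale.Agent.P167 (Q.ea Q.eb Q.fx Q.f0 Q.FKm Pc.chi Pc.Loc Pc.ins Pc.loop)
open Vale.Agent.P153.RSW (Ev)

namespace WLa0x

theorem same (ω : Cf) (v : Sq) (h : ω v = true ↔ Even (v.1 + v.2)) :
    Op ω v (v.1 - 1, v.2 - 1) := by
  have e : ω v = decide (Even (v.1 + v.2)) := by
    cases hv : ω v <;> simp [hv] at h <;> simp [h]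
  exact ⟨v, true, by simp [ed, e], by simp [ed, e]⟩

theorem diff (ω : Cf) (v : Sq) (h : ω v = true ↔ ¬ Even (v.1 + v.2)) :
    Op ω (v.1, v.2 - 1) (v.1 - 1, v.2) := by
  have e : ¬ ω v = decide (Even (v.1 + v.2)) := by
    by_cases hE : Even (v.1 + v.2) <;> cases hv : ω v <;> simp [hv, hE] at h ⊢
  exact ⟨v, true, by simp [ed, e], by simp [ed, e]⟩

theorem op (hb : Base) (ω : Cf) (x y i j : ℤ) (hi : i = 0 ∨ i = 1) (hj : j = 0 ∨ j = 1)
    (h : ω (x + i, y + j) = true ↔ Odd (x + y)) : Op ω (x, y + 2 * j - 1) (x + 2 * i - 1, y) := by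
  rw [Int.odd_iff] at h
  rcases hi with rfl | rfl <;> rcases hj with rfl | rfl
  · have := diff ω (x + 0, y + 0) (by rw [h, Int.even_iff]; dsimp only; omega)
    simpa using this
  · have := same ω (x + 0, y + 1) (by rw [h, Int.even_iff]; dsimp only; omega)
    have e1 : y + 2 * 1 - 1 = y + 1 := by ring
    rw [e1]
    simpa using this
  · have := hb.bas.ops _ _ _ (same ω (x + 1, y + 0) (by rw [h, Int.even_iff]; dsimp only; omega))
    have e1 : x + 2 * 1 - 1 = x + 1 := by ring
    rw [e1]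
    simpa using this
  · have := hb.bas.ops _ _ _ (diff ω (x + 1, y + 1) (by rw [h, Int.even_iff]; dsimp only; omega))
    have e1 : x + 2 * 1 - 1 = x + 1 := by ring
    have e2 : y + 2 * 1 - 1 = y + 1 := by ring
    rw [e1, e2]
    simpa using this

theorem sdh (x y j : ℤ) (hj : j = 0 ∨ j = 1) (b : Bool) :
    sd (((x, y) : Sq) + (0, j), true) b = (x, y) ∨
      sd (((x, y) : Sq) + (0, j), true) b = (x, y + 2 * j - 1) := by
  rcases hj with rfl | rfl <;> cases b <;> simp [sd] <;> omega

theorem sdv (x y i : ℤ) (hi : i = 0 ∨ i = 1) (b : Bool) :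
    sd (((x, y) : Sq) + (i, 0), false) b = (x, y) ∨
      sd (((x, y) : Sq) + (i, 0), false) b = (x + 2 * i - 1, y) := by
  rcases hi with rfl | rfl <;> cases b <;> simp [sd] <;> omega

theorem par (e : P152.Edge) : ((sd e true).1 + (sd e true).2 + 1) % 2 =
    ((sd e false).1 + (sd e false).2) % 2 := by
  obtain ⟨⟨x, y⟩, c⟩ := e
  cases c <;> simp [sd] <;> omega

end WLa0x

open WLa0x in
theorem l_a0 (hb : Base) : L_a0 := by
  intro ω e e' b b' h
  change Relation.EqvGen (P167.Pc.Arc ω) e e' at h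
  induction h generalizing b b' with
  | rel e e' h =>
    obtain ⟨⟨x, y⟩, i, j, hi, hj, rfl, rfl, h⟩ := h
    have ho := op hb ω x y i j hi hj h
    intro hE
    rw [Int.even_iff] at hE
    rcases sdh x y j hj b with h1 | h1 <;> rcases sdv x y i hi b' with h2 | h2 <;>
      rw [h1, h2] at hE ⊢
    · exact hb.bas.self _ _
    · exfalso; dsimp only at hE; omega
    · exfalso; dsimp only at hE; omega
    · exact ReflTransGen.single ho
  | refl e =>
    intro hE
    rw [Int.even_iff] at hE
    have := par e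
    cases b <;> cases b'
    · exact hb.bas.self _ _
    · exfalso; omega
    · exfalso; omega
    · exact hb.bas.self _ _
  | symm e e' _ ih =>
    intro hE
    have k := ih b' b (by rw [add_comm]; exact hE)
    rw [← hb.bas.cleq _ _ _ k] at k
    have k2 := hb.bas.cleq _ _ _ (ih b' b (by rw [add_comm]; exact hE))
    rw [k2]
    exact hb.bas.self _ _
  | trans e e' e'' _ _ ih1 ih2 =>
    intro hE
    have hp := par e'
    obtain ⟨c, hc⟩ : ∃ c, Even ((sd e b).1 + (sd e b).2 + ((sd e' c).1 + (sd e' c).2)) := by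
      by_cases h1 : Even ((sd e b).1 + (sd e b).2 + ((sd e' true).1 + (sd e' true).2))
      · exact ⟨true, h1⟩
      · refine ⟨false, ?_⟩
        rw [Int.even_iff] at h1 ⊢
        omega
    have k1 := ih1 b c hc
    have k2 := ih2 c b' (by rw [Int.even_iff] at hc hE ⊢; omega)
    rwa [hb.bas.cleq _ _ _ k1] at k2

end Vale.Agent.P167Q.W
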