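import Vale.Agent.P167W.WStm
import Vale.Agent.P167Q.XRsw

/-! P167W: arms between comparable scales have positive probability. -/

open Finset Relation Filter Topology MeasureTheory
open scoped Classical BigOperators

namespace Vale.Agent.P167Q.W

theorem q_rsw {μ : Measure Cf} (_hb : Base) (_hd : X_dep) (hm : Mod μ) (hc : W_cir μ) :
    Q_rswq μ := by
  have := hm.prob
  refine ⟨fun g => ?_, fun b => ?_⟩
  · obtain ⟨c, hc0, hr⟩ := hc.2 (3 * g + 1)
    refine ⟨c, hc0, fun a ha => (hr (a / 2) (by omega)).trans ?_⟩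
    exact measureReal_mono (μ := μ) fun ω hω => XRswx.sub_ba ha hω
  · refine (hm.pos (box (b + 1))).trans_le (measureReal_mono (μ := μ) fun ω hω => ?_)
    refine ⟨(0, 0), mem_box.2 (by simp), by simp, fun k => ?_⟩
    have h2 := (mem_box.1 (Finset.mem_coe.1 (k (XRswx.diag hω (b + 1) le_rfl)))).2.1
    dsimp only at h2
    omega

end Vale.Agent.P167Q.W
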