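import Vale.Agent.P167W.ZStm
import Vale.Agent.P167W.WPt

/-! P167W, three charges: deterministic facts on the exploration scale by scale. -/

open Finset Filter Topology MeasureTheory
open scoped Classical

namespace Vale.Agent.P167Q.W

open Vale.Agent.P167 (Pc.chi)

namespace ZPt

open WPtx

theorem cnt (hb : Base) (s : ℕ → ℕ) (I : ℕ → Finset (Sq × ℕ)) (n m : ℕ) (R R' : Finset Sq)
    (ω : Cf) (hs : Monotone s) (h : EX (til (I n)) R' ω) :
    kM s I n (m + 1) R ω ≤ kE (s n) (I n) R ω + kM s I (n + 1) m (R ∪ R') ω := by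
  refine le_trans (card_le_card fun C hC => ?_) (card_union_le _ _)
  obtain ⟨h1, h2, h3, i, hi, ⟨x, hx, hxC⟩, h4⟩ := mem_filter.1 hC
  obtain ⟨y, -, rfl⟩ := mem_image.1 h1
  obtain ⟨i1, i2⟩ := mem_Ico.1 hi
  by_cases k : ∃ z ∈ til (I n), z ∈ clus ω y
  · obtain ⟨z, hz, hzC⟩ := k
    refine mem_union_left _ (mem_filter.2 ⟨mem_image.2 ⟨z, hz, hb.bas.cleq ω y z hzC⟩, h2,
      fun l => h4 fun a ha b hb' => ?_, h3⟩)
    have l1 := l a ha b hb'
    have l2 : (s n : ℤ) ≤ s i := by exact_mod_cast hs i1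
    omega
  · have hne : i ≠ n := by
      rintro rfl
      exact k ⟨x, hx, hxC⟩
    have hi' : i ∈ Ico (n + 1) (n + 1 + m) := mem_Ico.2 ⟨by omega, by omega⟩
    refine mem_union_right _ (mem_filter.2 ⟨mem_image.2 ⟨x, mem_biUnion.2 ⟨i, hi', hx⟩,
      hb.bas.cleq ω y x hxC⟩, h2, fun v hv => ?_, i, hi', ⟨x, hx, hxC⟩, h4⟩)
    refine (mem_union.1 hv).elim (h3 v) fun l hvC => ?_
    obtain ⟨z, hz, -, d⟩ := (h v).1 l
    have e : clus ω y = clus ω z := (hb.bas.cleq ω y v hvC).symm.trans (hb.bas.cleq ω z v d)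
    exact k ⟨z, hz, e ▸ hb.bas.self ω z⟩

theorem key (hg : X_geo) {W R R' : Finset Sq} {ω ω' : Cf}
    (h : ∀ v ∈ tch (R ∪ R'), ω v = ω' v) (hd : EX W R' ω) :
    ∀ x ∈ W, Even (x.1 + x.2) → clus ω' x = clus ω x := fun x hx he =>
  (hg.loc ω ω' x fun v b i hv => by
    have hb : b = true := (ed_par v b i).1 ((par hv).2 he)
    subst hb
    exact h v (mem_tch.2 ⟨i, mem_union_right _ ((hd _).2 ⟨x, hx, he, hv⟩)⟩)).1

theorem ex_loc (hg : X_geo) {W R R' : Finset Sq} {ω ω' : Cf}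
    (h : ∀ v ∈ tch (R ∪ R'), ω v = ω' v) (hd : EX W R' ω) : EX W R' ω' := fun v =>
  (hd v).trans ⟨fun ⟨x, a, b, d⟩ => ⟨x, a, b, (key hg h hd x a b).symm ▸ d⟩,
    fun ⟨x, a, b, d⟩ => ⟨x, a, b, key hg h hd x a b ▸ d⟩⟩

theorem ke_le (hb : Base) (s : ℕ) (I : Finset (Sq × ℕ)) (R : Finset Sq) {ω ω' : Cf}
    (h : ∀ x ∈ til I, Even (x.1 + x.2) → clus ω' x = clus ω x) : kE s I R ω ≤ kE s I R ω' := by
  refine card_le_card fun C hC => ?_
  obtain ⟨h1, h2⟩ := mem_filter.1 hC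
  obtain ⟨x, hx, rfl⟩ := mem_image.1 h1
  exact mem_filter.2 ⟨mem_image.2 ⟨x, hx, h x hx (h2.1 x (hb.bas.self ω x))⟩, h2⟩

theorem adm (hb : Base) (hg : X_geo) (s : ℕ) (I : Finset (Sq × ℕ)) (R R' : Finset Sq)
    (H : Cf → ℝ) (t : ℝ) (ht : 0 ≤ t) (hH : Adm R H) :
    Adm (R ∪ R') fun ω => H ω * (t ^ kE s I R ω * Pc.chi (EX (til I) R' ω)) := by
  refine ⟨fun ω ω' h => ?_, fun ω => mul_nonneg (hH.2.1 ω) (mul_nonneg (pow_nonneg ht _) ?_),
    fun ω h x hx he => ?_⟩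
  · have e : EX (til I) R' ω ↔ EX (til I) R' ω' :=
      ⟨ex_loc hg h, ex_loc hg fun v hv => (h v hv).symm⟩
    show H ω * (t ^ kE s I R ω * Pc.chi (EX (til I) R' ω)) =
      H ω' * (t ^ kE s I R ω' * Pc.chi (EX (til I) R' ω'))
    rw [← e, hH.1 ω ω' fun v hv => h v (mem_tch.2
      ((mem_tch.1 hv).imp fun _ k => mem_union_left _ k))]
    by_cases hd : EX (til I) R' ω
    · have k := key hg h hd
      rw [le_antisymm (ke_le hb s I R k) (ke_le hb s I R fun x a b => (k x a b).symm)]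
    · simp [Pc.chi, hd]
  · unfold Pc.chi
    split_ifs <;> norm_num
  · have hd : EX (til I) R' ω := by
      by_contra k
      simp [Pc.chi, k] at h
    rcases mem_union.1 hx with k | k
    · exact fun v hv => mem_coe.2 (mem_union_left _
        (hH.2.2 ω (left_ne_zero_of_mul h) x k he hv))
    · obtain ⟨x₀, a, b, d⟩ := (hd x).1 k
      exact fun v hv => mem_coe.2 (mem_union_right _
        ((hd v).2 ⟨x₀, a, b, hb.bas.cleq ω x₀ x d ▸ hv⟩))

end ZPt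

theorem z_pt (hb : Base) (hg : X_geo) : Z_pt where
  cnt := ZPt.cnt hb
  zero := fun s I n R ω => by simp [kM]
  adm := ZPt.adm hb hg
  uni := fun W R' R'' ω h k => Finset.ext fun v => (h v).trans (k v).symm
  ex := fun W K ω hK => ⟨(box K).filter fun v => ∃ x ∈ W, Even (x.1 + x.2) ∧ v ∈ clus ω x,
    mem_powerset.2 (filter_subset _ _), fun v => by
      rw [mem_filter]
      exact ⟨fun k => k.2, fun ⟨x, a, b, d⟩ => ⟨hK x a d, x, a, b, d⟩⟩⟩

end Vale.Agent.P167Q.W
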