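import Vale.Agent.P167W.WArm
import Vale.Agent.P167W.WAz
import Vale.Agent.P167W.WBase
import Vale.Agent.P167W.WBij
import Vale.Agent.P167W.WCir
import Vale.Agent.P167W.WCmp
import Vale.Agent.P167W.WCtil
import Vale.Agent.P167W.WDet
import Vale.Agent.P167W.WDual
import Vale.Agent.P167W.WEv
import Vale.Agent.P167W.WExp
import Vale.Agent.P167W.WExt
import Vale.Agent.P167W.WFin
import Vale.Agent.P167W.WGlue
import Vale.Agent.P167W.WGoal
import Vale.Agent.P167W.WHb
import Vale.Agent.P167W.WHs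
import Vale.Agent.P167W.WIlo
import Vale.Agent.P167W.WInv
import Vale.Agent.P167W.WIup
import Vale.Agent.P167W.WLa
import Vale.Agent.P167W.WLa0
import Vale.Agent.P167W.WLa1
import Vale.Agent.P167W.WLb
import Vale.Agent.P167W.WLc
import Vale.Agent.P167W.WLev
import Vale.Agent.P167W.WLift
import Vale.Agent.P167W.WLim
import Vale.Agent.P167W.WM1
import Vale.Agent.P167W.WMc
import Vale.Agent.P167W.WMid
import Vale.Agent.P167W.WMix
import Vale.Agent.P167W.WMix1
import Vale.Agent.P167W.WMod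
import Vale.Agent.P167W.WMon
import Vale.Agent.P167W.WNega
import Vale.Agent.P167W.WNegb
import Vale.Agent.P167W.WNl
import Vale.Agent.P167W.WNum
import Vale.Agent.P167W.WOne
import Vale.Agent.P167W.WPol
import Vale.Agent.P167W.WPt
import Vale.Agent.P167W.WPu
import Vale.Agent.P167W.WQrsw
import Vale.Agent.P167W.WRep
import Vale.Agent.P167W.WRing
import Vale.Agent.P167W.WRsw
import Vale.Agent.P167W.WScl
import Vale.Agent.P167W.WSpl
import Vale.Agent.P167W.WStep
import Vale.Agent.P167W.WStp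
import Vale.Agent.P167W.WStv
import Vale.Agent.P167W.WSub
import Vale.Agent.P167W.WSup
import Vale.Agent.P167W.WSym
import Vale.Agent.P167W.WTil
import Vale.Agent.P167W.WTv
import Vale.Agent.P167W.UTri
import Vale.Agent.P167W.UWeak
import Vale.Agent.P167W.ZCh
import Vale.Agent.P167W.ZDec
import Vale.Agent.P167W.ZKb
import Vale.Agent.P167W.ZKey
import Vale.Agent.P167W.ZKm
import Vale.Agent.P167W.ZL2
import Vale.Agent.P167W.ZMc
import Vale.Agent.P167W.ZPt
import Vale.Agent.P167W.ZWb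
import Vale.Agent.P167W.UAnn
import Vale.Agent.P167W.UArm0
import Vale.Agent.P167W.UBd
import Vale.Agent.P167W.UElo
import Vale.Agent.P167W.UEup
import Vale.Agent.P167W.UFp
import Vale.Agent.P167W.UGood
import Vale.Agent.P167W.UI1
import Vale.Agent.P167W.UIn
import Vale.Agent.P167W.UR0
import Vale.Agent.P167W.UR1
import Vale.Agent.P167W.UR3
import Vale.Agent.P167W.UUp
import Vale.Agent.P167W.UZnum
import Vale.Agent.P167.ZDep
import Vale.Agent.P167.ZDmp
import Vale.Agent.P167.ZExp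
import Vale.Agent.P167.ZIn
import Vale.Agent.P167Q.XMain
import Vale.Agent.P167.QAll

/-! P167W: assembly for all `1 ≤ q ≤ 4`. -/

open MeasureTheory Filter Topology

namespace Vale.Agent.P167Q.W.U

open Vale.Agent.P167

/-- everything that follows from the nesting law -/
structure AllW (μ : Measure Cf) (a : ℝ) : Prop where
  ang : Ang a
  md : Mod μ
  az : W_az
  mix : M_mix μ
  fin : W_fin μ
  lim : W_lim μ
  bd : W_bd μ a
  sym : W_sym μ
  cir : W_cir μ
  stp : K_stp μ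
  hb0 : M_hb0 μ
  hb1 : M_hb1 μ
  arm : K_armq μ
  rsw : S_rsw μ
  pol : S_pol μ
  mc : K_mc μ
  mom : K_momq μ
  kb : Z_kb μ
  ch : Z_ch μ
  kmid : K_midq μ
  dec : Q_decq μ
  lrm : Q.Lrm μ
  u1 : I_u1q μ a
  l1 : I_l1q μ a
  l2 : Z_l2 μ a
  r0 : R_0q μ a
  r1 : R_1q μ a
  r2 : R_2q μ a
  sub : Q_subq μ
  ring : Q_ringq μ
  qr : Q_rswq μ
  qin : Q_inq μ
  glue : Q_glueq μ
  eup : E_upq μ a
  elo : E_loq μ a

theorem allw {r a : ℝ} {μ : Measure Cf} (h1 : 1 ≤ r) (h2 : r ≤ 2) (hμ : Q.FKm r μ)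
    (ha : Ang a) (hG : W_fin μ → Goalq μ a) : AllW μ a :=
  have hb := base_pf
  have geo := xgeo_pf hb
  have dep := xdep_pf hb geo
  have shh := xsh_pf hb dep
  have sum := dsum_pf hb geo
  have cl := dcls_pf hb geo
  have tf := gtf_pf gval_pf
  have cel := gcel_pf
  have top := ttop_pf hb dep tcyl_pf
  have sb := Pc.t_bas
  have lin := Q.t_lin
  have rat := Q.t_rat
  have dom := Q.u_dom
  have pl := Q.u_pl
  have qi := Q.u_qi
  have qm := Q.t_qm lin pl Q.t_dif Pc.s_int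
  have hm : Mod μ := v_mod hb qi qm (v_inv qi Q.t_aut (v_ext hb) (v_dual sb Q.u_loc (v_nl sb)
    (v_cmp (Q.t_df1 sb rat (Q.t_mrg Pc.s_bas1 Pc.s_per)) (Q.t_df2 sb) (Q.t_df3 sb)))) r μ h1 h2 hμ
  have az := w_az hb shh dep
  have step := v_step lin rat
  have mon := v_mon lin dom
  have det := v_det hb
  have rep := v_rep lin step mon v_base det
  have lift := v_lift hb lin step
  have mix := m_mix hb hm az (v_mix1 hb lin pl az mon det rep lift r μ h1 hμ)
  have tv := v_tv hb lin az det rep lift r μ h1 hμ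
  have sup := v_sup hb lin dom
  have hbb := v_hb hb az sup (v_nega hb lin dom pl) (v_negb hb lin dom) r μ h1 hμ hm
  have hs := w_hs hb hm
  have cir := w_cir hb (w_pu hb hm) hs.1 hs.2
  have fin := w_fin hb shh hm cir
  have lim := w_lim hb dep hm fin
  have bd := w_bd hb geo ha hm fin
  have sym := w_sym hb hm az
  have pt := k_pt hb geo shh
  have stp := k_stp hb hm dep az bd lim pt
  have exp := k_exp hm bd stp
  have ev := k_ev hm geo bd (k_m1 hm bd pt k_til exp (w_weak hb hm az cir) hbb.1)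
  have ud := d_up hb ha (d_in ha) cl sum
  have good := d_good ha sum
  have gff := g_gff hb ha (hG fin) (l_fp hb) tf cel
  have arm := k_arm hb hm lim (k_arm0 hb geo dep ha hm fin bd ev ud.2 good gff)
  have rsw := s_rsw hb hm az mix arm
  have pol := s_pol hb hm az rsw
  have mc := k_mc hm az bd pt k_til exp rsw hbb.2
  have til := c_til hm bd (s_tv hb hm az tv pol) mc.1 mc.2 (c_one hm bd)
  have tri := c_tri geo hm bd
    (c_scl shh geo hm bd mc.2 (c_lev hm geo dep bd (c_spl hm bd) c_num til))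
  have up := i_up hm fin bd tri ud.1
  have lo := i_lo hm fin bd tri ud.2
  have i1 := i_one ha hm bd gff up lo good
  have r0 := r_zero hb geo dep ha hm bd
  have r1 := r_one ha r0 i1.1
  have sub := q_sub hb hm az mix arm
  have ring := q_ring hb dep hm cir
  have qr := q_rsw hb dep hm cir
  have gl := q_glue hm sub sym ring qr
  have dmp := Q.z_dmp lin dom Q.t_dif Pc.s_int
  have zx := Q.z_exp lin dmp
  have lrm := Q.z_lrm2 lin (Q.z_in lin pl Q.u_fe dmp zx) zx h1 hμ
    (Q.z_ann2 lin dom (Q.t_fkg lin Q.t_hol rat) Q.z_dep h1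
      (z_wb h1 hμ hb hm az Q.z_dep sup rsw))
  have kb := z_kb bd stp
  have ch := z_ch hb dep hm bd lim (z_pt hb geo)
  have km := z_km hm az bd k_til arm hbb.1 kb ch (z_mc hb geo shh)
  have dec := z_dec hm az pol
  have l2 := z_l2 ha hb dep hm bd (g_gff3 hb ha (hG fin) (l_fp hb) tf cel) up lo
    (d_good3 ha sum (dgood_pf hb geo sum)) (z_key hb geo dep hm bd lrm)
  have r2 := r_two ha r0 r1 i1.1 l2 km dec
  ⟨ha, hm, az, mix, fin, lim, bd, sym, cir, stp, hbb.1, hbb.2, arm, rsw, pol, mc.1, mc.2, kb, ch,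
    km, dec, lrm, i1.1, i1.2, l2, r0, r1, r2, sub, ring, qr, gl.1, gl.2,
    e_up ha hm sub sym (r_three ha r0 r2 i1.2),
    e_lo ha hm sub ring qr gl.1 (q_mid hb hm r0 sub sym gl.1 gl.2 top) r1⟩

theorem phq : Z_phq :=
  have hb := base_pf
  have w1 := Pc.s_w1 Pc.t_bas
  have la := l_a hb w1 (l_a0 hb) (l_a1 w1)
  (l_bij hb w1 la (l_b hb) (l_c hb (xgeo_pf hb) w1 la (l_b hb))).2

theorem allq {q : ℝ} (h1 : 1 ≤ q) (h4 : q ≤ 4) {φ : Measure Cf} (hφ : Q.FKm √q φ)
    (hl : ∀ᵐ ω ∂φ, ∀ e, (Pc.loop ω e).Finite)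
    (hG : ∀ f : ℝ × ℝ → ℝ, P152.IsTest f → Tendsto (fun δ => ∫ ω, Q.Phq q δ f ω ∂φ) (𝓝[>] 0)
      (𝓝 (Real.exp (-(4 * Real.pi / Real.arccos (-√q / 2) / (4 * Real.pi)) * P152.gcov f f)))) :
    AllW φ (Real.arccos (√q / 2)) := by
  obtain ⟨-, -, -, b1, b2⟩ := Q.ang h1 h4
  obtain ⟨a1, a2, -⟩ := z_num q h1 h4
  refine allw b1 b2 hφ a1 fun hf f ht => ?_
  have t := hG f ht
  rw [a2] at t
  refine t.congr fun δ => integral_congr_ae ?_
  filter_upwards [hf, hl] with ω k1 k2 using phq q δ f ω h1 h4 k1 k2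

end Vale.Agent.P167Q.W.U
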