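import Vale.Agent.P167W.ZStm

/-! P167W, the full range of angles. -/

open Finset MeasureTheory

namespace Vale.Agent.P167Q.W.U

/-- the angle -/
def Ang (a : ℝ) : Prop := 0 ≤ a ∧ a ≤ Real.pi / 3

def L_fp : Prop := ∀ (a δ : ℝ) (f : ℝ × ℝ → ℝ) (φ : Sq → ℝ) (R : ℕ), Ang a →
  ∑ x ∈ box R, φ x = 0 → (∀ T : Set Sq, ∫ z in region δ T, f z = ms φ R T) → ∀ ω,
  nestq a δ f ω = nq a φ R ω

/-- conversion of the constants -/
def Z_num : Prop := ∀ q : ℝ, 1 ≤ q → q ≤ 4 → Ang (Real.arccos (√q / 2)) ∧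
  4 * Real.pi / Real.arccos (-√q / 2) / (4 * Real.pi) = 1 / (Real.pi - Real.arccos (√q / 2)) ∧
  al (Real.arccos (√q / 2)) = (8 - 4 * Real.pi / Real.arccos (-√q / 2)) *
    (3 * (4 * Real.pi / Real.arccos (-√q / 2)) - 8) / (32 * (4 * Real.pi / Real.arccos (-√q / 2)))

end Vale.Agent.P167Q.W.U
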