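import Vale.Agent.P167Q.XStm
import Vale.Agent.P167.QStm
import Vale.Agent.P167.PcStm3

/-! P167W, one arm exponent of the random-cluster model: definitions and statements.
See `skel/P167W/PROOF.md`. -/

open Finset Relation Filter Topology MeasureTheory
open scoped Classical BigOperators

namespace Vale.Agent.P167Q.W

open Vale.Agent.P152 (IsTest gcov Vx Site v6)
open Vale.Agent.P167 (Q.ea Q.eb Q.fx Q.f0 Q.FKm Pc.chi Pc.Loc Pc.ins Pc.loop)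
open Vale.Agent.P153.RSW (Ev)

noncomputable section

def exm (μ : Measure Cf) (G : Cf → ℝ) : ℝ := ∫ ω, G ω ∂μ

def Bdm (μ : Measure Cf) (G : Cf → ℝ) : Prop := AEMeasurable G μ ∧ ∃ M, ∀ ω, |G ω| ≤ M

def enm (μ : Measure Cf) (s : ℕ) : ℝ := exm μ fun ω => ns s 0 ω

def wq (a θ : ℝ) : ℝ := Real.cos (a + θ) / Real.cos a

def nq (a : ℝ) (φ : Sq → ℝ) (R : ℕ) (ω : Cf) : ℝ :=
  ∏ C ∈ (box R).image (clus ω), if C.Finite then wq a (ms φ R (fill ω C)) else 1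

def nestq (a δ : ℝ) (f : ℝ × ℝ → ℝ) (ω : Cf) : ℝ :=
  ∏ᶠ C ∈ loops ω, wq a (∫ z in region δ (fill ω C), f z)

def pam (μ : Measure Cf) (a b : ℕ) : ℝ := μ.real {ω | ¬NoArm a b ω}

def pcm (μ : Measure Cf) (c : Bool) (a b : ℕ) : ℝ := μ.real (BA c a b)

def FFm (μ : Measure Cf) (t : ℝ) (J m : ℕ) : ℝ := exm μ fun ω => t ^ N1 J m ω

def bem (μ : Measure Cf) (a : ℝ) (J m : ℕ) : ℝ :=
  Real.tan a * (enm μ (2 ^ (J + m)) - enm μ (2 ^ J))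

def ppm (μ : Measure Cf) (J m : ℕ) : ℝ := pam μ (3 * 2 ^ J) (2 ^ (J + m) - 1)

def aq (a : ℝ) : ℝ := Real.log 2 / (2 * Real.pi * (Real.pi - a))

/-- the exponent -/
def al (a : ℝ) : ℝ := (Real.pi ^ 2 / 4 - a ^ 2) / (2 * Real.pi * (Real.pi - a))

def nnq (a : ℝ) (T : Tri) (θ₁ θ₂ : ℝ) (ω : Cf) : ℝ := nq a (T.ch θ₁ θ₂) T.R ω

def bq (μ : Measure Cf) (a : ℝ) (T : Tri) (θ₁ θ₂ : ℝ) : ℝ :=
  (θ₁ + θ₂) * bem μ a T.J T.m₁ + θ₂ * bem μ a T.J₁ T.m₂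

def Goodq (a : ℝ) (T : Tri) (θ₁ θ₂ η : ℝ) (ω : Cf) : Prop := ∀ C ∈ cls ω (box T.R),
  -(Real.pi / 2) + η ≤ T.xx θ₁ θ₂ ω C ∧ T.xx θ₁ θ₂ ω C ≤ Real.pi / 2 - a - η

/-- the angle -/
def Ang (a : ℝ) : Prop := 0 ≤ a ∧ a < Real.pi / 4

/-- arm of colour `c` round `z` -/
def AZ (c : Bool) (z : Sq) (n N : ℕ) : Set Cf :=
  {ω | ∃ x ∈ bz z n, decide (Even (x.1 + x.2)) = c ∧ ¬clus ω x ⊆ bz z N}

/-- arm round `z` -/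
def AA (z : Sq) (n N : ℕ) : Set Cf := {ω | ∃ x ∈ bz z n, ¬clus ω x ⊆ bz z N}

/-- open arm that starts outside `R` -/
def AR (R : Finset Sq) (z : Sq) (n N : ℕ) : Set Cf :=
  {ω | ∃ x ∈ bz z n, Even (x.1 + x.2) ∧ x ∉ R ∧ ¬clus ω x ⊆ bz z N}

/-- local, nonnegative, does not look at `W` -/
def Off (W : Finset Sq) (G : Cf → ℝ) : Prop :=
  (∃ V : Finset Sq, Lc V G ∧ Disjoint V W) ∧ ∀ ω, 0 ≤ G ω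

/-- bonds with an end in `R` -/
def tch (R : Finset Sq) : Finset Sq :=
  (R.biUnion fun x => bz x 1).filter fun v => ∃ i, ed v true i ∈ R

def cutR (R : Finset Sq) (ω : Cf) : Cf := fun v => if v ∈ tch R then false else ω v

/-- `H` reveals the union `R` of open clusters -/
def Adm (R : Finset Sq) (H : Cf → ℝ) : Prop := Lc (tch R) H ∧ (∀ ω, 0 ≤ H ω) ∧
  ∀ ω, H ω ≠ 0 → ∀ x ∈ R, Even (x.1 + x.2) → clus ω x ⊆ R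

def til (I : Finset (Sq × ℕ)) : Finset Sq := I.biUnion fun i => bz i.1 i.2

/-- number of large open clusters that meet a tile and avoid `R` -/
def kE (s : ℕ) (I : Finset (Sq × ℕ)) (R : Finset Sq) (ω : Cf) : ℕ :=
  ((cls ω (til I)).filter fun C : Set Sq =>
    (∀ x ∈ C, Even (x.1 + x.2)) ∧ ¬Sml C s ∧ ∀ x ∈ R, x ∉ C).card

/-- `y` is the first square of `W` with a new large cluster, `R'` is what has been explored -/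
def DD (s : ℕ) (W R : Finset Sq) (y : Sq) (R' : Finset Sq) (ω : Cf) : Prop :=
  y ∈ W ∧ Even (y.1 + y.2) ∧ y ∉ R ∧ ¬Sml (clus ω y) s ∧
  (∀ x ∈ W, Even (x.1 + x.2) → Encodable.encode x < Encodable.encode y → x ∉ R →
    Sml (clus ω x) s) ∧
  ∀ v, v ∈ R' ↔ ∃ x ∈ W, Even (x.1 + x.2) ∧ Encodable.encode x ≤ Encodable.encode y ∧ v ∈ clus ω x

def HB (μ : Measure Cf) (G : Cf → ℝ) (ε : ℝ) (z : Sq) (n N : ℕ) : Prop := ∀ R H, Adm R H →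
  (exm μ fun ω => (AR R z n N).indicator 1 ω * (H ω * G ω)) ≤ ε * exm μ fun ω => H ω * G ω

def KB (μ : Measure Cf) (G : Cf → ℝ) (t : ℝ) (s : ℕ) (I : Finset (Sq × ℕ)) (x : ℝ) : Prop :=
  ∀ R H, Adm R H →
    (exm μ fun ω => t ^ kE s I R ω * (H ω * G ω)) ≤ x * exm μ fun ω => H ω * G ω

/-- probability of an event for the edges of the unrotated lattice -/
def nr (μ : Measure Cf) (A : Set (Vx → Bool)) : ℝ := μ.real {ω | (fun m => ω (v6 m)) ∈ A}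

/-- ends of the bonds outside `S₀` -/
def bdy (S₀ : Finset Sq) (y : Sq) : Prop := ∃ v ∉ S₀, y = Q.ea v ∨ y = Q.eb v

/-- joined to the boundary by open bonds of `S` -/
def Jn (S₀ S : Finset Sq) (ω : Cf) (x : Sq) : Prop :=
  ∃ y, bdy S₀ y ∧ P167.Q.Cn Q.ea Q.eb P167.Q.nil (fun v => ω v && decide (v ∈ S)) x y

def Cut (S₀ T : Finset Sq) (ω : Cf) : Prop :=
  ∀ e ∈ T, ¬Jn S₀ S₀ ω (Q.ea e) ∧ ¬Jn S₀ S₀ ω (Q.eb e)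

end

/-! ### The measure -/

structure Mod (μ : Measure Cf) : Prop where
  prob : IsProbabilityMeasure μ
  inv : ∀ t, MeasurePreserving (sh t) μ μ
  r1 : MeasurePreserving (fun (ω : Cf) (v : Sq) => ω (v.1, 1 - v.2)) μ μ
  r2 : MeasurePreserving (fun (ω : Cf) (v : Sq) => ω (1 - v.2, 1 - v.1)) μ μ
  fkg : ∀ (V W : Finset Sq) (A B : Set Cf), Le V A → Le W B → IsUpperSet A → IsUpperSet B →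
    μ.real A * μ.real B ≤ μ.real (A ∩ B)
  pos : ∀ W : Finset Sq, 0 < μ.real {ω | ∀ v ∈ W, ω v = true}
  mix : ∀ (W : Finset Sq) (A : Set Cf), Le W A → ∀ ε > 0, ∃ S : Finset Sq,
    ∀ (V : Finset Sq) (B : Set Cf), Le V B → Disjoint S V →
      μ.real (A ∩ B) ≤ μ.real A * μ.real B + ε

def V_ext : Prop := ∀ μ ν : Measure Cf, IsProbabilityMeasure μ → IsProbabilityMeasure ν →
  (∀ F : Cf → ℝ, Pc.Loc F → ∫ ω, F ω ∂μ = ∫ ω, F ω ∂ν) → μ = ν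

def V_nl : Prop := ∀ (M L : ℕ) [NeZero M] [NeZero L], Even M → Even L →
  ∀ ω : P167.Q.Tor M L → Bool,
  (∀ t : ℤ × ℤ, Even (t.1 + t.2) →
    P167.Q.nl (P167.Pc.nx (P167.Pc.pt M L) fun v => ω (v + P167.Pc.pv M L t)) =
      P167.Q.nl (P167.Pc.nx (P167.Pc.pt M L) ω)) ∧
  P167.Q.nl (P167.Pc.nx (P167.Pc.pt M L) fun v => !ω (v + (1, 0))) =
    P167.Q.nl (P167.Pc.nx (P167.Pc.pt M L) ω)

def V_cmp : Prop := ∀ (r : ℝ) (M L : ℕ) [NeZero M] [NeZero L], 1 ≤ r → r ≤ 2 → Even M → Even L →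
  ∃ κ > 0, ∀ ω : P167.Q.Tor M L → Bool,
    κ * P167.Q.wT r M L ω ≤ r ^ P167.Q.nl (P167.Pc.nx (P167.Pc.pt M L) ω) ∧
    r ^ P167.Q.nl (P167.Pc.nx (P167.Pc.pt M L) ω) ≤ Real.exp (3 * M) * κ * P167.Q.wT r M L ω

def V_dual : Prop := ∀ (r : ℝ) (μ : Measure Cf), 1 ≤ r → r ≤ 2 → Q.FKm r μ →
  ∀ F : Cf → ℝ, Pc.Loc F → ∫ ω, F (sh (1, 0) ω) ∂μ = ∫ ω, F ω ∂μ

def V_inv : Prop := ∀ (r : ℝ) (μ : Measure Cf), 1 ≤ r → r ≤ 2 → Q.FKm r μ →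
  (∀ t, MeasurePreserving (sh t) μ μ) ∧
  MeasurePreserving (fun (ω : Cf) (v : Sq) => ω (v.1, 1 - v.2)) μ μ ∧
  MeasurePreserving (fun (ω : Cf) (v : Sq) => ω (1 - v.2, 1 - v.1)) μ μ

def V_mod : Prop := ∀ (r : ℝ) (μ : Measure Cf), 1 ≤ r → r ≤ 2 → Q.FKm r μ → Mod μ

/-! ### Finite volume -/

def V_step : Prop := ∀ (r : ℝ) (S : Finset Sq) (ξ : Cf) (e : Sq) (F : Cf → ℝ), 0 < r → e ∈ S →
  Q.fx r S ξ F = Q.fx r S ξ (P167.Q.op e) * Q.fx r (S.erase e) (Function.update ξ e true) F +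
    (1 - Q.fx r S ξ (P167.Q.op e)) * Q.fx r (S.erase e) (Function.update ξ e false) F

def V_mon : Prop := ∀ (r : ℝ) (S : Finset Sq) (ξ ξ' : Cf) (F : Cf → ℝ), 1 ≤ r →
  (∀ v ∉ S, ξ v ≤ ξ' v) → Monotone F → Lc S F → Q.fx r S ξ F ≤ Q.fx r S ξ' F

def V_base : Prop := ∀ (r : ℝ) (S : Finset Sq) (ξ : Cf) (F : Cf → ℝ), Lc S F →
  (∀ v ∉ S, ξ v = true → ∀ e ∈ S,
    Q.ea v ≠ Q.ea e ∧ Q.ea v ≠ Q.eb e ∧ Q.eb v ≠ Q.ea e ∧ Q.eb v ≠ Q.eb e) →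
  Q.fx r S ξ F = Q.f0 r S F

/-- the explored bonds hang on the boundary -/
def Inv (S₀ S : Finset Sq) (ξ : Cf) : Prop :=
  ∀ e ∈ S₀ \ S, Jn S₀ (S₀ \ S) ξ (Q.ea e) ∨ Jn S₀ (S₀ \ S) ξ (Q.eb e)

structure V_det : Prop where
  stp : ∀ (S₀ S : Finset Sq) (ξ : Cf) (e : Sq) (b : Bool), S ⊆ S₀ → e ∈ S → Inv S₀ S ξ →
    (Jn S₀ (S₀ \ S) ξ (Q.ea e) ∨ Jn S₀ (S₀ \ S) ξ (Q.eb e)) →
    Inv S₀ (S.erase e) (Function.update ξ e b)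
  no : ∀ (S₀ S T : Finset Sq) (ξ : Cf), S ⊆ S₀ → T ⊆ S₀ → Inv S₀ S ξ → ¬T ⊆ S →
    ∀ ω, (∀ v ∉ S, ω v = ξ v) → ¬Cut S₀ T ω
  yes : ∀ (S₀ S : Finset Sq) (ξ : Cf), S ⊆ S₀ → Inv S₀ S ξ →
    (∀ e ∈ S, ¬Jn S₀ (S₀ \ S) ξ (Q.ea e) ∧ ¬Jn S₀ (S₀ \ S) ξ (Q.eb e)) →
    (∀ ω, (∀ v ∉ S, ω v = ξ v) → Cut S₀ S ω) ∧ ∀ v ∉ S, ξ v = true → ∀ e ∈ S,
      Q.ea v ≠ Q.ea e ∧ Q.ea v ≠ Q.eb e ∧ Q.eb v ≠ Q.ea e ∧ Q.eb v ≠ Q.eb e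
  lc : ∀ S₀ T : Finset Sq, Lc S₀ fun ω => Pc.chi (Cut S₀ T ω)
  az : ∀ (z : Sq) (n N : ℕ) (ω : Cf), ω ∉ AZ true z (n + 1) N → Cut (bz z (N + 1)) (bz z n) ω

def V_rep : Prop := ∀ (r : ℝ) (S₀ T : Finset Sq) (ξ ξ' : Cf), 1 ≤ r → T ⊆ S₀ →
  (∀ v ∉ S₀, ξ v ≤ ξ' v) → ∃ w : Finset Sq → ℝ, (∀ S, 0 ≤ w S) ∧ (∀ S, w S ≠ 0 → T ⊆ S) ∧
    ∀ F : Cf → ℝ, Lc T F →
      (Q.fx r S₀ ξ' fun ω => F ω * Pc.chi (Cut S₀ T ω)) = ∑ S ∈ S₀.powerset, w S * Q.f0 r S F ∧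
      ((∀ ω, 0 ≤ F ω) → ∑ S ∈ S₀.powerset, w S * Q.f0 r S F ≤ Q.fx r S₀ ξ F)

def V_lift : Prop := ∀ (r : ℝ) (μ : Measure Cf), 1 ≤ r → Q.FKm r μ →
  ∀ (S₀ : Finset Sq) (F F' G : Cf → ℝ), Pc.Loc F → Pc.Loc F' →
  (∀ ξ, Q.fx r S₀ ξ F ≤ Q.fx r S₀ ξ F') → Off S₀ G →
  (exm μ fun ω => F ω * G ω) ≤ exm μ fun ω => F' ω * G ω

def V_sup : Prop := ∀ (r : ℝ) (μ : Measure Cf), 1 ≤ r → Q.FKm r μ → Mod μ →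
  ∀ (S₀ : Finset Sq) (F : Cf → ℝ) (x : ℝ), Monotone F → Lc S₀ F →
  (∀ G, Off S₀ G → (exm μ fun ω => F ω * G ω) ≤ x * exm μ G) →
  Q.fx r S₀ (fun _ => true) F ≤ x

def V_nega : Prop := ∀ (r : ℝ) (μ : Measure Cf), 1 ≤ r → Q.FKm r μ →
  ∀ (R : Finset Sq) (F H : Cf → ℝ), Monotone F → Pc.Loc F → (∀ ω, 0 ≤ F ω) → Adm R H →
  (exm μ fun ω => F (cutR R ω) * H ω) ≤ exm μ F * exm μ H

def V_negb : Prop := ∀ (r : ℝ) (μ : Measure Cf), 1 ≤ r → Q.FKm r μ →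
  ∀ (S₀ R : Finset Sq) (F H G : Cf → ℝ), Monotone F → Lc S₀ F → (∀ ω, 0 ≤ F ω) → Adm R H →
  Off S₀ G → (exm μ fun ω => F (cutR R ω) * (H ω * G ω)) ≤
    Q.fx r S₀ (fun _ => true) F * exm μ fun ω => H ω * G ω

/-! ### Arms and decoupling -/

structure W_az : Prop where
  lc : ∀ c z n N, Le (bz z (N + 1)) (AZ c z n N)
  lr : ∀ R z n N, Le (bz z (N + 1)) (AR R z n N)
  la : ∀ z n N, 1 ≤ n → n ≤ N → Le (bz z (N + 1) \ bz z (n - 1)) (AA z n N)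
  up : ∀ z n N, IsUpperSet (AZ true z n N) ∧ IsLowerSet (AZ false z n N)
  shf : ∀ c z n N (t : Sq) ω, sh t ω ∈ AZ c z n N ↔
    ω ∈ AZ (xor (decide (Odd (t.1 + t.2))) c) (z + t) n N
  un : ∀ z n N, AA z n N = AZ true z n N ∪ AZ false z n N
  mono : ∀ c z n n' N N', n ≤ n' → N' ≤ N → AZ c z n N ⊆ AZ c z n' N'
  zero : ∀ c n N, AZ c 0 n N = BA c n N ∧ AA 0 n N = {ω | ¬NoArm n N ω}
  cut : ∀ (R : Finset Sq) z n N ω, (∀ x ∈ R, Even (x.1 + x.2) → clus ω x ⊆ R) →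
    ω ∈ AR R z n N → cutR R ω ∈ AZ true z n N
  le : ∀ μ, Mod μ → ∀ c z n N, μ.real (AZ c z n N) ≤ pam μ n N
  off : ∀ (W W' : Finset Sq) (t : Sq) G, Off W G → (∀ v ∈ W', v - t ∈ W) →
    Off W' fun ω => G (sh t ω)

def M_mix1 (μ : Measure Cf) : Prop := ∀ (z : Sq) (n N : ℕ) (F G : Cf → ℝ), n ≤ N →
  (∀ ω, 0 ≤ F ω) → Lc (bz z n) F → Antitone F → Off (bz z (N + 1)) G →
  (1 - μ.real (AZ true z (n + 1) N)) * (exm μ fun ω => F ω * G ω) ≤ exm μ F * exm μ G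

/-- an arm of colour `c` decouples from the outside -/
def M_mix (μ : Measure Cf) : Prop := ∀ (c : Bool) (z : Sq) (u n N : ℕ) (G : Cf → ℝ), n + 1 ≤ N →
  Off (bz z (N + 1)) G → (1 - pam μ (n + 2) N) *
    (exm μ fun ω => (AZ c z u n).indicator 1 ω * G ω) ≤ μ.real (AZ c z u n) * exm μ G

def M_tv (μ : Measure Cf) : Prop := ∀ (z : Sq) (n N : ℕ) (F G : Cf → ℝ), n ≤ N →
  (∀ ω, 0 ≤ F ω ∧ F ω ≤ 1) → Lc (bz z n) F → Off (bz z (N + 1)) G →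
  |(exm μ fun ω => F ω * G ω) - exm μ F * exm μ G| ≤
    (exm μ fun ω => (AZ true z (n + 1) N).indicator 1 ω * G ω) +
      μ.real (AZ true z (n + 1) N) * exm μ G

def M_hb0 (μ : Measure Cf) : Prop := ∀ z n N, HB μ (fun _ => 1) (μ.real (AZ true z n N)) z n N

def M_hb1 (μ : Measure Cf) : Prop := ∀ (z : Sq) (n N : ℕ) (ε : ℝ),
  (∀ G, Off (bz z (N + 1)) G →
    (exm μ fun ω => (AZ true z n N).indicator 1 ω * G ω) ≤ ε * exm μ G) →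
  ∀ G, Off (bz z (N + 1)) G → HB μ G ε z n N

def V_mix1 : Prop := ∀ (r : ℝ) (μ : Measure Cf), 1 ≤ r → Q.FKm r μ → M_mix1 μ

def V_tv : Prop := ∀ (r : ℝ) (μ : Measure Cf), 1 ≤ r → Q.FKm r μ → M_tv μ

def V_hb : Prop := ∀ (r : ℝ) (μ : Measure Cf), 1 ≤ r → Q.FKm r μ → Mod μ → M_hb0 μ ∧ M_hb1 μ

/-! ### Crossing estimates -/

def W_pu (μ : Measure Cf) : Prop := ∃ P : Set (Vx → Bool) → ℝ, (∀ A, 0 ≤ P A) ∧ P Set.univ = 1 ∧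
  (∀ A B, Disjoint A B → P (A ∪ B) = P A + P B) ∧
  (∀ A B, IsUpperSet A → IsUpperSet B → P A * P B ≤ P (A ∩ B)) ∧
  ∀ W A, Le W A → P A = nr μ A

def W_hs (μ : Measure Cf) : Prop := ∀ g : Site → Site,
  ((∃ t : Site, g = fun v => (v.1 + t.1, v.2 + t.2)) ∨ (g = fun v => (-v.1, v.2)) ∨
    g = fun v => (v.2, v.1)) → ∀ S A B : Set Site, S.Finite →
  nr μ (Ev e2 (g ⁻¹' S) (g ⁻¹' A) (g ⁻¹' B)) = nr μ (Ev e2 S A B)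

def W_hc (μ : Measure Cf) : Prop := ∀ n : ℕ, 1 / 2 ≤ nr μ (P145.Rs.HC e2 0 n 0 n)

def W_cir (μ : Measure Cf) : Prop := (∃ c > 0, ∀ n : ℕ, 72 ≤ n → c ≤ nr μ (Ci n (3 * n))) ∧
  ∀ K : ℕ, ∃ c > 0, ∀ N : ℕ, 72 ≤ N → c ≤ nr μ (P145.Rs.HC e2 0 ((K : ℤ) * N) 0 N)

def W_fin (μ : Measure Cf) : Prop := ∀ᵐ ω ∂μ, AllF ω

def W_lim (μ : Measure Cf) : Prop := ∀ a, Tendsto (pam μ a) atTop (𝓝 0)

def W_weak (μ : Measure Cf) : Prop := ∃ c > 0, ∃ g : ℕ, 1 ≤ g ∧ ∀ z u, 1 ≤ u →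
  μ.real (AZ true z u (g * u)) ≤ 1 - c

structure W_bd (μ : Measure Cf) (a : ℝ) : Prop where
  loc : ∀ (W : Finset Sq) (G : Cf → ℝ), Lc W G → Bdm μ G
  ns : ∀ s x (F : ℕ → ℝ), Bdm μ fun ω => F (ns s x ω)
  kb : ∀ s z (F : ℕ → ℝ), Bdm μ fun ω => F (kb s z ω)
  kE : ∀ s I R (F : ℕ → ℝ), Bdm μ fun ω => F (kE s I R ω)
  mid : ∀ a b (F : ℕ → ℝ), Bdm μ fun ω => F (mid a b ω)
  nb : ∀ φ R, Bdm μ (nq a φ R)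
  const : ∀ c : ℝ, Bdm μ fun _ => c
  add : ∀ G H, Bdm μ G → Bdm μ H → Bdm μ fun ω => G ω + H ω
  sub : ∀ G H, Bdm μ G → Bdm μ H → Bdm μ fun ω => G ω - H ω
  mul : ∀ G H, Bdm μ G → Bdm μ H → Bdm μ fun ω => G ω * H ω
  sum : ∀ (ι : Type) (s : Finset ι) (G : ι → Cf → ℝ), (∀ i ∈ s, Bdm μ (G i)) →
    Bdm μ fun ω => ∑ i ∈ s, G i ω
  cont : ∀ G (F : ℝ → ℝ), Bdm μ G → Continuous F → Bdm μ fun ω => F (G ω)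
  ind : ∀ B : Set Cf, MeasurableSet B → Bdm μ (B.indicator 1)
  int : ∀ G, Bdm μ G → Integrable G μ

def W_sym (μ : Measure Cf) : Prop :=
  ∀ c a b, pcm μ c a b ≤ pam μ a b ∧ pam μ a b ≤ 5 * pcm μ c (a + 1) b

/-! ### Counting large clusters -/

structure K_pt : Prop where
  adm : ∀ s W R y R' H, Adm R H → Adm (R ∪ R') fun ω => H ω * Pc.chi (DD s W R y R' ω)
  uni : ∀ s W R y R' y₂ R₂ ω, DD s W R y R' ω → DD s W R y₂ R₂ ω → y = y₂ ∧ R' = R₂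
  arm : ∀ s z u N R y R' ω, 2 * N < s → DD s (bz z u) R y R' ω → ω ∈ AR R z u N
  cnt : ∀ s (i : Sq × ℕ) (I : Finset (Sq × ℕ)) (R : Finset Sq) (K : ℕ) ω,
    (∀ x ∈ R, Even (x.1 + x.2) → clus ω x ⊆ R) → (∀ x ∈ bz i.1 i.2, clus ω x ⊆ box K) →
    kE s (insert i I) R ω ≤ kE s I R ω ∨ ∃ y ∈ bz i.1 i.2, ∃ R' ∈ (box K).powerset,
      DD s (bz i.1 i.2) R y R' ω ∧ kE s (insert i I) R ω ≤ kE s (insert i I) (R ∪ R') ω + 1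
  kb : ∀ s z I I' ω, bz z (3 * s) ⊆ til I → bz (z - (1, 0)) (3 * s) ⊆ til I' →
    kb s z ω ≤ kE (s / 2) I ∅ ω + kE (s / 2) I' ∅ (sh (1, 0) ω)

def K_stp (μ : Measure Cf) : Prop := ∀ (G : Cf → ℝ) (t ε x₁ x : ℝ) (s N : ℕ) (i : Sq × ℕ)
  (I : Finset (Sq × ℕ)), Bdm μ G → (∀ ω, 0 ≤ G ω) → 1 ≤ t → 0 ≤ x → 2 * N < s →
  HB μ G ε i.1 i.2 N → KB μ G t s I x₁ → KB μ G t s (insert i I) x →
  KB μ G t s (insert i I) (x₁ + t * ε * x)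

def K_exp (μ : Measure Cf) : Prop := ∀ (G : Cf → ℝ) (t ε : ℝ) (s g : ℕ) (I : Finset (Sq × ℕ)),
  Bdm μ G → (∀ ω, 0 ≤ G ω) → 1 ≤ t → 0 ≤ ε → t * ε < 1 →
  (∀ i ∈ I, 2 * (g * i.2) < s ∧ HB μ G ε i.1 i.2 (g * i.2)) →
  (exm μ fun ω => t ^ kE s I ∅ ω * G ω) ≤ (1 / (1 - t * ε)) ^ I.card * exm μ G

def K_til : Prop := ∀ g : ℕ, 1 ≤ g → ∃ n₀ s₀ : ℕ, ∀ s ≥ s₀, ∀ z : Sq,
  ∃ I : Finset (Sq × ℕ), I.card ≤ n₀ ∧ bz z (3 * s) ⊆ til I ∧ ∀ i ∈ I, 1 ≤ i.2 ∧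
    2 * (g * i.2) < s / 2 ∧ bz i.1 (g * i.2 + 1) ⊆ bz z (5 * s)

def K_m1 (μ : Measure Cf) : Prop := ∃ C : ℝ, ∀ s z, (exm μ fun ω => kb s z ω) ≤ C

def K_ev (μ : Measure Cf) : Prop := ∃ C : ℝ, ∀ (A : ℝ) (T : Tri), T.Ok A →
  Bdm μ T.V ∧ (∀ ω, 0 ≤ T.V ω) ∧ exm μ T.V ≤ C

def K_arm0 (μ : Measure Cf) : Prop := ∀ ε > 0, ∃ m : ℕ, ∀ᶠ J in atTop, ppm μ J m ≤ ε

def K_armq (μ : Measure Cf) : Prop :=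
  ∀ ε > 0, ∃ g : ℕ, 1 ≤ g ∧ ∀ u, 1 ≤ u → pam μ u (g * u) ≤ ε

def S_rsw (μ : Measure Cf) : Prop := ∀ ε > 0, ∃ g : ℕ, 1 ≤ g ∧ ∀ c z u G, 1 ≤ u →
  Off (bz z (g * u + 1)) G →
  (exm μ fun ω => (AZ c z u (g * u)).indicator 1 ω * G ω) ≤ ε * exm μ G

def S_pol (μ : Measure Cf) : Prop := ∃ g : ℕ, 2 ≤ g ∧ ∀ (k : ℕ) z u G, 1 ≤ u →
  Off (bz z (g ^ k * u + 1)) G →
  (exm μ fun ω => (AA z u (g ^ k * u)).indicator 1 ω * G ω) ≤ (1 / 2) ^ k * exm μ G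

def S_tv (μ : Measure Cf) : Prop := ∃ g : ℕ, 2 ≤ g ∧ ∀ (k : ℕ) z n (F G : Cf → ℝ),
  (∀ ω, 0 ≤ F ω ∧ F ω ≤ 1) → Lc (bz z n) F → Off (bz z (g ^ k * (n + 1) + 1)) G →
  |(exm μ fun ω => F ω * G ω) - exm μ F * exm μ G| ≤ 2 * (1 / 2) ^ k * exm μ G

def K_mc (μ : Measure Cf) : Prop := ∀ t : ℝ, ∃ C : ℝ, ∀ s z G, Off (bz z (5 * s + 5)) G →
  (exm μ fun ω => Real.exp (t * kb s z ω) * G ω) ≤ C * exm μ G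

def K_momq (μ : Measure Cf) : Prop :=
  ∀ t : ℝ, ∃ C : ℝ, ∀ s z, (exm μ fun ω => Real.exp (t * kb s z ω)) ≤ C

/-! ### Concentration -/

def C_oneq (μ : Measure Cf) : Prop := ∀ T B : ℝ, 0 ≤ T → ∃ C : ℝ, 0 ≤ C ∧
  ∀ (W K G : Cf → ℝ) (ε δ : ℝ), Bdm μ W → Bdm μ K → Bdm μ G → (∀ ω, 0 ≤ G ω) → 0 ≤ ε → ε ≤ T →
  0 < δ → (∀ ω, |W ω| ≤ ε * K ω) → (∀ ω, 0 ≤ K ω) →
  (exm μ fun ω => Real.exp ((T + 2) * K ω)) ≤ B →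
  (exm μ fun ω => Real.exp ((T + 2) * K ω) * G ω) ≤ B * exm μ G →
  (∀ φ : ℝ → ℝ, Continuous φ → (∀ y, 0 ≤ φ y ∧ φ y ≤ 1) →
    |(exm μ fun ω => φ (W ω) * G ω) - (exm μ fun ω => φ (W ω)) * exm μ G| ≤ δ * exm μ G) →
  (exm μ fun ω => Real.exp (W ω - exm μ W) * G ω) ≤
    Real.exp (C * (ε * Real.sqrt δ + ε ^ 2)) * exm μ G

def C_spl (μ : Measure Cf) : Prop := ∀ (Tl R : Finset Sq) (cl : Sq → Sq) (Wd Ud : Sq → Finset Sq)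
  (G : Sq → Cf → ℝ) (c : ℝ), R.Nonempty → (∀ b ∈ Tl, Lc (Wd b) (G b)) → (∀ b ∈ Tl, cl b ∈ R) →
  (∀ b ∈ Tl, ∀ b' ∈ Tl, b ≠ b' → cl b = cl b' → Disjoint (Wd b') (Ud b)) →
  (∀ b ∈ Tl, ∀ H, Off (Ud b) H →
    (exm μ fun ω => Real.exp (R.card * G b ω) * H ω) ≤ Real.exp c * exm μ H) →
  (exm μ fun ω => Real.exp (∑ b ∈ Tl, G b ω)) ≤ Real.exp (c * Tl.card / R.card)

def C_num : Prop := ∀ g : ℕ, 2 ≤ g → ∃ D : ℝ, ∀ k : ℕ, ∃ l : ℕ,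
  ((k : ℝ) + 1) ^ 2 * Real.sqrt (2 * (1 / 2) ^ l) ≤ D ∧
    ((g : ℝ) ^ l) ^ 2 * ((k : ℝ) + 1) ^ 4 ≤ D * 4 ^ k

/-- one tile, conditionally on what is far away -/
def C_til (μ : Measure Cf) : Prop := ∃ g : ℕ, 2 ≤ g ∧ ∀ T : ℝ, 0 ≤ T → ∃ C : ℝ, 0 ≤ C ∧
  ∀ (l u : ℕ) (z : Sq) (W H : Cf → ℝ) (ε : ℝ), 1 ≤ u → 0 ≤ ε → ε ≤ T → Lc (bz z (4 * u)) W →
  (∀ ω, |W ω| ≤ ε * kb u z ω) → Off (bz z (10 * g ^ l * u)) H →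
  (exm μ fun ω => Real.exp (W ω - exm μ W) * H ω) ≤
    Real.exp (C * (ε * Real.sqrt (2 * (1 / 2) ^ l) + ε ^ 2)) * exm μ H

def C_levq (μ : Measure Cf) : Prop := ∀ A T : ℝ, 0 ≤ T → ∃ C : ℝ, ∀ J j ψ (τ : ℝ), Ad A J ψ →
  j ≤ J → |τ| ≤ T * (((J - j : ℕ) : ℝ) + 1) ^ 2 →
  (exm μ fun ω => Real.exp (τ * (LL ψ J j ω - exm μ (LL ψ J j)))) ≤ C

def C_sclq (μ : Measure Cf) : Prop := ∀ A t : ℝ, 0 ≤ t → ∃ C : ℝ, ∀ J ψ (σ : ℝ), Ad A J ψ →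
  |σ| ≤ t → (exm μ fun ω => Real.exp (σ * (SS ψ J ω - enm μ (2 ^ J)) +
    t * (QQ ψ J ω + kb (2 ^ J) 0 ω))) ≤ C

def C_triq (μ : Measure Cf) (a : ℝ) : Prop := ∀ (A θ₁ θ₂ σ t : ℝ), 0 ≤ t → ∃ C : ℝ,
  ∀ T : Tri, T.Ok A →
  (Bdm μ fun ω => σ * (-(Real.tan a * T.Y θ₁ θ₂ ω) - bq μ a T θ₁ θ₂) + t * T.V ω) ∧
  (exm μ fun ω => Real.exp (σ * (-(Real.tan a * T.Y θ₁ θ₂ ω) - bq μ a T θ₁ θ₂) + t * T.V ω)) ≤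
    Real.exp C

/-! ### Deterministic decomposition -/

def D_inq (a : ℝ) : Prop := (∀ x : ℝ, |wq a x| ≤ Real.exp (-(Real.tan a * x) + 8 * x ^ 2)) ∧
  ∀ η > 0, ∃ c : ℝ, 0 ≤ c ∧ ∀ x : ℝ, -(Real.pi / 2) + η ≤ x → x ≤ Real.pi / 2 - a - η →
    Real.exp (-c) ≤ wq a x ∧ Real.exp (-(Real.tan a * x) - c * x ^ 2) ≤ wq a x

def D_upq (a : ℝ) : Prop := ∀ A θ₁ θ₂ : ℝ, ∃ c : ℝ, 0 ≤ c ∧ ∀ T : Tri, T.Ok A → ∀ ω, AllF ω →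
  |nnq a T θ₁ θ₂ ω| ≤ T.Z |wq a (θ₁ + θ₂)| |wq a θ₂| ω *
    Real.exp (-(Real.tan a * T.Y θ₁ θ₂ ω) + c * T.V ω)

def D_loq (a : ℝ) : Prop := ∀ A θ₁ θ₂ η : ℝ, 0 < η → ∃ c : ℝ, 0 ≤ c ∧ ∀ T : Tri, T.Ok A →
  ∀ ω, AllF ω → Goodq a T θ₁ θ₂ η ω → T.Z (wq a (θ₁ + θ₂)) (wq a θ₂) ω *
    Real.exp (-(Real.tan a * T.Y θ₁ θ₂ ω) - c * T.V ω) ≤ nnq a T θ₁ θ₂ ω

def D_goodq (a : ℝ) : Prop := ∀ (A θ : ℝ) (T : Tri), T.Ok A → ∀ ω,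
  |θ| < Real.pi / 2 - a → Goodq a T θ 0 (Real.pi / 2 - a - |θ|) ω

/-! ### Loops and clusters, the field -/

/-- the two squares at an edge -/
def sd (e : P152.Edge) (b : Bool) : Sq :=
  if b then e.1 else e.1 - if e.2 then (0, 1) else (1, 0)

def L_a0 : Prop := ∀ (ω : Cf) (e e' : P152.Edge) (b b' : Bool), e' ∈ Pc.loop ω e →
  Even ((sd e b).1 + (sd e b).2 + ((sd e' b').1 + (sd e' b').2)) → sd e' b' ∈ clus ω (sd e b)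

def L_a1 : Prop := ∀ (ω : Cf) (e : P152.Edge), (Pc.loop ω e).Finite →
  (Pc.ins (Pc.loop ω e)).Finite ∧
  ∀ u v, Op ω u v → (u ∈ Pc.ins (Pc.loop ω e) ↔ v ∈ Pc.ins (Pc.loop ω e))

def L_a : Prop := ∀ (ω : Cf) (e : P152.Edge), (Pc.loop ω e).Finite →
  (Pc.ins (Pc.loop ω e)).Finite ∧
  (∀ u v, Op ω u v → (u ∈ Pc.ins (Pc.loop ω e) ↔ v ∈ Pc.ins (Pc.loop ω e))) ∧
  ∃ x y : Sq, x ∈ Pc.ins (Pc.loop ω e) ∧ y ∉ Pc.ins (Pc.loop ω e) ∧ ∀ u v, Nb u v →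
    u ∈ Pc.ins (Pc.loop ω e) → v ∉ Pc.ins (Pc.loop ω e) → u ∈ clus ω x ∧ v ∈ clus ω y

def L_b : Prop := ∀ (ω : Cf) (D : Set Sq) (x y : Sq), D.Finite →
  (∀ u v, Op ω u v → (u ∈ D ↔ v ∈ D)) → x ∈ D → y ∉ D →
  (∀ u v, Nb u v → u ∈ D → v ∉ D → u ∈ clus ω x ∧ v ∈ clus ω y) → D = fill ω (clus ω x)

def L_c : Prop := ∀ ω : Cf, AllF ω → (∀ e, (Pc.loop ω e).Finite) →
  (∀ x, ∃ e, Pc.ins (Pc.loop ω e) = fill ω (clus ω x)) ∧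
  ∀ x x', fill ω (clus ω x) = fill ω (clus ω x') → clus ω x = clus ω x'

def L_bij : Prop := ∀ ω : Cf, AllF ω → (∀ e, (Pc.loop ω e).Finite) → ∀ w : Set Sq → ℝ,
  ∏ᶠ l ∈ P167.Pc.loops ω, w (Pc.ins l) = ∏ᶠ C ∈ loops ω, w (fill ω C)

def L_fp : Prop := ∀ (a δ : ℝ) (f : ℝ × ℝ → ℝ) (φ : Sq → ℝ) (R : ℕ), Ang a →
  ∑ x ∈ box R, φ x = 0 → (∀ T : Set Sq, ∫ z in region δ T, f z = ms φ R T) → ∀ ω,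
  nestq a δ f ω = nq a φ R ω

def Goalq (μ : Measure Cf) (a : ℝ) : Prop := ∀ f : ℝ × ℝ → ℝ, IsTest f →
  Tendsto (fun δ : ℝ => exm μ (nestq a δ f)) (𝓝[>] 0)
    (𝓝 (Real.exp (-(1 / (Real.pi - a)) * gcov f f)))

def G_gffq (μ : Measure Cf) (a : ℝ) : Prop := ∃ (A : ℝ) (T : ℕ → ℕ → Tri),
  (∀ J m, 4 ≤ m → (T J m).Ok A ∧ (T J m).J = J ∧ (T J m).m₁ = m) ∧
  ∀ θ : ℝ, ∃ C : ℝ, ∀ m : ℕ, 4 ≤ m → ∀ᶠ J in atTop,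
    Real.exp (-(aq a * θ ^ 2 * m) - C) ≤ exm μ (nnq a (T J m) θ 0) ∧
    exm μ (nnq a (T J m) θ 0) ≤ Real.exp (-(aq a * θ ^ 2 * m) + C)

/-! ### Integrated inequalities -/

def I_upq (μ : Measure Cf) (a : ℝ) : Prop := ∀ A θ₁ θ₂ p : ℝ, 1 < p → ∃ C : ℝ, ∀ T : Tri,
  T.Ok A → ∀ B : Set Cf, MeasurableSet B →
  (exm μ fun ω => |nnq a T θ₁ θ₂ ω| * B.indicator 1 ω) ≤ Real.exp (C + bq μ a T θ₁ θ₂) *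
    (exm μ fun ω => T.Z (|wq a (θ₁ + θ₂)| ^ p) (|wq a θ₂| ^ p) ω * B.indicator 1 ω) ^ (1 / p)

def I_loq (μ : Measure Cf) (a : ℝ) : Prop := ∀ A θ₁ θ₂ η p : ℝ, 0 < η → 1 < p →
  0 < wq a (θ₁ + θ₂) → 0 < wq a θ₂ → ∃ C : ℝ, ∀ T : Tri, T.Ok A → ∀ B : Set Cf,
  MeasurableSet B → (∀ ω ∈ B, Goodq a T θ₁ θ₂ η ω) →
  (exm μ fun ω => T.Z (wq a (θ₁ + θ₂) ^ (1 / p)) (wq a θ₂ ^ (1 / p)) ω * B.indicator 1 ω) ^ p ≤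
    Real.exp (C - bq μ a T θ₁ θ₂) * exm μ fun ω => nnq a T θ₁ θ₂ ω * B.indicator 1 ω

def I_u1q (μ : Measure Cf) (a : ℝ) : Prop := ∀ θ p : ℝ, 1 < p → ∃ C : ℝ, ∀ m : ℕ, 4 ≤ m →
  ∀ᶠ J in atTop,
  Real.exp (-(aq a * θ ^ 2 * m) - θ * bem μ a J m - C) ≤ FFm μ (|wq a θ| ^ p) J m ^ (1 / p)

def I_l1q (μ : Measure Cf) (a : ℝ) : Prop := ∀ θ p : ℝ, |θ| < Real.pi / 2 - a → 1 < p →
  ∃ C : ℝ, ∀ m : ℕ, 4 ≤ m → ∀ᶠ J in atTop,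
  FFm μ (wq a θ ^ (1 / p)) J m ^ p ≤ Real.exp (-(aq a * θ ^ 2 * m) - θ * bem μ a J m + C)

structure R_0q (μ : Measure Cf) (a : ℝ) : Prop where
  mono : ∀ (s t : ℝ) J m, 0 ≤ s → s ≤ t → 0 ≤ FFm μ s J m ∧ FFm μ s J m ≤ FFm μ t J m
  one : ∀ J m, FFm μ 1 J m = 1
  arm : ∀ (t : ℝ) J m, 0 ≤ t → 0 ≤ ppm μ J m ∧ ppm μ J m ≤ FFm μ t J m
  be : ∀ J m, 0 ≤ bem μ a J m
  zero : ∀ J m, FFm μ 0 J m = μ.real {ω | N1 J m ω = 0}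

def R_1q (μ : Measure Cf) (a : ℝ) : Prop :=
  (∃ C : ℝ, ∀ m : ℕ, 4 ≤ m → ∀ᶠ J in atTop, bem μ a J m ≤ 2 * a * aq a * m + C) ∧
  ∀ ε > 0, ∃ m₀ : ℕ, ∀ m ≥ m₀, ∀ᶠ J in atTop,
    Real.exp (-((al a * Real.log 2 + ε) * m)) ≤ FFm μ 0 J m

def R_2q (μ : Measure Cf) (a : ℝ) : Prop := ∀ ε > 0, ∃ m₀ : ℕ, ∀ m ≥ m₀, ∀ᶠ J in atTop,
  (2 * a * aq a - ε) * m ≤ bem μ a J m

def R_3q (μ : Measure Cf) (a : ℝ) : Prop := ∀ ε > 0, ∃ m₀ : ℕ, ∀ m ≥ m₀, ∀ᶠ J in atTop,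
  ppm μ J m ≤ Real.exp (-((al a * Real.log 2 - ε) * m))

/-! ### Arms -/

structure Q_subq (μ : Measure Cf) : Prop where
  ma : ∀ a a' b b', a ≤ a' → b' ≤ b → pam μ a b ≤ pam μ a' b'
  mc : ∀ c a a' b b', a ≤ a' → b' ≤ b → pcm μ c a b ≤ pcm μ c a' b'
  two : ∃ g : ℕ, 2 ≤ g ∧ ∀ a b a' d, g * (b + 2) ≤ a' → a' ≤ d →
    μ.real ({ω | ¬NoArm a b ω} ∩ {ω | ¬NoArm a' d ω}) ≤ 4 * (pam μ a b * pam μ a' d) ∧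
    (a ≤ b → pam μ a d ≤ 4 * (pam μ a b * pam μ a' d))

def Q_ringq (μ : Measure Cf) : Prop := ∃ c > 0, ∀ a u d : ℕ, 72 ≤ u → a < u → 6 * u ≤ d →
  c * (pcm μ true a (6 * u) * pcm μ true (u - 1) d) ≤ pcm μ true a d

def Q_rswq (μ : Measure Cf) : Prop :=
  (∀ g : ℕ, ∃ c > 0, ∀ a ≥ 144, c ≤ pcm μ true a (g * a)) ∧ ∀ b, 0 < pcm μ true 0 b

def Q_inq (μ : Measure Cf) : Prop := ∀ g : ℕ, ∃ c > 0, ∀ a ≥ 144, ∀ a' ≤ g * a, ∀ d,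
  c * pcm μ true a' d ≤ pcm μ true a d

def Q_glueq (μ : Measure Cf) : Prop := ∀ g : ℕ, ∃ C : ℝ, ∀ a k k' d : ℕ, 144 ≤ a → a ≤ k →
  k' ≤ g * k → pam μ a k * pam μ k' d ≤ C * pcm μ true a d

def Q_midq (μ : Measure Cf) : Prop := ∃ C : ℝ, ∀ J ≥ 6, ∀ m ≥ 4,
  FFm μ 0 J m ≤ C * m * pcm μ true (3 * 2 ^ J) (2 ^ (J + m) - 1)

def E_upq (μ : Measure Cf) (a : ℝ) : Prop := ∀ ε > 0, ∀ᶠ n : ℕ in atTop,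
  pcm μ true 0 n ≤ Real.exp (-((al a - ε) * Real.log n))

def E_loq (μ : Measure Cf) (a : ℝ) : Prop := ∀ ε > 0, ∀ᶠ n : ℕ in atTop,
  Real.exp (-((al a + ε) * Real.log n)) ≤ pcm μ true 0 n

def Goal3 (μ : Measure Cf) (a : ℝ) : Prop := Tendsto (fun n : ℕ =>
  Real.log (μ.real {ω | ∃ y ∈ P167.Q.clus ω (0, 0), (n : ℤ) < max |y.1| |y.2|}) / Real.log n)
  atTop (𝓝 (-al a))

/-- conversion of the constants -/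
def Z_num : Prop := ∀ q : ℝ, 2 < q → q ≤ 4 → Ang (Real.arccos (√q / 2)) ∧
  4 * Real.pi / Real.arccos (-√q / 2) / (4 * Real.pi) = 1 / (Real.pi - Real.arccos (√q / 2)) ∧
  al (Real.arccos (√q / 2)) = (8 - 4 * Real.pi / Real.arccos (-√q / 2)) *
    (3 * (4 * Real.pi / Real.arccos (-√q / 2)) - 8) / (32 * (4 * Real.pi / Real.arccos (-√q / 2)))

def Z_phq : Prop := ∀ (q δ : ℝ) (f : ℝ × ℝ → ℝ) (ω : Cf), 1 ≤ q → q ≤ 4 → AllF ω →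
  (∀ e, (Pc.loop ω e).Finite) → P167.Q.Phq q δ f ω = nestq (Real.arccos (√q / 2)) δ f ω

end Vale.Agent.P167Q.W
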