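import Vale.Agent.P167W.WStm
import Vale.Agent.P167.ZStm
import Vale.Agent.P167.ZR2

/-! P167W, three charges: definitions and statements. -/

open Finset Relation Filter Topology MeasureTheory
open scoped Classical BigOperators

namespace Vale.Agent.P167Q.W

open Vale.Agent.P167 (Q.ea Q.eb Q.fx Q.f0 Q.FKm Pc.chi Pc.Loc)

noncomputable section

/-- number of open clusters that avoid `R` and are large at a scale whose tiles they meet -/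
def kM (s : ℕ → ℕ) (I : ℕ → Finset (Sq × ℕ)) (n m : ℕ) (R : Finset Sq) (ω : Cf) : ℕ :=
  ((cls ω ((Ico n (n + m)).biUnion fun i => til (I i))).filter fun C : Set Sq =>
    (∀ x ∈ C, Even (x.1 + x.2)) ∧ (∀ x ∈ R, x ∉ C) ∧
      ∃ i ∈ Ico n (n + m), (∃ x ∈ til (I i), x ∈ C) ∧ ¬Sml C (s i)).card

/-- `R'` is the union of the open clusters that meet `W` -/
def EX (W R' : Finset Sq) (ω : Cf) : Prop :=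
  ∀ v, v ∈ R' ↔ ∃ x ∈ W, Even (x.1 + x.2) ∧ v ∈ clus ω x

/-- surrounding clusters of colour `c` -/
def mc (c : Bool) (a b : ℕ) (ω : Cf) : ℕ :=
  ((cls ω (box b)).filter fun C : Set Sq =>
    IsMid a b ω C ∧ ∀ x ∈ C, decide (Even (x.1 + x.2)) = c).card

end

/-- wired arms are not likely -/
def WB (r : ℝ) : Prop := ∃ g u₀ : ℕ, 1 ≤ g ∧ ∀ u ≥ u₀, ∀ z : ℤ × ℤ,
  Q.fx r (P167.Q.zb z (g * u + 1)) (fun _ => true)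
    (fun ω => Pc.chi (P167.Q.Ar z u (g * u) ω)) ≤ 1 / 2

structure Z_pt : Prop where
  cnt : ∀ (s : ℕ → ℕ) I n m R R' ω, Monotone s → EX (til (I n)) R' ω →
    kM s I n (m + 1) R ω ≤ kE (s n) (I n) R ω + kM s I (n + 1) m (R ∪ R') ω
  zero : ∀ s I n R ω, kM s I n 0 R ω = 0
  adm : ∀ s I R R' H (t : ℝ), 0 ≤ t → Adm R H →
    Adm (R ∪ R') fun ω => H ω * (t ^ kE s I R ω * Pc.chi (EX (til I) R' ω))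
  uni : ∀ W R' R'' ω, EX W R' ω → EX W R'' ω → R' = R''
  ex : ∀ (W : Finset Sq) (K : ℕ) ω, (∀ x ∈ W, clus ω x ⊆ box K) →
    ∃ R' ∈ (box K).powerset, EX W R' ω

structure Z_mc : Prop where
  lc : ∀ c a b, Lc (box (b + 1)) (mc c a b)
  le : ∀ a b ω, mid a b ω ≤ mc true a b ω + mc false a b ω
  ev : ∀ (J m : ℕ) (I : ℕ → Finset (Sq × ℕ)) ω, (∀ i, bz 0 (3 * 2 ^ (J + i + 1)) ⊆ til (I i)) →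
    mc true (3 * 2 ^ J) (2 ^ (J + m) - 1) ω ≤ kM (fun i => 2 ^ (J + i + 1) / 2) I 0 m ∅ ω
  od : ∀ (J m : ℕ) (I : ℕ → Finset (Sq × ℕ)) ω,
    (∀ i, bz (0 - (1, 0)) (3 * 2 ^ (J + i + 1)) ⊆ til (I i)) →
    mc false (3 * 2 ^ J) (2 ^ (J + m) - 1) (sh (-1, 0) ω) ≤
      kM (fun i => 2 ^ (J + i + 1) / 2) I 0 m ∅ ω

def Z_kb (μ : Measure Cf) : Prop := ∀ (t ε : ℝ) (s g : ℕ) (I : Finset (Sq × ℕ)), 1 ≤ t → 0 ≤ ε →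
  t * ε < 1 → (∀ i ∈ I, 2 * (g * i.2) < s ∧ HB μ (fun _ => 1) ε i.1 i.2 (g * i.2)) →
  KB μ (fun _ => 1) t s I ((1 / (1 - t * ε)) ^ I.card)

def Z_ch (μ : Measure Cf) : Prop := ∀ (t x : ℝ) (s : ℕ → ℕ) (I : ℕ → Finset (Sq × ℕ)), 1 ≤ t →
  0 ≤ x → Monotone s → (∀ i, KB μ (fun _ => 1) t (s i) (I i) x) →
  ∀ (m n : ℕ) (R : Finset Sq) (H Φ : Cf → ℝ), Adm R H → Bdm μ Φ → (∀ ω, 0 ≤ Φ ω) →
    (∀ ω, H ω ≠ 0 → Φ ω ≤ t ^ kM s I n m R ω) →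
    (exm μ fun ω => Φ ω * H ω) ≤ x ^ m * exm μ H

def K_midq (μ : Measure Cf) : Prop := ∃ C : ℝ, ∃ J₀, ∀ J ≥ J₀, ∀ m : ℕ, 1 ≤ m →
  FFm μ 16 J m ≤ Real.exp (C * m)

def Q_decq (μ : Measure Cf) : Prop := ∃ α > 0, ∃ C : ℝ, ∃ J₀, ∀ J ≥ J₀, ∀ m : ℕ,
  ppm μ J m ≤ Real.exp (C - α * m)

def G_gff3 (μ : Measure Cf) (a : ℝ) : Prop := ∃ A : ℝ, ∀ θ₁ θ₂ : ℝ, ∃ C : ℝ, ∀ m₁ m₂ : ℕ,
  4 ≤ m₁ → 4 ≤ m₂ → ∀ᶠ J in atTop, ∃ ψ₀ ψ₁ ψ₂, Tri.Ok ⟨J, m₁, m₂, ψ₀, ψ₁, ψ₂⟩ A ∧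
    exm μ (nnq a ⟨J, m₁, m₂, ψ₀, ψ₁, ψ₂⟩ θ₁ θ₂) ≤
      Real.exp (-(aq a * ((θ₁ + θ₂) ^ 2 * m₁ + θ₂ ^ 2 * m₂)) + C)

def D_good3 (a : ℝ) : Prop := ∀ (A θ : ℝ) (T : Tri), T.Ok A → ∀ ω, -a < θ → θ < 0 →
  NoArm (3 * 2 ^ T.J₁) (2 ^ T.J₂ - 1) ω → Goodq a T (θ / 2) (θ / 2) ((a + θ) / 2) ω

/-- the two integrals of the three charge inequality -/
def Z_key (μ : Measure Cf) : Prop := ∃ s J₀ : ℕ, 4 ≤ s ∧ ∃ c > 0, ∀ J ≥ J₀, ∀ (m₁ m₂ : ℕ) (x y : ℝ),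
  4 ≤ m₂ → 1 ≤ x → 0 ≤ y →
  0 ≤ FFm μ y (J + (m₁ + s)) m₂ - ppm μ (J + (m₁ + s)) m₂ ∧
  c * (FFm μ x J m₁ * (FFm μ y (J + (m₁ + s)) m₂ - ppm μ (J + (m₁ + s)) m₂)) ≤
    (exm μ fun ω => x ^ N1 J (m₁ + s) ω * y ^ N1 (J + (m₁ + s)) m₂ ω *
      {ω | ¬NoArm (3 * 2 ^ (J + (m₁ + s))) (2 ^ (J + (m₁ + s) + m₂) - 1) ω}ᶜ.indicator 1 ω) ∧
  (exm μ fun ω => x ^ N1 J (m₁ + s) ω * y ^ N1 (J + (m₁ + s)) m₂ ω *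
      {ω | ¬NoArm (3 * 2 ^ (J + (m₁ + s))) (2 ^ (J + (m₁ + s) + m₂) - 1) ω}.indicator 1 ω) ≤
    (FFm μ (x ^ 2) J (m₁ + s) * ppm μ (J + (m₁ + s)) m₂) ^ (1 / 2 : ℝ)

def Z_l2 (μ : Measure Cf) (a : ℝ) : Prop :=
  P167.ZR2.L2 a (aq a) (wq a) (FFm μ) (bem μ a) (ppm μ)

end Vale.Agent.P167Q.W
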